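import Mathlib
import Vale.Agent.P146.Bdl.B2
import Vale.Agent.P146.Bdl.B22
import Vale.Agent.P146.Bdl.B34
import Vale.Agent.P146.Bdl.B18
import Vale.Agent.P146.Bdl.B13
import Vale.Agent.P146.Bdl.B21
import Vale.Agent.P146.Bdl.B37

set_option linter.all false

section

/-!
(L2): if the energy depends only on the coordinates of the level `d`, the free energy is an
exponential moment; the free energy without fields; the tree field.
-/

open MeasureTheory ProbabilityTheory Filter Topology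

namespace Vale.Agent.P146.Ub.Ld

set_option linter.unusedSectionVars false

open Vale.Agent.P157 Vale.Agent.P157.Lv Vale.Agent.P157.Lv.Sy
open Vale.Agent.P157.Par (Path Exponents incr spinPart)
open Vale.Agent.P146 (Pair freeEnergy disorder)

section Gen

variable {ι X : Type} [Fintype ι] [Fintype X] [Nonempty X] {S : Sy ι X}

/-- If the energy depends only on the coordinates of the level `d + 1`. -/
theorem fe_level (hS : S.Reg) {d : ℕ} (hd : d + 1 ≤ S.K)
    (h : ∀ x, Dep S.lev (d + 1) fun z => S.H z x)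
    (h' : ∀ z w x, S.H (mix S.lev d z w) x = S.H w x) :
    S.fe = 1 / S.m (d + 1) * Real.log (∫ z, Real.exp (S.m (d + 1) * S.top z) ∂(gI ι)) := by
  have key : ∀ k, ∀ l, d + 1 ≤ l → l + k = S.K → S.lg l = S.top := by
    intro k
    induction k with
    | zero =>
      intro l _ hl
      have : l = S.K := by omega
      subst this
      exact Sy.lg_top S
    | succ k ih =>
      intro l hl hk
      have ih' := ih (l + 1) (by omega) (by omega)
      rw [Sy.lg_step S (show l < S.K by omega), ih']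
      funext z
      have hdd : Dep S.lev l (fun z => Real.exp (S.m (l + 1) * S.top z)) := by
        intro z w
        simp only
        congr 2
        unfold Sy.top
        congr 1
        refine Finset.sum_congr rfl fun x _ => ?_
        exact congrArg Real.exp ((h x).mono hl z w)
      have hm : S.m (l + 1) ≠ 0 := (hS.m_pos (by omega) (by omega)).ne'
      unfold Sy.stp
      rw [hdd.J_eq, Real.log_exp]
      field_simp
  have h1 : S.lg (d + 1) = S.top := key (S.K - (d + 1)) (d + 1) le_rfl (by omega)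
  obtain ⟨c, hc⟩ : ∃ c, c = 1 / S.m (d + 1) *
    Real.log (∫ z, Real.exp (S.m (d + 1) * S.top z) ∂(gI ι)) := ⟨_, rfl⟩
  have h2 : S.lg d = fun _ => c := by
    rw [Sy.lg_step S (show d < S.K by omega), h1]
    funext z
    unfold Sy.stp J
    rw [hc]
    congr 2
    refine integral_congr_ae (Filter.Eventually.of_forall fun w => ?_)
    simp only
    congr 2
    unfold Sy.top
    congr 1
    exact Finset.sum_congr rfl fun x _ => congrArg Real.exp (h' z w x)
  have h3 : ∀ k, ∀ l, l + k = d → S.lg l = fun _ => c := by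
    intro k
    induction k with
    | zero =>
      intro l hl
      have : l = d := by omega
      subst this
      exact h2
    | succ k ih =>
      intro l hl
      rw [Sy.lg_step S (show l < S.K by omega), ih (l + 1) (by omega)]
      funext z
      have hm : S.m (l + 1) ≠ 0 := (hS.m_pos (by omega) (by omega)).ne'
      unfold Sy.stp
      rw [J_const, Real.log_exp]
      field_simp
  rw [← hc]
  unfold Sy.fe
  rw [h3 d 0 (by omega)]
  simp

end Gen

end Vale.Agent.P146.Ub.Ld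
end

section

/-!
# P367, classical half: full replica symmetry breaking of SK at every `β > 1`

Definitions for the certificate on a general block of the Parisi recursion.
-/

open MeasureTheory ProbabilityTheory Filter Topology Set

namespace Vale.Agent.P367.Cl

open Vale.Agent.P157.Par
open Vale.Agent.P146.Gap
open Vale.Agent.P146.Pw2

/-- Forward densities: at the time `τ` of a block of exponent `g` the chain has the density
`exp (L x - x² / (2 τ) + g F x)` up to a constant, `F` the function of the recursion at that time.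
With `K = 1/τ - L''`: `K ≥ 0`, `K' ≤ 0` and `K / F''` nondecreasing on the half line. -/
structure Fw (τ : ℝ) (L F : ℝ → ℝ) : Prop where
  tau : 0 < τ
  smb : SmB L
  even : ∀ x, L (-x) = L x
  K0 : ∀ x, 0 ≤ 1 / τ - iteratedDeriv 2 L x
  K1 : ∀ x, 0 ≤ x → 0 ≤ iteratedDeriv 3 L x
  R1 : ∀ x, 0 ≤ x → 0 ≤ -iteratedDeriv 3 L x * iteratedDeriv 2 F x
    - (1 / τ - iteratedDeriv 2 L x) * iteratedDeriv 3 F x

/-- The heat flow of the density: `exp (L_s x - x² / (2 (τ + s)))` is a multiple of the Gaussian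
average (variance `s`) of `exp (L x - x² / (2 τ))`. -/
noncomputable def Lh (τ : ℝ) (L : ℝ → ℝ) (s x : ℝ) : ℝ :=
  gstep 1 (τ * s / (τ + s)) L (τ / (τ + s) * x)

/-- The density at the time `τ`, up to a constant. -/
noncomputable def wgt (τ g : ℝ) (L F : ℝ → ℝ) (x : ℝ) : ℝ :=
  Real.exp (L x - x ^ 2 / (2 * τ) + g * F x)

/-- The integrand of `M''`. -/
noncomputable def m2i (g : ℝ) (F : ℝ → ℝ) (x : ℝ) : ℝ :=
  iteratedDeriv 4 F x ^ 2 - 12 * g * iteratedDeriv 2 F x * iteratedDeriv 3 F x ^ 2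
    + 6 * g ^ 2 * iteratedDeriv 2 F x ^ 4

/-- The function of the recursion at the time `r l + t` of the block `(l, l + 1)`. -/
noncomputable def Gb (n : ℕ) (m r : ℕ → ℝ) (l : ℕ) (t : ℝ) : ℝ → ℝ :=
  gstep (m (l + 1)) (r (l + 1) - r l - t) (Fl n m r (l + 1))

/-- The average at the time `r l + t` of the block `(l, l + 1)`. -/
noncomputable def Bt (n : ℕ) (m r : ℕ → ℝ) (l : ℕ) (t : ℝ) (ψ : ℝ → ℝ) : ℝ :=
  Ee n m r l (tlt (m (l + 1)) t (Gb n m r l t) ψ)

/-- `R = E G'²`. -/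
noncomputable def Rb (n : ℕ) (m r : ℕ → ℝ) (l : ℕ) (t : ℝ) : ℝ :=
  Bt n m r l t (fun x => iteratedDeriv 1 (Gb n m r l t) x ^ 2)

/-- `A = E G''`. -/
noncomputable def Ab (n : ℕ) (m r : ℕ → ℝ) (l : ℕ) (t : ℝ) : ℝ :=
  Bt n m r l t (iteratedDeriv 2 (Gb n m r l t))

/-- `M = E G''²`. -/
noncomputable def Mb (n : ℕ) (m r : ℕ → ℝ) (l : ℕ) (t : ℝ) : ℝ :=
  Bt n m r l t (fun x => iteratedDeriv 2 (Gb n m r l t) x ^ 2)

/-- `M'`. -/
noncomputable def M1b (n : ℕ) (m r : ℕ → ℝ) (l : ℕ) (t : ℝ) : ℝ :=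
  Bt n m r l t (fun x => iteratedDeriv 3 (Gb n m r l t) x ^ 2
    - 2 * m (l + 1) * iteratedDeriv 2 (Gb n m r l t) x ^ 3)

/-- `M''`. -/
noncomputable def M2b (n : ℕ) (m r : ℕ → ℝ) (l : ℕ) (t : ℝ) : ℝ :=
  Bt n m r l t (m2i (m (l + 1)) (Gb n m r l t))

/-- The logarithm of the density (without its Gaussian part) at the level `l`, for the exponent
`m l` (meaningful for `0 < r l`). -/
noncomputable def Ld (n : ℕ) (m r : ℕ → ℝ) : ℕ → ℝ → ℝ
  | 0 => fun _ => 0
  | l + 1 => if r l ≤ 0 then fun _ => 0 else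
      Lh (r l) (fun x => Ld n m r l x - (m (l + 1) - m l) * Fl n m r l x) (r (l + 1) - r l)

/-- The same for the exponent `m (l + 1)` of the next block. -/
noncomputable def Lu (n : ℕ) (m r : ℕ → ℝ) (l : ℕ) (x : ℝ) : ℝ :=
  Ld n m r l x - (m (l + 1) - m l) * Fl n m r l x

end Vale.Agent.P367.Cl
end

section

/-!
# P367, classical half: first facts about the class `Fw`
-/

open MeasureTheory ProbabilityTheory Filter Topology Set

namespace Vale.Agent.P367.Cl

open Vale.Agent.P157.Par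
open Vale.Agent.P146.Gap
open Vale.Agent.P146.Pw2

section FWD

variable {g C τ v δ : ℝ} {L F : ℝ → ℝ}

lemma fwd_hd {H : ℝ → ℝ} (h : SmB H) (j : ℕ) (x : ℝ) :
    HasDerivAt (iteratedDeriv j H) (iteratedDeriv (j + 1) H x) x := cint_hasDerivAt h.smooth j x

lemma fwd_parity {H : ℝ → ℝ} (he : ∀ x, H (-x) = H x) (j : ℕ) (x : ℝ) :
    iteratedDeriv j H (-x) = (-1) ^ j * iteratedDeriv j H x := by
  have h1 := iteratedDeriv_comp_neg j H x
  have h2 : (fun x => H (-x)) = H := funext he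
  rw [h2, smul_eq_mul] at h1
  rw [h1, ← mul_assoc, ← mul_pow]
  norm_num

lemma fwd_odd1 {H : ℝ → ℝ} (he : ∀ x, H (-x) = H x) : iteratedDeriv 1 H 0 = 0 := by
  have h1 := fwd_parity he 1 0
  rw [neg_zero] at h1
  linarith

lemma fwd_odd3 {H : ℝ → ℝ} (he : ∀ x, H (-x) = H x) : iteratedDeriv 3 H 0 = 0 := by
  have h1 := fwd_parity he 3 0
  rw [neg_zero] at h1
  linarith

lemma fwd_sub {A B : ℝ → ℝ} (hA : SmB A) (hB : SmB B) (δ : ℝ) (j : ℕ) (x : ℝ) :
    iteratedDeriv j (fun x => A x - δ * B x) x =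
      iteratedDeriv j A x - δ * iteratedDeriv j B x := by
  have h : ∀ j : ℕ, iteratedDeriv j (fun x => A x - δ * B x) =
      fun x => iteratedDeriv j A x - δ * iteratedDeriv j B x := by
    intro j
    induction j with
    | zero => funext x; simp only [iteratedDeriv_zero]
    | succ j ih =>
      funext x
      rw [iteratedDeriv_succ, ih]
      exact ((fwd_hd hA j x).sub ((fwd_hd hB j x).const_mul δ)).deriv
  rw [h j]

lemma fwd_smb_sub {A B : ℝ → ℝ} (hA : SmB A) (hB : SmB B) (δ : ℝ) :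
    SmB (fun x => A x - δ * B x) := by
  refine ⟨hA.smooth.sub (contDiff_const.mul hB.smooth), fun j => ?_⟩
  obtain ⟨a, ha⟩ := hA.bd j
  obtain ⟨b, hb⟩ := hB.bd j
  refine ⟨a + |δ| * b, fun x => ?_⟩
  rw [fwd_sub hA hB]
  refine (abs_sub _ _).trans (add_le_add (ha x) ?_)
  rw [abs_mul]
  exact mul_le_mul_of_nonneg_left (hb x) (abs_nonneg _)

theorem Fw.level (h : Fw τ L F) (hF : Good g C F) (hg : 0 < g) (hδ : 0 ≤ δ) :
    Fw τ (fun x => L x - δ * F x) F := by
  refine ⟨h.tau, fwd_smb_sub h.smb hF.adm.smb δ, fun x => ?_, fun x => ?_, fun x hx => ?_,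
    fun x hx => ?_⟩
  · simp only [h.even, hF.adm.even]
  · rw [fwd_sub h.smb hF.adm.smb]
    have h1 := h.K0 x
    have h2 := mul_nonneg hδ (hF.adm.pos x).le
    linarith
  · rw [fwd_sub h.smb hF.adm.smb]
    have h1 := h.K1 x hx
    have h2 := mul_nonneg hδ (neg_nonneg.2 (hF.d3_nonpos hg hx))
    linarith
  · rw [fwd_sub h.smb hF.adm.smb, fwd_sub h.smb hF.adm.smb]
    have h1 := h.R1 x hx
    linarith only [h1]

theorem fw_base (hF : Good g C F) (hg : 0 < g) (hτ : 0 < τ) : Fw τ (fun _ => 0) F := by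
  have h0 : ∀ (j : ℕ) (x : ℝ), iteratedDeriv j (fun _ : ℝ => (0 : ℝ)) x = 0 := by
    intro j x
    rw [iteratedDeriv_const]
    split <;> rfl
  refine ⟨hτ, ⟨contDiff_const, fun j => ⟨0, fun x => ?_⟩⟩, fun x => rfl, fun x => ?_,
    fun x hx => ?_, fun x hx => ?_⟩
  · rw [h0, abs_zero]
  · rw [h0, sub_zero]
    positivity
  · rw [h0]
  · rw [h0, h0]
    have h1 := hF.d3_nonpos hg hx
    have h2 : 0 ≤ 1 / τ := by positivity
    linarith only [mul_nonneg h2 (neg_nonneg.2 h1)]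

/-- `W ≥ 0` on the half line -/
theorem Fw.W_nonneg (h : Fw τ L F) {x : ℝ} (hx : 0 ≤ x) : 0 ≤ x / τ - iteratedDeriv 1 L x := by
  have hd : ∀ y, HasDerivAt (fun y => y / τ - iteratedDeriv 1 L y)
      (1 / τ - iteratedDeriv 2 L y) y := fun y =>
    ((hasDerivAt_id y).div_const τ).sub (fwd_hd h.smb 1 y)
  have hmono : Monotone (fun y => y / τ - iteratedDeriv 1 L y) :=
    monotone_of_deriv_nonneg (fun y => (hd y).differentiableAt) fun y => by
      rw [(hd y).deriv]
      exact h.K0 y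
  have h1 := hmono hx
  simp only [zero_div, fwd_odd1 h.even, sub_zero] at h1
  exact h1

/-- `K / F''` is monotone on the half line -/
lemma Fw.ratio_mono (h : Fw τ L F) (hF : Adm C F) :
    MonotoneOn (fun y => (1 / τ - iteratedDeriv 2 L y) / iteratedDeriv 2 F y) (Ici 0) := by
  have hd : ∀ y, HasDerivAt (fun y => (1 / τ - iteratedDeriv 2 L y) / iteratedDeriv 2 F y)
      ((-iteratedDeriv 3 L y * iteratedDeriv 2 F y
        - (1 / τ - iteratedDeriv 2 L y) * iteratedDeriv 3 F y) / iteratedDeriv 2 F y ^ 2) y :=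
    fun y => ((fwd_hd h.smb 2 y).const_sub (1 / τ)).div (fwd_hd hF.smb 2 y) (hF.pos y).ne'
  refine monotoneOn_of_deriv_nonneg (convex_Ici 0)
    (fun y _ => (hd y).continuousAt.continuousWithinAt)
    (fun y _ => (hd y).differentiableAt.differentiableWithinAt) fun y hy => ?_
  rw [interior_Ici] at hy
  rw [(hd y).deriv]
  exact div_nonneg (h.R1 y (le_of_lt hy)) (sq_nonneg _)

/-- `F'' W ≤ K F'` on the half line (`K / F''` is nondecreasing) -/
theorem Fw.AW_le (h : Fw τ L F) (hF : Adm C F) {x : ℝ} (hx : 0 ≤ x) :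
    iteratedDeriv 2 F x * (x / τ - iteratedDeriv 1 L x) ≤
      (1 / τ - iteratedDeriv 2 L x) * iteratedDeriv 1 F x := by
  have hr := h.ratio_mono hF
  set R : ℝ := (1 / τ - iteratedDeriv 2 L x) / iteratedDeriv 2 F x with hRd
  have hd : ∀ y, HasDerivAt (fun y => R * iteratedDeriv 1 F y - (y / τ - iteratedDeriv 1 L y))
      (R * iteratedDeriv 2 F y - (1 / τ - iteratedDeriv 2 L y)) y := fun y =>
    ((fwd_hd hF.smb 1 y).const_mul R).sub
      (((hasDerivAt_id y).div_const τ).sub (fwd_hd h.smb 1 y))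
  have hmono : MonotoneOn (fun y => R * iteratedDeriv 1 F y - (y / τ - iteratedDeriv 1 L y))
      (Icc 0 x) := by
    refine monotoneOn_of_deriv_nonneg (convex_Icc 0 x)
      (fun y _ => (hd y).continuousAt.continuousWithinAt)
      (fun y _ => (hd y).differentiableAt.differentiableWithinAt) fun y hy => ?_
    rw [interior_Icc] at hy
    rw [(hd y).deriv]
    have h1 : (1 / τ - iteratedDeriv 2 L y) / iteratedDeriv 2 F y ≤ R :=
      hr (mem_Ici.2 hy.1.le) (mem_Ici.2 hx) hy.2.le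
    rw [div_le_iff₀ (hF.pos y)] at h1
    linarith
  have h1 := hmono (left_mem_Icc.2 hx) (right_mem_Icc.2 hx) hx
  simp only [fwd_odd1 hF.even, fwd_odd1 h.even, zero_div, mul_zero, sub_zero] at h1
  have h2 : (x / τ - iteratedDeriv 1 L x) ≤ R * iteratedDeriv 1 F x := by linarith only [h1]
  have h3 := mul_le_mul_of_nonneg_left h2 (hF.pos x).le
  have h4 : iteratedDeriv 2 F x * (R * iteratedDeriv 1 F x) =
      (1 / τ - iteratedDeriv 2 L x) * iteratedDeriv 1 F x := by
    rw [hRd]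
    have := (hF.pos x).ne'
    field_simp
  linarith

end FWD

end Vale.Agent.P367.Cl
end

section

/-!
# P367, classical half, section BLK (second part): boundary values and bounds
-/

open MeasureTheory ProbabilityTheory Filter Topology Set

namespace Vale.Agent.P367.Cl

open Vale.Agent.P157.Par
open Vale.Agent.P146.Gap
open Vale.Agent.P146.Pw2

variable {n l : ℕ} {m r : ℕ → ℝ} {t : ℝ}

theorem blk2_adm (hm : Exponents n m) (hr : Path n r) (hl : l < n)
    (ht : t ∈ Icc 0 (r (l + 1) - r l)) : ∃ C, Adm C (Gb n m r l t) := by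
  obtain ⟨g0, g1⟩ := sp7_exp_of hm l hl
  exact ⟨_, (fl_aks hm hr (l := l + 1) (by omega)).adm.step g0 g1 (sub_nonneg.2 ht.2)⟩

theorem blk2_mono (hm : Exponents n m) (hr : Path n r) (hl : l < n)
    (ht : t ∈ Icc 0 (r (l + 1) - r l)) {ψ φ : ℝ → ℝ} (hψ : Sp7Cb ψ) (hφ : Sp7Cb φ)
    (h : ∀ x, ψ x ≤ φ x) : Bt n m r l t ψ ≤ Bt n m r l t φ := by
  obtain ⟨C, hG⟩ := blk2_adm hm hr hl ht
  refine ee_mono hm hr hl.le (sp7_cb_tlt (adm_ec hG) hψ _ _) (sp7_cb_tlt (adm_ec hG) hφ _ _)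
    fun x => ?_
  obtain ⟨hc, K, hK⟩ := hψ
  obtain ⟨hc', K', hK'⟩ := hφ
  exact (adm_ec hG).sm.tlt_mono hc hK hc' hK' h _ _ x

theorem blk2_const (hm : Exponents n m) (hr : Path n r) (hl : l < n)
    (ht : t ∈ Icc 0 (r (l + 1) - r l)) (c : ℝ) : Bt n m r l t (fun _ => c) = c := by
  obtain ⟨C, hG⟩ := blk2_adm hm hr hl ht
  have e : tlt (m (l + 1)) t (Gb n m r l t) (fun _ => c) = fun _ => c := by
    funext x
    exact (adm_ec hG).sm.tlt_const _ _ _ x
  rw [Bt, e, ee_const hm hr hl.le]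

/-- bounds of an average by bounds of the integrand -/
theorem blk2_bd (hm : Exponents n m) (hr : Path n r) (hl : l < n)
    (ht : t ∈ Icc 0 (r (l + 1) - r l)) {ψ : ℝ → ℝ} (hψ : Sp7Cb ψ) {a b : ℝ}
    (h : ∀ x, a ≤ ψ x ∧ ψ x ≤ b) : a ≤ Bt n m r l t ψ ∧ Bt n m r l t ψ ≤ b := by
  have h1 := blk2_mono hm hr hl ht (sp7_cb_const a) hψ (fun x => (h x).1)
  have h2 := blk2_mono hm hr hl ht hψ (sp7_cb_const b) (fun x => (h x).2)
  rw [blk2_const hm hr hl ht] at h1 h2
  exact ⟨h1, h2⟩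

theorem blk2_cb (hG : ∃ C, Adm C (Gb n m r l t)) (j : ℕ) :
    Sp7Cb (iteratedDeriv (j + 1) (Gb n m r l t)) := by
  obtain ⟨C, hG⟩ := hG
  obtain ⟨B, hB⟩ := hG.smb.bd j
  exact ⟨hG.smb.smooth.continuous_iteratedDeriv (j + 1) (by exact_mod_cast le_top), B, hB⟩

/-! ### Boundary values -/

theorem Bt_zero (ψ : ℝ → ℝ) : Bt n m r l 0 ψ = Ee n m r l ψ := by
  have e : tlt (m (l + 1)) 0 (Gb n m r l 0) ψ = ψ := by
    funext x
    exact sp3_tlt_triv le_rfl _ _ _ _
  rw [Bt, e]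

theorem Gb_zero (hl : l < n) : Gb n m r l 0 = Fl n m r l := by
  rw [Gb, sub_zero, ← fl_succ hl]

theorem Gb_last (hm : Exponents n m) (hl : l < n) :
    Gb n m r l (r (l + 1) - r l) = Fl n m r (l + 1) := by
  rw [Gb, sub_self, gstep_zero (sp7_exp_of hm l hl).1.ne']

theorem Bt_last (hm : Exponents n m) (hl : l < n) (ψ : ℝ → ℝ) :
    Bt n m r l (r (l + 1) - r l) ψ = Ee n m r (l + 1) ψ := by
  rw [Bt, Gb_last hm hl, ee_succ hl]

theorem Rb_zero (hm : Exponents n m) (hr : Path n r) (hl : l < n) :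
    Rb n m r l 0 = spR n m r l := by
  rw [Rb, Bt_zero, Gb_zero hl, spR_eq hm hr hl.le]

theorem Rb_last (hm : Exponents n m) (hr : Path n r) (hl : l < n) :
    Rb n m r l (r (l + 1) - r l) = spR n m r (l + 1) := by
  rw [Rb, Bt_last hm hl, Gb_last hm hl, spR_eq hm hr hl]

theorem Mb_zero (hm : Exponents n m) (hr : Path n r) (hl : l < n) :
    Mb n m r l 0 = Ml n m r l := by
  rw [Mb, Bt_zero, Gb_zero hl, Ml]

theorem Mb_last (hm : Exponents n m) (hr : Path n r) (hl : l < n) :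
    Mb n m r l (r (l + 1) - r l) = Ml n m r (l + 1) := by
  rw [Mb, Bt_last hm hl, Gb_last hm hl, Ml]

/-! ### Bounds -/

theorem Ab_mem (hm : Exponents n m) (hr : Path n r) (hl : l < n)
    (ht : t ∈ Icc 0 (r (l + 1) - r l)) : 0 ≤ Ab n m r l t ∧ Ab n m r l t ≤ 1 := by
  obtain ⟨C, hG⟩ := blk2_adm hm hr hl ht
  exact blk2_bd hm hr hl ht (blk2_cb ⟨C, hG⟩ 1) fun x =>
    ⟨(vari_d2_01 hG x).1.le, (vari_d2_01 hG x).2⟩

theorem Mb_mem (hm : Exponents n m) (hr : Path n r) (hl : l < n)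
    (ht : t ∈ Icc 0 (r (l + 1) - r l)) : 0 ≤ Mb n m r l t ∧ Mb n m r l t ≤ 1 := by
  obtain ⟨C, hG⟩ := blk2_adm hm hr hl ht
  exact blk2_bd hm hr hl ht (sp7_cb_sq (blk2_cb ⟨C, hG⟩ 1)) fun x =>
    ⟨sq_nonneg _, pow_le_one₀ (vari_d2_01 hG x).1.le (vari_d2_01 hG x).2⟩

theorem blk2_cb3 (hG : ∃ C, Adm C (Gb n m r l t)) (g : ℝ) :
    Sp7Cb (fun x => iteratedDeriv 3 (Gb n m r l t) x ^ 2
      - 2 * g * iteratedDeriv 2 (Gb n m r l t) x ^ 3) := by
  have h1 := sp7_cb_add (sp7_cb_sq (blk2_cb hG 2))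
    (nest_cb_smul (-(2 * g)) (nest_cb_pow (blk2_cb hG 1) 3))
  have e : (fun x => iteratedDeriv 3 (Gb n m r l t) x ^ 2
      - 2 * g * iteratedDeriv 2 (Gb n m r l t) x ^ 3) =
      fun x => iteratedDeriv (2 + 1) (Gb n m r l t) x ^ 2 +
        -(2 * g) * iteratedDeriv (1 + 1) (Gb n m r l t) x ^ 3 := by
    funext x
    ring
  rw [e]
  exact h1

theorem M1b_low (hm : Exponents n m) (hr : Path n r) (hl : l < n)
    (ht : t ∈ Icc 0 (r (l + 1) - r l)) : -(2 * m (l + 1)) ≤ M1b n m r l t := by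
  obtain ⟨C, hG⟩ := blk2_adm hm hr hl ht
  obtain ⟨g0, g1⟩ := sp7_exp_of hm l hl
  have h1 := blk2_mono hm hr hl ht (sp7_cb_const (-(2 * m (l + 1)))) (blk2_cb3 ⟨C, hG⟩ (m (l + 1)))
    (fun x => by
      have h2 := vari_d2_01 hG x
      have h3 := pow_le_one₀ (n := 3) h2.1.le h2.2
      have h4 := mul_le_mul_of_nonneg_left h3 (show 0 ≤ 2 * m (l + 1) by linarith)
      have h5 := sq_nonneg (iteratedDeriv 3 (Gb n m r l t) x)
      linarith)
  rw [blk2_const hm hr hl ht] at h1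
  exact h1

/-- (the constant of `fl_bk`) -/
theorem M1b_bd (b : ℝ) : ∃ C : ℝ, 1 ≤ C ∧ ∀ (n : ℕ) (m r : ℕ → ℝ), Exponents n m → BPath b n r →
    ∀ l < n, ∀ t ∈ Icc 0 (r (l + 1) - r l), |M1b n m r l t| ≤ C := by
  obtain ⟨K, hK1, hK⟩ := fl_bk b
  refine ⟨K ^ 2 + 2, by nlinarith, fun n m r hm hr l hl t ht => ?_⟩
  obtain ⟨-, hB⟩ := hK n m r hm hr
  obtain ⟨g0, g1⟩ := sp7_exp_of hm l hl
  have hG : AK K (Gb n m r l t) := hB l hl (r (l + 1) - r l - t) ⟨by linarith [ht.2],
    by linarith [ht.1]⟩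
  have h1 := blk2_bd hm hr.2.1 hl ht (blk2_cb3 ⟨K, hG.adm⟩ (m (l + 1)))
    (a := -(K ^ 2 + 2)) (b := K ^ 2 + 2) (fun x => by
      have h2 := vari_d2_01 hG.adm x
      have h3 := pow_le_one₀ (n := 3) h2.1.le h2.2
      have h3' := pow_nonneg h2.1.le 3
      have h4 : 2 * m (l + 1) * iteratedDeriv 2 (Gb n m r l t) x ^ 3 ≤ 2 * 1 := by
        refine mul_le_mul (by linarith) h3 h3' (by norm_num)
      have h4' : 0 ≤ 2 * m (l + 1) * iteratedDeriv 2 (Gb n m r l t) x ^ 3 := by positivity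
      have h5 := sq_nonneg (iteratedDeriv 3 (Gb n m r l t) x)
      have h6 : |iteratedDeriv 3 (Gb n m r l t) x| ≤ K :=
        (hG.k3 x).trans (mul_le_of_le_one_right (by linarith) (vari_abs1 hG.adm x))
      have h7 : iteratedDeriv 3 (Gb n m r l t) x ^ 2 ≤ K ^ 2 := by
        rw [← sq_abs]
        exact pow_le_pow_left₀ (abs_nonneg _) h6 2
      have h8 := sq_nonneg K
      constructor <;> linarith)
  exact abs_le.2 h1

end Vale.Agent.P367.Cl
end

section

/-!
# P367, classical half, full RSB: derivatives in `t` of the block averages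
-/

open MeasureTheory ProbabilityTheory Filter Topology Set

namespace Vale.Agent.P367.Cl

open Vale.Agent.P157.Par
open Vale.Agent.P146.Gap
open Vale.Agent.P146.Pw2

variable {n l : ℕ} {m r : ℕ → ℝ} {t : ℝ}

/-! ### Differentiation and continuity under the nested averages -/

lemma fblk_tlt_deriv {L B : ℝ} {F M D : ℝ → ℝ} (h : Sm L B F M D) (g v x : ℝ) {a b : ℝ}
    {f f' : ℝ → ℝ → ℝ} (hf : ∀ t ∈ Ioo a b, ∀ y, HasDerivAt (fun t => f t y) (f' t y) t)
    (hc : ∀ t ∈ Ioo a b, Continuous (f t)) (hc' : ∀ t ∈ Ioo a b, Continuous (f' t))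
    {K : ℝ} (hB : ∀ t ∈ Ioo a b, ∀ y, |f t y| ≤ K ∧ |f' t y| ≤ K) {t : ℝ} (ht : t ∈ Ioo a b) :
    HasDerivAt (fun t => tlt g v F (f t) x) (tlt g v F (f' t) x) t := by
  have hF := h.cont
  have hnum : HasDerivAt
      (fun t => ∫ z, f t (x + √v * z) * Real.exp (g * F (x + √v * z)) ∂(gaussianReal 0 1))
      (∫ z, f' t (x + √v * z) * Real.exp (g * F (x + √v * z)) ∂(gaussianReal 0 1)) t := by
    refine (hasDerivAt_integral_of_dominated_loc_of_deriv_le (s := Ioo a b)
      (F := fun t z => f t (x + √v * z) * Real.exp (g * F (x + √v * z)))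
      (F' := fun t z => f' t (x + √v * z) * Real.exp (g * F (x + √v * z)))
      (bound := fun z => K * Real.exp (g * F (x + √v * z)))
      (isOpen_Ioo.mem_nhds ht) ?_ ?_ ?_ ?_ ?_ ?_).2
    · filter_upwards [isOpen_Ioo.mem_nhds ht] with s hs
      have := hc s hs
      exact (by fun_prop : Continuous fun z =>
        f s (x + √v * z) * Real.exp (g * F (x + √v * z))).aestronglyMeasurable
    · exact h.integrable (hc t ht) (fun y => (hB t ht y).1) g v x
    · have := hc' t ht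
      exact (by fun_prop : Continuous fun z =>
        f' t (x + √v * z) * Real.exp (g * F (x + √v * z))).aestronglyMeasurable
    · refine ae_of_all _ fun z s hs => ?_
      rw [norm_mul, Real.norm_eq_abs, Real.norm_eq_abs, abs_of_pos (Real.exp_pos _)]
      exact mul_le_mul_of_nonneg_right (hB s hs _).2 (Real.exp_pos _).le
    · exact (h.integrable_exp g v x).const_mul K
    · exact ae_of_all _ fun z s hs => (hf s hs _).mul_const _
  exact hnum.div_const _

lemma fblk_tlt_contOn {L B : ℝ} {F M D : ℝ → ℝ} (h : Sm L B F M D) (g v x : ℝ) {s : Set ℝ}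
    {f : ℝ → ℝ → ℝ} (hf : ∀ y, ContinuousOn (fun t => f t y) s)
    (hc : ∀ t ∈ s, Continuous (f t)) {K : ℝ} (hB : ∀ t ∈ s, ∀ y, |f t y| ≤ K) :
    ContinuousOn (fun t => tlt g v F (f t) x) s := by
  have hF := h.cont
  have hnum : ContinuousOn
      (fun t => ∫ z, f t (x + √v * z) * Real.exp (g * F (x + √v * z)) ∂(gaussianReal 0 1)) s := by
    refine continuousOn_of_dominated (bound := fun z => K * Real.exp (g * F (x + √v * z)))
      ?_ ?_ ?_ ?_
    · intro t ht
      have := hc t ht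
      exact (by fun_prop : Continuous fun z =>
        f t (x + √v * z) * Real.exp (g * F (x + √v * z))).aestronglyMeasurable
    · intro t ht
      refine ae_of_all _ fun z => ?_
      rw [norm_mul, Real.norm_eq_abs, Real.norm_eq_abs, abs_of_pos (Real.exp_pos _)]
      exact mul_le_mul_of_nonneg_right (hB t ht _) (Real.exp_pos _).le
    · exact (h.integrable_exp g v x).const_mul K
    · exact ae_of_all _ fun z => (hf _).mul continuousOn_const
  exact hnum.div_const _

lemma fblk_chn_deriv (m r : ℕ → ℝ) (l : ℕ) (hm : Sp7Exp m l) {F M D : ℝ → ℝ} (h : Ec F M D)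
    {a b : ℝ} {f f' : ℝ → ℝ → ℝ}
    (hf : ∀ t ∈ Ioo a b, ∀ y, HasDerivAt (fun t => f t y) (f' t y) t)
    (hc : ∀ t ∈ Ioo a b, Continuous (f t)) (hc' : ∀ t ∈ Ioo a b, Continuous (f' t))
    {K : ℝ} (hB : ∀ t ∈ Ioo a b, ∀ y, |f t y| ≤ K ∧ |f' t y| ≤ K) {t : ℝ} (ht : t ∈ Ioo a b) :
    HasDerivAt (fun t => chn m r l F (f t)) (chn m r l F (f' t)) t := by
  induction l generalizing F M D f f' with
  | zero =>
    simp only [chn_zero_def]
    refine (hasDerivAt_integral_of_dominated_loc_of_deriv_le (s := Ioo a b)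
      (F := fun t z => f t (√(r 0) * z)) (F' := fun t z => f' t (√(r 0) * z))
      (bound := fun _ => K) (isOpen_Ioo.mem_nhds ht) ?_ ?_ ?_ ?_ ?_ ?_).2
    · filter_upwards [isOpen_Ioo.mem_nhds ht] with s hs
      have := hc s hs
      exact (by fun_prop : Continuous fun z => f s (√(r 0) * z)).aestronglyMeasurable
    · exact sp7_cb_int ⟨hc t ht, K, fun y => (hB t ht y).1⟩ _
    · have := hc' t ht
      exact (by fun_prop : Continuous fun z => f' t (√(r 0) * z)).aestronglyMeasurable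
    · exact ae_of_all _ fun z s hs => (hB s hs _).2
    · exact integrable_const K
    · exact ae_of_all _ fun z s hs => hf s hs _
  | succ l ih =>
    simp only [chn_succ_def]
    obtain ⟨hm0, hm1⟩ := hm l (Nat.lt_succ_self l)
    exact ih (sp7_exp_down hm) (h.step hm0 hm1 _)
      (fun t ht y => fblk_tlt_deriv h.sm _ _ y hf hc hc' hB ht)
      (fun t ht => h.sm.tlt_cont (hc t ht) (fun y => (hB t ht y).1) _ _)
      (fun t ht => h.sm.tlt_cont (hc' t ht) (fun y => (hB t ht y).2) _ _)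
      (fun t ht y => ⟨h.sm.abs_tlt_le (hc t ht) (fun y => (hB t ht y).1) _ _ y,
        h.sm.abs_tlt_le (hc' t ht) (fun y => (hB t ht y).2) _ _ y⟩)

lemma fblk_chn_contOn (m r : ℕ → ℝ) (l : ℕ) (hm : Sp7Exp m l) {F M D : ℝ → ℝ} (h : Ec F M D)
    {s : Set ℝ} {f : ℝ → ℝ → ℝ} (hf : ∀ y, ContinuousOn (fun t => f t y) s)
    (hc : ∀ t ∈ s, Continuous (f t)) {K : ℝ} (hB : ∀ t ∈ s, ∀ y, |f t y| ≤ K) :
    ContinuousOn (fun t => chn m r l F (f t)) s := by
  induction l generalizing F M D f with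
  | zero =>
    simp only [chn_zero_def]
    refine continuousOn_of_dominated (bound := fun _ => K) ?_ ?_ ?_ ?_
    · intro t ht
      have := hc t ht
      exact (by fun_prop : Continuous fun z => f t (√(r 0) * z)).aestronglyMeasurable
    · exact fun t ht => ae_of_all _ fun z => hB t ht _
    · exact integrable_const K
    · exact ae_of_all _ fun z => hf _
  | succ l ih =>
    simp only [chn_succ_def]
    obtain ⟨hm0, hm1⟩ := hm l (Nat.lt_succ_self l)
    exact ih (sp7_exp_down hm) (h.step hm0 hm1 _)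
      (fun y => fblk_tlt_contOn h.sm _ _ y hf hc hB)
      (fun t ht => h.sm.tlt_cont (hc t ht) (hB t ht) _ _)
      (fun t ht y => h.sm.abs_tlt_le (hc t ht) (hB t ht) _ _ y)

/-- derivative under the nested average -/
theorem ee_deriv (hm : Exponents n m) (hr : Path n r) (hl : l ≤ n) {a b : ℝ}
    {f f' : ℝ → ℝ → ℝ} (hf : ∀ t ∈ Ioo a b, ∀ y, HasDerivAt (fun t => f t y) (f' t y) t)
    (hc : ∀ t ∈ Ioo a b, Continuous (f t)) (hc' : ∀ t ∈ Ioo a b, Continuous (f' t))
    (hB : ∃ B, ∀ t ∈ Ioo a b, ∀ y, |f t y| ≤ B ∧ |f' t y| ≤ B) (ht : t ∈ Ioo a b) :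
    HasDerivAt (fun t => Ee n m r l (f t)) (Ee n m r l (f' t)) t := by
  obtain ⟨K, hK⟩ := hB
  exact fblk_chn_deriv m r l (nest_exp hm hl) (fl_ec hm hr hl) hf hc hc' hK ht

theorem ee_contOn (hm : Exponents n m) (hr : Path n r) (hl : l ≤ n) {s : Set ℝ}
    {f : ℝ → ℝ → ℝ} (hf : ∀ y, ContinuousOn (fun t => f t y) s)
    (hc : ∀ t ∈ s, Continuous (f t)) (hB : ∃ B, ∀ t ∈ s, ∀ y, |f t y| ≤ B) :
    ContinuousOn (fun t => Ee n m r l (f t)) s := by
  obtain ⟨K, hK⟩ := hB
  exact fblk_chn_contOn m r l (nest_exp hm hl) (fl_ec hm hr hl) hf hc hK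

/-! ### The averages at the time `r l + t` of a block -/

lemma fblk_adm (hm : Exponents n m) (hr : Path n r) (hl : l < n) :
    ∃ C, Adm C (Fl n m r (l + 1)) := by
  obtain ⟨C, hC⟩ := fl_good hm hr (show l + 1 ≤ n from hl)
  exact ⟨C, hC.adm⟩

lemma fblk_gb_adm (hm : Exponents n m) (hr : Path n r) (hl : l < n)
    (ht : t ∈ Icc 0 (r (l + 1) - r l)) : ∃ C, Adm C (Gb n m r l t) := by
  obtain ⟨C, hC⟩ := fblk_adm hm hr hl
  obtain ⟨g0, g1⟩ := sp7_exp_of hm l hl
  exact ⟨_, hC.step g0 g1 (by linarith [ht.2])⟩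

/-- the class of the observables is preserved -/
lemma fblk_bc (hm : Exponents n m) (hr : Path n r) (hl : l < n) {q : ℝ → ℝ → ℝ}
    (hq : first_Bc q) : ∃ K, ∀ t ∈ Icc 0 (r (l + 1) - r l),
      Continuous (tlt (m (l + 1)) t (Gb n m r l t) (q t)) ∧
      ∀ y, |tlt (m (l + 1)) t (Gb n m r l t) (q t) y| ≤ K := by
  obtain ⟨-, K, hK⟩ := id hq
  refine ⟨K, fun t ht => ?_⟩
  obtain ⟨C, hC⟩ := fblk_gb_adm hm hr hl ht
  have he := (adm_ec hC).sm
  exact ⟨he.tlt_cont (hq.slice t) (hK t) _ _, fun y => he.abs_tlt_le (hq.slice t) (hK t) _ _ y⟩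

/-- derivative of the average of a smooth family of observables -/
theorem bt_deriv (hm : Exponents n m) (hr : Path n r) (hl : l < n) {p p1 p2 ps : ℝ → ℝ → ℝ}
    (hp : first_P (r (l + 1) - r l) p p1 p2 ps) (ht : t ∈ Ioo 0 (r (l + 1) - r l)) :
    HasDerivAt (fun t => Bt n m r l t (p t)) (Bt n m r l t (fun x => ps t x + 1 / 2 * p2 t x
      + m (l + 1) * iteratedDeriv 1 (Gb n m r l t) x * p1 t x)) t := by
  obtain ⟨C, hC⟩ := fblk_adm hm hr hl
  obtain ⟨g0, g1⟩ := sp7_exp_of hm l hl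
  have b1 := first_f_bc hC g0 (r (l + 1) - r l) 0
  have hq : first_Bc (fun t x => ps t x + 1 / 2 * p2 t x
      + m (l + 1) * first_f (m (l + 1)) (r (l + 1) - r l) (Fl n m r (l + 1)) 1 t x * p1 t x) := by
    have := (hp.bs.add (hp.b2.smul (1 / 2))).add ((b1.smul (m (l + 1))).mul hp.b1)
    exact this
  obtain ⟨K, hK⟩ := fblk_bc hm hr hl hp.b0
  obtain ⟨K', hK'⟩ := fblk_bc hm hr hl hq
  have hI : ∀ t ∈ Ioo 0 (r (l + 1) - r l), t ∈ Icc 0 (r (l + 1) - r l) :=
    fun t ht => Ioo_subset_Icc_self ht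
  exact ee_deriv hm hr hl.le
    (f := fun t y => tlt (m (l + 1)) t (Gb n m r l t) (p t) y)
    (f' := fun t y => tlt (m (l + 1)) t (Gb n m r l t) (fun x => ps t x + 1 / 2 * p2 t x
      + m (l + 1) * first_f (m (l + 1)) (r (l + 1) - r l) (Fl n m r (l + 1)) 1 t x * p1 t x) y)
    (fun t ht y => blk_tlt_deriv hC g0 hp y ht)
    (fun t ht => (hK t (hI t ht)).1) (fun t ht => (hK' t (hI t ht)).1)
    ⟨max K K', fun t ht y => ⟨((hK t (hI t ht)).2 y).trans (le_max_left _ _),
      ((hK' t (hI t ht)).2 y).trans (le_max_right _ _)⟩⟩ ht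

theorem bt_contOn (hm : Exponents n m) (hr : Path n r) (hl : l < n) {p : ℝ → ℝ → ℝ}
    (hp : first_Bc p) :
    ContinuousOn (fun t => Bt n m r l t (p t)) (Icc 0 (r (l + 1) - r l)) := by
  obtain ⟨C, hC⟩ := fblk_adm hm hr hl
  obtain ⟨g0, g1⟩ := sp7_exp_of hm l hl
  obtain ⟨K, hK⟩ := fblk_bc hm hr hl hp
  exact ee_contOn hm hr hl.le
    (f := fun t y => tlt (m (l + 1)) t (Gb n m r l t) (p t) y)
    (fun y => blk_tlt_cont hC g0 hp _ y)
    (fun t ht => (hK t ht).1) ⟨K, fun t ht y => (hK t ht).2 y⟩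

/-! ### The families -/

lemma fblk_Rb_eq (n : ℕ) (m r : ℕ → ℝ) (l : ℕ) : Rb n m r l = fun t => Bt n m r l t (fun x =>
    first_f (m (l + 1)) (r (l + 1) - r l) (Fl n m r (l + 1)) 1 t x *
      first_f (m (l + 1)) (r (l + 1) - r l) (Fl n m r (l + 1)) 1 t x) := by
  funext t
  unfold Rb
  congr 1
  funext x
  rw [sq]
  rfl

lemma fblk_Mb_eq (n : ℕ) (m r : ℕ → ℝ) (l : ℕ) : Mb n m r l = fun t => Bt n m r l t (fun x =>
    first_f (m (l + 1)) (r (l + 1) - r l) (Fl n m r (l + 1)) 2 t x *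
      first_f (m (l + 1)) (r (l + 1) - r l) (Fl n m r (l + 1)) 2 t x) := by
  funext t
  unfold Mb
  congr 1
  funext x
  rw [sq]
  rfl

lemma fblk_M1b_eq (n : ℕ) (m r : ℕ → ℝ) (l : ℕ) : M1b n m r l = fun t => Bt n m r l t (fun x =>
    first_f (m (l + 1)) (r (l + 1) - r l) (Fl n m r (l + 1)) 3 t x *
      first_f (m (l + 1)) (r (l + 1) - r l) (Fl n m r (l + 1)) 3 t x +
    -(2 * m (l + 1)) * (first_f (m (l + 1)) (r (l + 1) - r l) (Fl n m r (l + 1)) 2 t x *
      (first_f (m (l + 1)) (r (l + 1) - r l) (Fl n m r (l + 1)) 2 t x *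
        first_f (m (l + 1)) (r (l + 1) - r l) (Fl n m r (l + 1)) 2 t x))) := by
  funext t
  unfold M1b
  congr 1
  funext x
  change first_f (m (l + 1)) (r (l + 1) - r l) (Fl n m r (l + 1)) 3 t x ^ 2 -
    2 * m (l + 1) * first_f (m (l + 1)) (r (l + 1) - r l) (Fl n m r (l + 1)) 2 t x ^ 3 = _
  ring

theorem Rb_deriv (hm : Exponents n m) (hr : Path n r) (hl : l < n)
    (ht : t ∈ Ioo 0 (r (l + 1) - r l)) : HasDerivAt (Rb n m r l) (Mb n m r l t) t := by
  obtain ⟨C, hC⟩ := fblk_adm hm hr hl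
  obtain ⟨g0, g1⟩ := sp7_exp_of hm l hl
  have h1 := first_P1 hC g0 (r (l + 1) - r l)
  rw [fblk_Rb_eq]
  refine (bt_deriv hm hr hl (h1.mul h1) ht).congr_deriv ?_
  rw [fblk_Mb_eq]
  congr 1
  funext x
  change _ + _ + m (l + 1) * first_f (m (l + 1)) (r (l + 1) - r l) (Fl n m r (l + 1)) 1 t x * _ = _
  ring

theorem Mb_deriv (hm : Exponents n m) (hr : Path n r) (hl : l < n)
    (ht : t ∈ Ioo 0 (r (l + 1) - r l)) : HasDerivAt (Mb n m r l) (M1b n m r l t) t := by
  obtain ⟨C, hC⟩ := fblk_adm hm hr hl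
  obtain ⟨g0, g1⟩ := sp7_exp_of hm l hl
  have h1 := first_P2 hC g0 (r (l + 1) - r l)
  rw [fblk_Mb_eq]
  refine (bt_deriv hm hr hl (h1.mul h1) ht).congr_deriv ?_
  rw [fblk_M1b_eq]
  congr 1
  funext x
  change _ + _ + m (l + 1) * first_f (m (l + 1)) (r (l + 1) - r l) (Fl n m r (l + 1)) 1 t x * _ = _
  ring

theorem M1b_deriv (hm : Exponents n m) (hr : Path n r) (hl : l < n)
    (ht : t ∈ Ioo 0 (r (l + 1) - r l)) : HasDerivAt (M1b n m r l) (M2b n m r l t) t := by
  obtain ⟨C, hC⟩ := fblk_adm hm hr hl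
  obtain ⟨g0, g1⟩ := sp7_exp_of hm l hl
  have h2 := first_P2 hC g0 (r (l + 1) - r l)
  have h3 := first_P3 hC g0 (r (l + 1) - r l)
  have hp := (h3.mul h3).add
    ((first_P.const (r (l + 1) - r l) (-(2 * m (l + 1)))).mul (h2.mul (h2.mul h2)))
  rw [fblk_M1b_eq]
  refine (bt_deriv hm hr hl hp ht).congr_deriv ?_
  unfold M2b m2i
  congr 1
  funext x
  change _ + _ + m (l + 1) * first_f (m (l + 1)) (r (l + 1) - r l) (Fl n m r (l + 1)) 1 t x * _ =
    first_f (m (l + 1)) (r (l + 1) - r l) (Fl n m r (l + 1)) 4 t x ^ 2 -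
      12 * m (l + 1) * first_f (m (l + 1)) (r (l + 1) - r l) (Fl n m r (l + 1)) 2 t x *
        first_f (m (l + 1)) (r (l + 1) - r l) (Fl n m r (l + 1)) 3 t x ^ 2 +
      6 * m (l + 1) ^ 2 * first_f (m (l + 1)) (r (l + 1) - r l) (Fl n m r (l + 1)) 2 t x ^ 4
  ring

theorem Rb_cont (hm : Exponents n m) (hr : Path n r) (hl : l < n) :
    ContinuousOn (Rb n m r l) (Icc 0 (r (l + 1) - r l)) := by
  obtain ⟨C, hC⟩ := fblk_adm hm hr hl
  obtain ⟨g0, g1⟩ := sp7_exp_of hm l hl
  have b1 := first_f_bc hC g0 (r (l + 1) - r l) 0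
  rw [fblk_Rb_eq]
  exact bt_contOn hm hr hl (b1.mul b1)

theorem Mb_cont (hm : Exponents n m) (hr : Path n r) (hl : l < n) :
    ContinuousOn (Mb n m r l) (Icc 0 (r (l + 1) - r l)) := by
  obtain ⟨C, hC⟩ := fblk_adm hm hr hl
  obtain ⟨g0, g1⟩ := sp7_exp_of hm l hl
  have b2 := first_f_bc hC g0 (r (l + 1) - r l) 1
  rw [fblk_Mb_eq]
  exact bt_contOn hm hr hl (b2.mul b2)

theorem Ab_cont (hm : Exponents n m) (hr : Path n r) (hl : l < n) :
    ContinuousOn (Ab n m r l) (Icc 0 (r (l + 1) - r l)) := by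
  obtain ⟨C, hC⟩ := fblk_adm hm hr hl
  obtain ⟨g0, g1⟩ := sp7_exp_of hm l hl
  exact bt_contOn hm hr hl (first_f_bc hC g0 (r (l + 1) - r l) 1)

end Vale.Agent.P367.Cl
end

section

/-!
# P367, classical half: common lemmas for the variation of one level (FVar-up, FVar-down)
-/

open MeasureTheory ProbabilityTheory Filter Topology Set

namespace Vale.Agent.P367.Cl

open Vale.Agent.P157.Par
open Vale.Agent.P146.Gap
open Vale.Agent.P146.Pw2

/-! ### (L1), (L2): change of the function in the averages -/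

lemma var0_exp_gstep {g : ℝ} (hg : 0 < g) {F M D : ℝ → ℝ} (h : Ec F M D) (v x : ℝ) :
    Real.exp (g * gstep g v F x) = ∫ z, Real.exp (g * F (x + √v * z)) ∂(gaussianReal 0 1) := by
  unfold gstep
  rw [← mul_assoc, mul_one_div_cancel hg.ne', one_mul, Real.exp_log (h.sm.int_exp_pos g v x)]

lemma var0_tlt_exp {g : ℝ} (hg : 0 < g) {F M D : ℝ → ℝ} (h : Ec F M D) (v x : ℝ) (φ : ℝ → ℝ) :
    tlt g v F φ x * Real.exp (g * gstep g v F x) =
      ∫ z, φ (x + √v * z) * Real.exp (g * F (x + √v * z)) ∂(gaussianReal 0 1) := by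
  rw [var0_exp_gstep hg h]
  unfold tlt
  exact div_mul_cancel₀ _ (h.sm.int_exp_pos g v x).ne'

/-- the nested average in terms of the weighted observables -/
lemma var0_chn_aux {m r : ℕ → ℝ} (h0 : m 0 = 0) {η : ℝ} : ∀ (l : ℕ), Sp7Exp m l →
    (∀ i < l, m i ≤ m (i + 1)) → ∀ {K : ℝ} {F₁ M₁ D₁ F₂ M₂ D₂ φ₁ φ₂ : ℝ → ℝ},
    Ec F₁ M₁ D₁ → Ec F₂ M₂ D₂ → 0 ≤ K → Sp7Cb φ₁ → Sp7Cb φ₂ → (∀ x, 0 ≤ φ₂ x) →
    (∀ x, F₂ x ≤ F₁ x + η) →
    (∀ x, φ₁ x * Real.exp (m l * F₁ x) ≤ K * (φ₂ x * Real.exp (m l * F₂ x))) →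
    chn m r l F₁ φ₁ ≤ K * Real.exp (m l * η) * chn m r l F₂ φ₂ := by
  intro l
  induction l with
  | zero =>
    intro _ _ K F₁ M₁ D₁ F₂ M₂ D₂ φ₁ φ₂ _ _ hK h1 h2 hpos _ hle
    rw [chn_zero_def, chn_zero_def, h0, zero_mul, Real.exp_zero, mul_one, ← integral_const_mul]
    refine integral_mono (sp7_cb_int h1 _) ((sp7_cb_int h2 _).const_mul K) fun z => ?_
    have := hle (√(r 0) * z)
    simpa [h0] using this
  | succ l ih =>
    intro hm hmm K F₁ M₁ D₁ F₂ M₂ D₂ φ₁ φ₂ hE1 hE2 hK h1 h2 hpos hF hle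
    obtain ⟨g0, g1⟩ := hm l (Nat.lt_succ_self l)
    have hml := hmm l (Nat.lt_succ_self l)
    set g := m (l + 1) with hg
    set v := r (l + 1) - r l with hv
    rw [chn_succ_def, chn_succ_def, ← hg, ← hv]
    have hF' : ∀ x, gstep g v F₂ x ≤ gstep g v F₁ x + η := fun x =>
      ex_nonexp_aux hE2 hE1 g0 v hF x
    have hnn : ∀ x, 0 ≤ tlt g v F₂ φ₂ x := fun x => by
      obtain ⟨hc, B, hB⟩ := h2
      have := hE2.sm.tlt_mono (g := fun _ => (0 : ℝ)) (g' := φ₂) continuous_const (K := 0)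
        (fun _ => by simp) hc hB hpos g v x
      rwa [hE2.sm.tlt_const] at this
    have key : ∀ x, tlt g v F₁ φ₁ x * Real.exp (m l * gstep g v F₁ x) ≤
        K * Real.exp ((g - m l) * η) *
          (tlt g v F₂ φ₂ x * Real.exp (m l * gstep g v F₂ x)) := by
      intro x
      have e1 := var0_tlt_exp g0 hE1 v x φ₁
      have e2 := var0_tlt_exp g0 hE2 v x φ₂
      have h3 : ∫ z, φ₁ (x + √v * z) * Real.exp (g * F₁ (x + √v * z)) ∂(gaussianReal 0 1) ≤
          K * ∫ z, φ₂ (x + √v * z) * Real.exp (g * F₂ (x + √v * z)) ∂(gaussianReal 0 1) := by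
        rw [← integral_const_mul]
        obtain ⟨hc1, B1, hB1⟩ := h1
        obtain ⟨hc2, B2, hB2⟩ := h2
        exact integral_mono (hE1.sm.integrable hc1 hB1 g v x)
          ((hE2.sm.integrable hc2 hB2 g v x).const_mul K) fun z => hle _
      rw [← e1, ← e2] at h3
      have s1 : tlt g v F₁ φ₁ x * Real.exp (m l * gstep g v F₁ x) =
          Real.exp (-((g - m l) * gstep g v F₁ x)) *
            (tlt g v F₁ φ₁ x * Real.exp (g * gstep g v F₁ x)) := by
        have : Real.exp (m l * gstep g v F₁ x) = Real.exp (-((g - m l) * gstep g v F₁ x)) *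
            Real.exp (g * gstep g v F₁ x) := by
          rw [← Real.exp_add]; congr 1; ring
        rw [this]; ring
      have s2 : K * Real.exp ((g - m l) * η) *
          (tlt g v F₂ φ₂ x * Real.exp (m l * gstep g v F₂ x)) =
          Real.exp ((g - m l) * η - (g - m l) * gstep g v F₂ x) *
            (K * (tlt g v F₂ φ₂ x * Real.exp (g * gstep g v F₂ x))) := by
        have : Real.exp ((g - m l) * η - (g - m l) * gstep g v F₂ x) *
            Real.exp (g * gstep g v F₂ x) =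
            Real.exp ((g - m l) * η) * Real.exp (m l * gstep g v F₂ x) := by
          rw [← Real.exp_add, ← Real.exp_add]; congr 1; ring
        calc K * Real.exp ((g - m l) * η) * (tlt g v F₂ φ₂ x * Real.exp (m l * gstep g v F₂ x))
            = K * tlt g v F₂ φ₂ x *
              (Real.exp ((g - m l) * η) * Real.exp (m l * gstep g v F₂ x)) := by ring
          _ = _ := by rw [← this]; ring
      rw [s1, s2]
      have hnn2 : 0 ≤ K * (tlt g v F₂ φ₂ x * Real.exp (g * gstep g v F₂ x)) :=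
        mul_nonneg hK (mul_nonneg (hnn x) (Real.exp_pos _).le)
      have h4 : Real.exp (-((g - m l) * gstep g v F₁ x)) ≤
          Real.exp ((g - m l) * η - (g - m l) * gstep g v F₂ x) := by
        apply Real.exp_le_exp.2
        have h5 := mul_le_mul_of_nonneg_left (hF' x) (sub_nonneg.2 hml)
        linarith
      calc Real.exp (-((g - m l) * gstep g v F₁ x)) *
            (tlt g v F₁ φ₁ x * Real.exp (g * gstep g v F₁ x))
          ≤ Real.exp (-((g - m l) * gstep g v F₁ x)) *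
            (K * (tlt g v F₂ φ₂ x * Real.exp (g * gstep g v F₂ x))) :=
            mul_le_mul_of_nonneg_left h3 (Real.exp_pos _).le
        _ ≤ _ := mul_le_mul_of_nonneg_right h4 hnn2
    have h6 := ih (fun i hi => hm i (by omega)) (fun i hi => hmm i (by omega))
      (hE1.step g0 g1 v) (hE2.step g0 g1 v) (mul_nonneg hK (Real.exp_pos _).le)
      (sp7_cb_tlt hE1 h1 g v) (sp7_cb_tlt hE2 h2 g v) hnn hF' key
    refine h6.trans (le_of_eq ?_)
    have : Real.exp (g * η) = Real.exp ((g - m l) * η) * Real.exp (m l * η) := by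
      rw [← Real.exp_add]; congr 1; ring
    rw [this]
    ring

/-- (L1) change of the function in a nested average -/
theorem chn_change {m r : ℕ → ℝ} (h0 : m 0 = 0) {η : ℝ} {l : ℕ} (hm : Sp7Exp m l)
    (hmm : ∀ i < l, m i ≤ m (i + 1)) (hml : 0 ≤ m l) {F₁ M₁ D₁ F₂ M₂ D₂ φ : ℝ → ℝ}
    (hE1 : Ec F₁ M₁ D₁) (hE2 : Ec F₂ M₂ D₂) (hφ : Sp7Cb φ) (hpos : ∀ x, 0 ≤ φ x)
    (hF : ∀ x, |F₁ x - F₂ x| ≤ η) :
    chn m r l F₁ φ ≤ Real.exp (2 * m l * η) * chn m r l F₂ φ := by
  have h1 := var0_chn_aux (r := r) h0 l hm hmm (K := Real.exp (m l * η)) hE1 hE2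
    (Real.exp_pos _).le hφ hφ hpos (η := η) (fun x => by
      have := (abs_le.1 (hF x)).1
      linarith) (fun x => by
      have h2 : Real.exp (m l * F₁ x) ≤ Real.exp (m l * η) * Real.exp (m l * F₂ x) := by
        rw [← Real.exp_add]
        apply Real.exp_le_exp.2
        have := mul_le_mul_of_nonneg_left (show F₁ x ≤ η + F₂ x by
          have := (abs_le.1 (hF x)).2
          linarith) hml
        linarith
      have := mul_le_mul_of_nonneg_left h2 (hpos x)
      refine this.trans (le_of_eq (by ring)))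
  refine h1.trans (le_of_eq ?_)
  rw [← Real.exp_add]
  congr 2
  ring

/-- (L2) change of the function in one average -/
theorem tlt_change {g η : ℝ} (hg : 0 ≤ g) {F₁ M₁ D₁ F₂ M₂ D₂ φ : ℝ → ℝ}
    (hE1 : Ec F₁ M₁ D₁) (hE2 : Ec F₂ M₂ D₂) (hφ : Sp7Cb φ) (hpos : ∀ x, 0 ≤ φ x)
    (hF : ∀ x, |F₁ x - F₂ x| ≤ η) (v x : ℝ) :
    tlt g v F₁ φ x ≤ Real.exp (2 * g * η) * tlt g v F₂ φ x := by
  obtain ⟨hc, B, hB⟩ := hφ
  have hp1 := hE1.sm.int_exp_pos g v x
  have hp2 := hE2.sm.int_exp_pos g v x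
  have key : ∀ {G M D H M' D' : ℝ → ℝ}, Ec G M D → Ec H M' D' → (∀ y, |G y - H y| ≤ η) →
      ∀ y, Real.exp (g * G y) ≤ Real.exp (g * η) * Real.exp (g * H y) := by
    intro G M D H M' D' _ _ h y
    rw [← Real.exp_add]
    apply Real.exp_le_exp.2
    have := mul_le_mul_of_nonneg_left (show G y ≤ η + H y by
      have := (abs_le.1 (h y)).2
      linarith) hg
    linarith
  have h1 : ∫ z, φ (x + √v * z) * Real.exp (g * F₁ (x + √v * z)) ∂(gaussianReal 0 1) ≤
      Real.exp (g * η) *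
        ∫ z, φ (x + √v * z) * Real.exp (g * F₂ (x + √v * z)) ∂(gaussianReal 0 1) := by
    rw [← integral_const_mul]
    refine integral_mono (hE1.sm.integrable hc hB g v x)
      ((hE2.sm.integrable hc hB g v x).const_mul _) fun z => ?_
    have := mul_le_mul_of_nonneg_left (key hE1 hE2 hF (x + √v * z)) (hpos (x + √v * z))
    refine this.trans (le_of_eq (by ring))
  have h2 : ∫ z, Real.exp (g * F₂ (x + √v * z)) ∂(gaussianReal 0 1) ≤
      Real.exp (g * η) * ∫ z, Real.exp (g * F₁ (x + √v * z)) ∂(gaussianReal 0 1) := by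
    rw [← integral_const_mul]
    refine integral_mono (hE2.sm.integrable_exp g v x)
      ((hE1.sm.integrable_exp g v x).const_mul _) fun z => ?_
    exact key hE2 hE1 (fun y => by rw [abs_sub_comm]; exact hF y) (x + √v * z)
  have hn : 0 ≤ ∫ z, φ (x + √v * z) * Real.exp (g * F₂ (x + √v * z)) ∂(gaussianReal 0 1) :=
    integral_nonneg fun z => mul_nonneg (hpos _) (Real.exp_pos _).le
  unfold tlt
  rw [div_le_iff₀ hp1]
  set A := ∫ z, φ (x + √v * z) * Real.exp (g * F₂ (x + √v * z)) ∂(gaussianReal 0 1)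
  set Z₁ := ∫ z, Real.exp (g * F₁ (x + √v * z)) ∂(gaussianReal 0 1)
  set Z₂ := ∫ z, Real.exp (g * F₂ (x + √v * z)) ∂(gaussianReal 0 1)
  have h3 : Real.exp (2 * g * η) = Real.exp (g * η) * Real.exp (g * η) := by
    rw [← Real.exp_add]; congr 1; ring
  have h4 : Real.exp (g * η) * A ≤ Real.exp (2 * g * η) * (A / Z₂) * Z₁ := by
    rw [h3]
    have h5 : A = A / Z₂ * Z₂ := by field_simp
    have h6 : A / Z₂ * Z₂ ≤ A / Z₂ * (Real.exp (g * η) * Z₁) :=
      mul_le_mul_of_nonneg_left h2 (div_nonneg hn hp2.le)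
    calc Real.exp (g * η) * A ≤ Real.exp (g * η) * (A / Z₂ * (Real.exp (g * η) * Z₁)) := by
          refine mul_le_mul_of_nonneg_left ?_ (Real.exp_pos _).le
          rw [← h5] at h6
          exact h6
      _ = _ := by ring
  exact h1.trans h4

/-- (L1) the form with a subtraction: for `0 ≤ φ ≤ B` -/
theorem chn_change_sub {m r : ℕ → ℝ} (h0 : m 0 = 0) {η B : ℝ} {l : ℕ} (hm : Sp7Exp m l)
    (hmm : ∀ i < l, m i ≤ m (i + 1)) (hml : 0 ≤ m l) (hml1 : m l ≤ 1) {F₁ M₁ D₁ F₂ M₂ D₂ φ : ℝ → ℝ}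
    (hE1 : Ec F₁ M₁ D₁) (hE2 : Ec F₂ M₂ D₂) (hφ : Sp7Cb φ) (hpos : ∀ x, 0 ≤ φ x)
    (hB : ∀ x, φ x ≤ B) (hF : ∀ x, |F₁ x - F₂ x| ≤ η) :
    chn m r l F₁ φ - 2 * η * B ≤ chn m r l F₂ φ := by
  have hη : 0 ≤ η := (abs_nonneg _).trans (hF 0)
  have hB0 : 0 ≤ B := (hpos 0).trans (hB 0)
  have h1 := chn_change (r := r) h0 hm hmm hml hE1 hE2 hφ hpos hF
  have h2 : chn m r l F₁ φ ≤ B := by
    have := sp7_chn_mono m r l hm hE1 hφ (sp7_cb_const B) hB
    rwa [sp7_chn_const m r l hm hE1] at this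
  have h20 : 0 ≤ chn m r l F₁ φ := by
    have := sp7_chn_mono m r l hm hE1 (sp7_cb_const 0) hφ hpos
    rwa [sp7_chn_const m r l hm hE1] at this
  have h3 : Real.exp (-(2 * m l * η)) * chn m r l F₁ φ ≤ chn m r l F₂ φ := by
    have := mul_le_mul_of_nonneg_left h1 (Real.exp_pos (-(2 * m l * η))).le
    rwa [← mul_assoc, ← Real.exp_add, neg_add_cancel, Real.exp_zero, one_mul] at this
  have h4 : 1 - 2 * m l * η ≤ Real.exp (-(2 * m l * η)) := by
    have := Real.add_one_le_exp (-(2 * m l * η))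
    linarith
  have h5 := mul_le_mul_of_nonneg_right h4 h20
  have h6 : 2 * m l * η * chn m r l F₁ φ ≤ 2 * η * B := by
    have h7 : 2 * m l * η ≤ 2 * η := by linarith only [mul_nonneg (sub_nonneg.2 hml1) (sub_nonneg.2 hη)]
    exact mul_le_mul h7 h2 h20 (by positivity)
  have h8 : (1 - 2 * m l * η) * chn m r l F₁ φ =
      chn m r l F₁ φ - 2 * m l * η * chn m r l F₁ φ := by ring
  linarith

/-- (L2) the form with a subtraction -/
theorem tlt_change_sub {g η B : ℝ} (hg : 0 ≤ g) (hg1 : g ≤ 1) {F₁ M₁ D₁ F₂ M₂ D₂ φ : ℝ → ℝ}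
    (hE1 : Ec F₁ M₁ D₁) (hE2 : Ec F₂ M₂ D₂) (hφ : Sp7Cb φ) (hpos : ∀ x, 0 ≤ φ x)
    (hB : ∀ x, φ x ≤ B) (hF : ∀ x, |F₁ x - F₂ x| ≤ η) (v x : ℝ) :
    tlt g v F₁ φ x - 2 * η * B ≤ tlt g v F₂ φ x := by
  have hη : 0 ≤ η := (abs_nonneg _).trans (hF 0)
  have hB0 : 0 ≤ B := (hpos 0).trans (hB 0)
  have h1 := tlt_change hg hE1 hE2 hφ hpos hF v x
  obtain ⟨hc, K, hK⟩ := hφ
  have h2 : tlt g v F₁ φ x ≤ B := by
    have := hE1.sm.tlt_mono hc hK continuous_const (K' := |B|) (fun _ => le_rfl) hB g v x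
    rwa [hE1.sm.tlt_const] at this
  have h20 : 0 ≤ tlt g v F₁ φ x := by
    have := hE1.sm.tlt_mono (g := fun _ => (0 : ℝ)) (g' := φ) continuous_const (K := 0)
      (fun _ => by simp) hc hK hpos g v x
    rwa [hE1.sm.tlt_const] at this
  have h3 : Real.exp (-(2 * g * η)) * tlt g v F₁ φ x ≤ tlt g v F₂ φ x := by
    have := mul_le_mul_of_nonneg_left h1 (Real.exp_pos (-(2 * g * η))).le
    rwa [← mul_assoc, ← Real.exp_add, neg_add_cancel, Real.exp_zero, one_mul] at this
  have h4 : 1 - 2 * g * η ≤ Real.exp (-(2 * g * η)) := by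
    have := Real.add_one_le_exp (-(2 * g * η))
    linarith
  have h5 := mul_le_mul_of_nonneg_right h4 h20
  have h6 : 2 * g * η * tlt g v F₁ φ x ≤ 2 * η * B := by
    have h7 : 2 * g * η ≤ 2 * η := by linarith only [mul_nonneg (sub_nonneg.2 hg1) (sub_nonneg.2 hη)]
    exact mul_le_mul h7 h2 h20 (by positivity)
  have h8 : (1 - 2 * g * η) * tlt g v F₁ φ x =
      tlt g v F₁ φ x - 2 * g * η * tlt g v F₁ φ x := by ring
  linarith

/-! ### (L3): change of the exponent of the tilt -/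

lemma var0_int_abs (c : ℝ) : Integrable (fun z : ℝ => Real.exp (c * |z|)) (gaussianReal 0 1) :=
  sp2_integrable_exp_abs c

/-- (L3) -/
theorem tlt_exp_lip (S : ℝ) : ∃ C : ℝ, 0 ≤ C ∧ ∀ {g g' s L : ℝ} {F M D ψ : ℝ → ℝ}, Ec F M D →
    0 ≤ g → g ≤ 1 → 0 ≤ g' → g' ≤ 1 → 0 ≤ s → s ≤ S → 0 ≤ L → Sp7Cb ψ →
    (∀ x y, |ψ x - ψ y| ≤ L * |x - y|) → ∀ x,
      |tlt g' s F ψ x - tlt g s F ψ x| ≤ C * L * |g' - g| * s := by
  set I : ℝ := ∫ z, Real.exp ((1 + √S) * |z|) ∂(gaussianReal 0 1) with hI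
  set c : ℝ := ∫ z, Real.exp (-√S * |z|) ∂(gaussianReal 0 1) with hc
  have hIp : 0 ≤ I := integral_nonneg fun z => (Real.exp_pos _).le
  have hcp : 0 < c := integral_exp_pos (var0_int_abs (-√S))
  refine ⟨2 * I / c + I ^ 2 / c ^ 2, by positivity, ?_⟩
  intro g g' s L F M D ψ hE hg hg1 hg' hg'1 hs hsS hL hψ hlip x
  set w : ℝ → ℝ := fun z => F (x + √s * z) - F x with hw
  set p : ℝ → ℝ := fun z => ψ (x + √s * z) - ψ x with hp
  have hss : √s ≤ √S := Real.sqrt_le_sqrt hsS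
  have hs0 : 0 ≤ √s := Real.sqrt_nonneg s
  have hwb : ∀ z, |w z| ≤ √s * |z| := fun z => by
    have := hE.sm.lip (x + √s * z) x
    have e : x + √s * z - x = √s * z := by ring
    rw [e, one_mul, abs_mul, abs_of_nonneg hs0] at this
    exact this
  have hpb : ∀ z, |p z| ≤ L * (√s * |z|) := fun z => by
    have := hlip (x + √s * z) x
    have e : x + √s * z - x = √s * z := by ring
    rw [e, abs_mul, abs_of_nonneg hs0] at this
    exact this
  have hwS : ∀ z, |w z| ≤ √S * |z| := fun z =>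
    (hwb z).trans (mul_le_mul_of_nonneg_right hss (abs_nonneg z))
  have hFc := hE.sm.cont
  have hψc := hψ.1
  have hcw : Continuous w := by simp only [hw]; fun_prop
  have hcp' : Continuous p := by simp only [hp]; fun_prop
  -- pointwise bounds
  have hup : ∀ t, 0 ≤ t → t ≤ 1 → ∀ z, Real.exp (t * w z) ≤ Real.exp (√S * |z|) := by
    intro t ht ht1 z
    apply Real.exp_le_exp.2
    calc t * w z ≤ t * |w z| := mul_le_mul_of_nonneg_left (le_abs_self _) ht
      _ ≤ 1 * |w z| := mul_le_mul_of_nonneg_right ht1 (abs_nonneg _)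
      _ ≤ √S * |z| := by rw [one_mul]; exact hwS z
  have hlow : ∀ t, 0 ≤ t → t ≤ 1 → ∀ z, Real.exp (-√S * |z|) ≤ Real.exp (t * w z) := by
    intro t ht ht1 z
    apply Real.exp_le_exp.2
    have h1 : -(t * w z) ≤ √S * |z| := by
      calc -(t * w z) = t * (-w z) := by ring
        _ ≤ t * |w z| := mul_le_mul_of_nonneg_left (neg_le_abs _) ht
        _ ≤ 1 * |w z| := mul_le_mul_of_nonneg_right ht1 (abs_nonneg _)
        _ ≤ √S * |z| := by rw [one_mul]; exact hwS z
    linarith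
  have hz1 : ∀ z : ℝ, |z| ≤ Real.exp |z| := fun z => sp2_abs_le_exp z
  have hz2 : ∀ z : ℝ, |z| * |z| ≤ 2 * Real.exp |z| := fun z => by
    have h1 := Real.pow_div_factorial_le_exp |z| (abs_nonneg z) 2
    have h2 : ((Nat.factorial 2 : ℕ) : ℝ) = 2 := by norm_num [Nat.factorial]
    rw [h2, div_le_iff₀ (by norm_num)] at h1
    linarith only [h1]
  have hsplit : ∀ z : ℝ, Real.exp ((1 + √S) * |z|) = Real.exp |z| * Real.exp (√S * |z|) :=
    fun z => by rw [← Real.exp_add]; congr 1; ring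
  have hie : ∀ t, 0 ≤ t → t ≤ 1 → Integrable (fun z => Real.exp (t * w z)) (gaussianReal 0 1) := by
    intro t ht ht1
    refine (var0_int_abs (√S)).mono' (by fun_prop) (Eventually.of_forall fun z => ?_)
    rw [Real.norm_eq_abs, abs_of_pos (Real.exp_pos _)]
    exact hup t ht ht1 z
  have hipb : ∀ t, 0 ≤ t → t ≤ 1 → ∀ z, |p z * Real.exp (t * w z)| ≤
      L * √s * Real.exp ((1 + √S) * |z|) := by
    intro t ht ht1 z
    rw [abs_mul, abs_of_pos (Real.exp_pos _), hsplit]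
    calc |p z| * Real.exp (t * w z) ≤ (L * (√s * |z|)) * Real.exp (√S * |z|) :=
          mul_le_mul (hpb z) (hup t ht ht1 z) (Real.exp_pos _).le (by (clear * - hL; positivity))
      _ ≤ (L * (√s * Real.exp |z|)) * Real.exp (√S * |z|) := by
          gcongr
          exact hz1 z
      _ = _ := by ring
  have hip : ∀ t, 0 ≤ t → t ≤ 1 → Integrable (fun z => p z * Real.exp (t * w z))
      (gaussianReal 0 1) := by
    intro t ht ht1
    refine ((var0_int_abs (1 + √S)).const_mul (L * √s)).mono' (by fun_prop)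
      (Eventually.of_forall fun z => ?_)
    rw [Real.norm_eq_abs]
    exact hipb t ht ht1 z
  -- the difference of the exponentials
  have hdiff : ∀ z, |Real.exp (g' * w z) - Real.exp (g * w z)| ≤
      |g' - g| * (√s * |z|) * Real.exp (√S * |z|) := by
    intro z
    have key : ∀ a b : ℝ, 0 ≤ a → a ≤ 1 → 0 ≤ b → b ≤ 1 →
        Real.exp (a * w z) - Real.exp (b * w z) ≤ |a - b| * (√s * |z|) * Real.exp (√S * |z|) := by
      intro a b ha ha1 hb hb1
      have h1 : Real.exp (b * w z) = Real.exp (a * w z) * Real.exp (-((a - b) * w z)) := by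
        rw [← Real.exp_add]; congr 1; ring
      have h2 := Real.add_one_le_exp (-((a - b) * w z))
      have h3 : Real.exp (a * w z) - Real.exp (b * w z) ≤ Real.exp (a * w z) * ((a - b) * w z) := by
        rw [h1]
        have := mul_le_mul_of_nonneg_left h2 (Real.exp_pos (a * w z)).le
        linarith
      have h4 : (a - b) * w z ≤ |a - b| * (√s * |z|) := by
        calc (a - b) * w z ≤ |(a - b) * w z| := le_abs_self _
          _ = |a - b| * |w z| := abs_mul _ _
          _ ≤ _ := mul_le_mul_of_nonneg_left (hwb z) (abs_nonneg _)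
      calc Real.exp (a * w z) - Real.exp (b * w z) ≤ Real.exp (a * w z) * ((a - b) * w z) := h3
        _ ≤ Real.exp (a * w z) * (|a - b| * (√s * |z|)) :=
            mul_le_mul_of_nonneg_left h4 (Real.exp_pos _).le
        _ ≤ Real.exp (√S * |z|) * (|a - b| * (√s * |z|)) :=
            mul_le_mul_of_nonneg_right (hup a ha ha1 z) (by (clear * -; positivity))
        _ = _ := by ring
    rw [abs_le]
    constructor
    · have := key g g' hg hg1 hg' hg'1
      rw [abs_sub_comm g g'] at this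
      linarith
    · exact key g' g hg' hg'1 hg hg1
  set N : ℝ → ℝ := fun t => ∫ z, p z * Real.exp (t * w z) ∂(gaussianReal 0 1) with hN
  set Z : ℝ → ℝ := fun t => ∫ z, Real.exp (t * w z) ∂(gaussianReal 0 1) with hZ
  have hZc : ∀ t, 0 ≤ t → t ≤ 1 → c ≤ Z t := fun t ht ht1 =>
    integral_mono (var0_int_abs (-√S)) (hie t ht ht1) fun z => hlow t ht ht1 z
  have hNb : ∀ t, 0 ≤ t → t ≤ 1 → |N t| ≤ L * √s * I := by
    intro t ht ht1
    calc |N t| ≤ ∫ z, |p z * Real.exp (t * w z)| ∂(gaussianReal 0 1) := abs_integral_le_integral_abs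
      _ ≤ ∫ z, L * √s * Real.exp ((1 + √S) * |z|) ∂(gaussianReal 0 1) :=
          integral_mono (hip t ht ht1).abs ((var0_int_abs (1 + √S)).const_mul _) fun z =>
            hipb t ht ht1 z
      _ = _ := by rw [integral_const_mul]
  have hZd : |Z g' - Z g| ≤ |g' - g| * √s * I := by
    simp only [hZ]
    rw [← integral_sub (hie g' hg' hg'1) (hie g hg hg1)]
    calc _ ≤ ∫ z, |Real.exp (g' * w z) - Real.exp (g * w z)| ∂(gaussianReal 0 1) :=
          abs_integral_le_integral_abs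
      _ ≤ ∫ z, |g' - g| * √s * Real.exp ((1 + √S) * |z|) ∂(gaussianReal 0 1) := by
          refine integral_mono ((hie g' hg' hg'1).sub (hie g hg hg1)).abs
            ((var0_int_abs (1 + √S)).const_mul _) fun z => ?_
          refine (hdiff z).trans ?_
          rw [hsplit]
          calc |g' - g| * (√s * |z|) * Real.exp (√S * |z|)
              ≤ |g' - g| * (√s * Real.exp |z|) * Real.exp (√S * |z|) := by
                gcongr
                exact hz1 z
            _ = _ := by ring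
      _ = _ := by rw [integral_const_mul]
  have hNd : |N g' - N g| ≤ 2 * L * s * |g' - g| * I := by
    simp only [hN]
    rw [← integral_sub (hip g' hg' hg'1) (hip g hg hg1)]
    calc _ ≤ ∫ z, |p z * Real.exp (g' * w z) - p z * Real.exp (g * w z)| ∂(gaussianReal 0 1) :=
          abs_integral_le_integral_abs
      _ ≤ ∫ z, 2 * L * s * |g' - g| * Real.exp ((1 + √S) * |z|) ∂(gaussianReal 0 1) := by
          refine integral_mono ((hip g' hg' hg'1).sub (hip g hg hg1)).abs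
            ((var0_int_abs (1 + √S)).const_mul _) fun z => ?_
          simp only []
          rw [← mul_sub, abs_mul, hsplit]
          calc |p z| * |Real.exp (g' * w z) - Real.exp (g * w z)|
              ≤ (L * (√s * |z|)) * (|g' - g| * (√s * |z|) * Real.exp (√S * |z|)) :=
                mul_le_mul (hpb z) (hdiff z) (abs_nonneg _) (by (clear * - hL; positivity))
            _ = (L * (√s * √s) * |g' - g|) * (|z| * |z|) * Real.exp (√S * |z|) := by ring
            _ = (L * s * |g' - g|) * (|z| * |z|) * Real.exp (√S * |z|) := by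
                rw [Real.mul_self_sqrt hs]
            _ ≤ (L * s * |g' - g|) * (2 * Real.exp |z|) * Real.exp (√S * |z|) :=
                mul_le_mul_of_nonneg_right (mul_le_mul_of_nonneg_left (hz2 z) (by (clear * - hL hs; positivity)))
                  (Real.exp_pos _).le
            _ = _ := by ring
      _ = _ := by rw [integral_const_mul]
  have hrep : ∀ t, 0 ≤ t → t ≤ 1 → tlt t s F ψ x = ψ x + N t / Z t := by
    intro t ht ht1
    have hZp : 0 < Z t := hcp.trans_le (hZc t ht ht1)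
    have e1 : ∫ z, Real.exp (t * F (x + √s * z)) ∂(gaussianReal 0 1) =
        Real.exp (t * F x) * Z t := by
      simp only [hZ]
      rw [← integral_const_mul]
      refine integral_congr_ae (Eventually.of_forall fun z => ?_)
      simp only [hw]
      rw [← Real.exp_add]; congr 1; ring
    have e2 : ∫ z, ψ (x + √s * z) * Real.exp (t * F (x + √s * z)) ∂(gaussianReal 0 1) =
        Real.exp (t * F x) * (ψ x * Z t + N t) := by
      simp only [hZ, hN]
      rw [← integral_const_mul, ← integral_add ((hie t ht ht1).const_mul _) (hip t ht ht1),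
        ← integral_const_mul]
      refine integral_congr_ae (Eventually.of_forall fun z => ?_)
      simp only [hw, hp]
      have : Real.exp (t * F (x + √s * z)) =
          Real.exp (t * F x) * Real.exp (t * (F (x + √s * z) - F x)) := by
        rw [← Real.exp_add]; congr 1; ring
      rw [this]; ring
    unfold tlt
    rw [e1, e2, mul_div_mul_left _ _ (Real.exp_pos _).ne', add_div, mul_div_cancel_right₀ _ hZp.ne']
  rw [hrep g' hg' hg'1, hrep g hg hg1]
  have hZ1 := hZc g hg hg1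
  have hZ2 := hZc g' hg' hg'1
  have hZ1p : 0 < Z g := hcp.trans_le hZ1
  have hZ2p : 0 < Z g' := hcp.trans_le hZ2
  have e3 : ψ x + N g' / Z g' - (ψ x + N g / Z g) =
      (N g' - N g) / Z g' - N g * (Z g' - Z g) / (Z g * Z g') := by
    field_simp
    ring
  rw [e3]
  have b1 : |(N g' - N g) / Z g'| ≤ 2 * L * s * |g' - g| * I / c := by
    rw [abs_div, abs_of_pos hZ2p]
    exact div_le_div₀ (by (clear * - hL hs; positivity)) hNd hcp hZ2
  have b2 : |N g * (Z g' - Z g) / (Z g * Z g')| ≤ L * s * |g' - g| * I ^ 2 / c ^ 2 := by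
    rw [abs_div, abs_of_pos (mul_pos hZ1p hZ2p), abs_mul]
    refine div_le_div₀ (by (clear * - hL hs; positivity)) ?_ (by positivity) ?_
    · calc |N g| * |Z g' - Z g| ≤ (L * √s * I) * (|g' - g| * √s * I) :=
            mul_le_mul (hNb g hg hg1) hZd (abs_nonneg _) (by (clear * - hL; positivity))
        _ = L * (√s * √s) * |g' - g| * I ^ 2 := by ring
        _ = _ := by rw [Real.mul_self_sqrt hs]
    · rw [sq]
      exact mul_le_mul hZ1 hZ2 hcp.le hZ1p.le
  refine (abs_sub _ _).trans ?_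
  refine (add_le_add b1 b2).trans (le_of_eq ?_)
  ring

/-! ### (L4): nested averages of integrals over the time -/

/-- continuous and bounded on a strip -/
def BcOn (T : ℝ) (f : ℝ → ℝ → ℝ) : Prop :=
  ContinuousOn (fun p : ℝ × ℝ => f p.1 p.2) (Icc 0 T ×ˢ univ) ∧
    ∃ B, ∀ t ∈ Icc 0 T, ∀ x, |f t x| ≤ B

lemma BcOn.slice {T : ℝ} {f : ℝ → ℝ → ℝ} (h : BcOn T f) {t : ℝ} (ht : t ∈ Icc 0 T) :
    Sp7Cb (f t) := by
  obtain ⟨hc, B, hB⟩ := h
  refine ⟨?_, B, hB t ht⟩
  have := hc.comp_continuous (f := fun x : ℝ => ((t, x) : ℝ × ℝ)) (by fun_prop)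
    (fun x => ⟨ht, mem_univ _⟩)
  exact this

lemma BcOn.time {T : ℝ} {f : ℝ → ℝ → ℝ} (h : BcOn T f) (x : ℝ) :
    ContinuousOn (fun t => f t x) (Icc 0 T) :=
  h.1.comp (f := fun t : ℝ => ((t, x) : ℝ × ℝ)) (by fun_prop) (fun t ht => ⟨ht, mem_univ _⟩)

lemma BcOn.tlt_bc {T : ℝ} {f : ℝ → ℝ → ℝ} (h : BcOn T f) {F M D : ℝ → ℝ} (hE : Ec F M D)
    (g v : ℝ) : BcOn T (fun t => tlt g v F (f t)) := by
  have h' := h
  obtain ⟨hc, B, hB⟩ := h
  refine ⟨?_, B, fun t ht x => hE.sm.abs_tlt_le (h'.slice ht).1 (hB t ht) g v x⟩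
  have h1 := (sp5_fam_const hE 0 T).tlt_cont hc hB g v 0
  simpa using h1

/-- Fubini for a bounded family -/
lemma var0_swap {T : ℝ} (hT : 0 ≤ T) {μ : Measure ℝ} [IsFiniteMeasure μ] {f : ℝ → ℝ → ℝ}
    (hc : ContinuousOn (fun p : ℝ × ℝ => f p.1 p.2) (Icc 0 T ×ˢ univ)) {G : ℝ → ℝ}
    (hG : Integrable G μ) (hb : ∀ t ∈ Icc 0 T, ∀ z, |f t z| ≤ G z) :
    ∫ z, (∫ t in (0 : ℝ)..T, f t z) ∂μ = ∫ t in (0 : ℝ)..T, (∫ z, f t z ∂μ) := by
  simp only [intervalIntegral.integral_of_le hT]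
  have hmeas : MeasurableSet (Icc 0 T ×ˢ (univ : Set ℝ)) := measurableSet_Icc.prod MeasurableSet.univ
  have hsub : Ioc 0 T ⊆ Icc 0 T := Ioc_subset_Icc_self
  have hr : ((volume : Measure ℝ).restrict (Ioc 0 T)).prod μ =
      ((volume : Measure ℝ).prod μ).restrict (Ioc 0 T ×ˢ univ) := by
    rw [← Measure.prod_restrict, Measure.restrict_univ]
  have hae : AEStronglyMeasurable (fun p : ℝ × ℝ => f p.1 p.2)
      (((volume : Measure ℝ).restrict (Ioc 0 T)).prod μ) := by
    rw [hr]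
    exact (hc.aestronglyMeasurable hmeas).mono_measure
      (Measure.restrict_mono (prod_mono hsub subset_rfl) le_rfl)
  have hint : Integrable (fun p : ℝ × ℝ => f p.1 p.2)
      (((volume : Measure ℝ).restrict (Ioc 0 T)).prod μ) := by
    have hG' : Integrable (fun p : ℝ × ℝ => (1 : ℝ) * G p.2)
        (((volume : Measure ℝ).restrict (Ioc 0 T)).prod μ) :=
      Integrable.mul_prod (f := fun _ : ℝ => (1 : ℝ)) (integrable_const _) hG
    refine hG'.mono' hae ?_
    rw [hr]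
    refine (ae_restrict_iff' (measurableSet_Ioc.prod MeasurableSet.univ)).2
      (Eventually.of_forall fun p hp => ?_)
    rw [one_mul, Real.norm_eq_abs]
    exact hb p.1 (hsub hp.1) p.2
  exact (integral_integral_swap (f := fun t z => f t z) hint).symm

lemma var0_cb_int {T : ℝ} (hT : 0 ≤ T) {f : ℝ → ℝ → ℝ} (h : BcOn T f) :
    Sp7Cb (fun x => ∫ t in (0 : ℝ)..T, f t x) := by
  obtain ⟨hc, B, hB⟩ := h
  refine ⟨?_, B * T, fun x => ?_⟩
  · -- clamp the time
    set f' : ℝ → ℝ → ℝ := fun x t => f (max 0 (min t T)) x with hf'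
    have hc' : Continuous (Function.uncurry f') := by
      have : Continuous fun p : ℝ × ℝ => f (max 0 (min p.2 T)) p.1 :=
        hc.comp_continuous (f := fun p : ℝ × ℝ => ((max 0 (min p.2 T), p.1) : ℝ × ℝ))
          (by fun_prop) (fun p => ⟨⟨le_max_left _ _, max_le hT (min_le_right _ _)⟩, mem_univ _⟩)
      exact this
    have h1 := intervalIntegral.continuous_parametric_intervalIntegral_of_continuous' (μ := volume)
      hc' 0 T
    refine h1.congr fun x => ?_
    refine intervalIntegral.integral_congr fun t ht => ?_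
    rw [uIcc_of_le hT] at ht
    simp only [hf']
    rw [min_eq_left ht.2, max_eq_right ht.1]
  · have := intervalIntegral.norm_integral_le_of_norm_le_const (a := 0) (b := T) (C := B)
      (f := fun t => f t x) (fun t ht => by
        rw [uIoc_of_le hT] at ht
        rw [Real.norm_eq_abs]
        exact hB t (Ioc_subset_Icc_self ht) x)
    rw [Real.norm_eq_abs, sub_zero, abs_of_nonneg hT] at this
    exact this

lemma var0_tlt_int {T : ℝ} (hT : 0 ≤ T) {f : ℝ → ℝ → ℝ} (h : BcOn T f) {F M D : ℝ → ℝ}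
    (hE : Ec F M D) (g v x : ℝ) :
    tlt g v F (fun x => ∫ t in (0 : ℝ)..T, f t x) x = ∫ t in (0 : ℝ)..T, tlt g v F (f t) x := by
  obtain ⟨hc, B, hB⟩ := h
  have hB0 : 0 ≤ B := (abs_nonneg _).trans (hB 0 ⟨le_rfl, hT⟩ 0)
  have hF := hE.sm.cont
  unfold Vale.Agent.P157.Par.tlt
  rw [intervalIntegral.integral_div]
  congr 1
  have h1 := var0_swap hT (μ := gaussianReal 0 1)
    (f := fun t z => f t (x + √v * z) * Real.exp (g * F (x + √v * z)))
    (G := fun z => B * Real.exp (g * F (x + √v * z))) ?_ ?_ ?_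
  · rw [← h1]
    refine integral_congr_ae (Eventually.of_forall fun z => ?_)
    simp only []
    rw [intervalIntegral.integral_mul_const]
  · have h2 : ContinuousOn (fun p : ℝ × ℝ => f p.1 (x + √v * p.2)) (Icc 0 T ×ˢ univ) :=
      hc.comp (f := fun p : ℝ × ℝ => ((p.1, x + √v * p.2) : ℝ × ℝ)) (by fun_prop)
        (fun p hp => ⟨hp.1, mem_univ _⟩)
    exact h2.mul (by fun_prop : Continuous fun p : ℝ × ℝ =>
      Real.exp (g * F (x + √v * p.2))).continuousOn
  · exact (hE.sm.integrable_exp g v x).const_mul B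
  · intro t ht z
    rw [abs_mul, abs_of_pos (Real.exp_pos _)]
    exact mul_le_mul_of_nonneg_right (hB t ht _) (Real.exp_pos _).le

/-- (L4) -/
theorem var0_chn_integral {T : ℝ} (hT : 0 ≤ T) {m r : ℕ → ℝ} : ∀ (l : ℕ), Sp7Exp m l →
    ∀ {f : ℝ → ℝ → ℝ}, BcOn T f → ∀ {F M D : ℝ → ℝ}, Ec F M D →
    ContinuousOn (fun t => chn m r l F (f t)) (Icc 0 T) ∧
    chn m r l F (fun x => ∫ t in (0 : ℝ)..T, f t x) = ∫ t in (0 : ℝ)..T, chn m r l F (f t) := by
  intro l
  induction l with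
  | zero =>
    intro _ f h F M D hE
    have h' := h
    obtain ⟨hc, B, hB⟩ := h
    simp only [chn_zero_def]
    have hc2 : ContinuousOn (fun p : ℝ × ℝ => f p.1 (√(r 0) * p.2)) (Icc 0 T ×ˢ univ) :=
      hc.comp (f := fun p : ℝ × ℝ => ((p.1, √(r 0) * p.2) : ℝ × ℝ)) (by fun_prop)
        (fun p hp => ⟨hp.1, mem_univ _⟩)
    constructor
    · intro t ht
      refine continuousWithinAt_of_dominated (bound := fun _ => B) ?_ ?_ (integrable_const B) ?_
      · filter_upwards [self_mem_nhdsWithin] with s hs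
        exact (sp7_cb_int (h'.slice hs) _).aestronglyMeasurable
      · filter_upwards [self_mem_nhdsWithin] with s hs
        exact Eventually.of_forall fun z => by
          rw [Real.norm_eq_abs]; exact hB s hs _
      · exact Eventually.of_forall fun z => h'.time (√(r 0) * z) t ht
    · exact var0_swap hT (f := fun t z => f t (√(r 0) * z)) hc2 (G := fun _ => B)
        (integrable_const B) (fun t ht z => hB t ht _)
  | succ l ih =>
    intro hm f h F M D hE
    obtain ⟨g0, g1⟩ := hm l (Nat.lt_succ_self l)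
    simp only [chn_succ_def]
    have h1 : tlt (m (l + 1)) (r (l + 1) - r l) F (fun x => ∫ t in (0 : ℝ)..T, f t x) =
        fun x => ∫ t in (0 : ℝ)..T, tlt (m (l + 1)) (r (l + 1) - r l) F (f t) x :=
      funext fun x => var0_tlt_int hT h hE _ _ x
    rw [h1]
    exact ih (fun i hi => hm i (by omega)) (h.tlt_bc hE _ _) (hE.step g0 g1 _)

/-! ### (L5): composition of two averages -/

/-- (L5) -/
theorem var0_tlt_comp {g v s : ℝ} (hg : 0 < g) (hv : 0 ≤ v) (hs : 0 ≤ s)
    {F M D ψ : ℝ → ℝ} (hE : Ec F M D) (hψ : Sp7Cb ψ) :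
    tlt g v (gstep g s F) (tlt g s F ψ) = tlt g (v + s) F ψ := by
  obtain ⟨hc, B, hB⟩ := hψ
  have hF := hE.sm.cont
  funext x
  have hden : ∫ z, Real.exp (g * gstep g s F (x + √v * z)) ∂(gaussianReal 0 1) =
      ∫ z, Real.exp (g * F (x + √(v + s) * z)) ∂(gaussianReal 0 1) := by
    have h1 := comp_conv (h := fun u => Real.exp (g * F (x + u))) (by exact Continuous.measurable (by fun_prop)) hv hs
      (hE.sm.integrable_exp g (v + s) x)
    rw [← h1]
    refine integral_congr_ae (Eventually.of_forall fun z => ?_)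
    simp only []
    rw [var0_exp_gstep hg hE]
    simp only [add_assoc]
  have hnum : ∫ z, tlt g s F ψ (x + √v * z) * Real.exp (g * gstep g s F (x + √v * z))
      ∂(gaussianReal 0 1) =
      ∫ z, ψ (x + √(v + s) * z) * Real.exp (g * F (x + √(v + s) * z)) ∂(gaussianReal 0 1) := by
    have h1 := comp_conv (h := fun u => ψ (x + u) * Real.exp (g * F (x + u)))
      (by exact Continuous.measurable (by fun_prop)) hv hs (hE.sm.integrable hc hB g (v + s) x)
    rw [← h1]
    refine integral_congr_ae (Eventually.of_forall fun z => ?_)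
    simp only []
    rw [var0_tlt_exp hg hE]
    simp only [add_assoc]
  have e : tlt g v (gstep g s F) (tlt g s F ψ) x =
      (∫ z, tlt g s F ψ (x + √v * z) * Real.exp (g * gstep g s F (x + √v * z))
      ∂(gaussianReal 0 1)) / ∫ z, Real.exp (g * gstep g s F (x + √v * z)) ∂(gaussianReal 0 1) := rfl
  rw [e, hden, hnum]
  rfl

end Vale.Agent.P367.Cl
end

section

/-!
# P367, classical half: FVar-up, moving the level `l` up inside the block `(l, l + 1)`
-/

open MeasureTheory ProbabilityTheory Filter Topology Set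

namespace Vale.Agent.P367.Cl

open Vale.Agent.P157.Par
open Vale.Agent.P146.Gap
open Vale.Agent.P146.Pw2

/-- the path with the level `l` moved up by `t` -/
lemma up_path {b : ℝ} {n : ℕ} {r : ℕ → ℝ} {l : ℕ} (h : BPath b n r) (hl1 : 1 ≤ l) (hl : l < n)
    {t : ℝ} (ht : t ∈ Icc 0 (r (l + 1) - r l)) : BPath b n (Function.update r l (r l + t)) := by
  have hne : ∀ i, i ≠ l → Function.update r l (r l + t) i = r i := fun i hi =>
    Function.update_of_ne hi _ _
  have he : Function.update r l (r l + t) l = r l + t := Function.update_self _ _ _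
  have h0 : Function.update r l (r l + t) 0 = r 0 := hne 0 (by omega)
  refine ⟨h0.trans h.1, ⟨?_, ?_⟩, ?_⟩
  · rw [h0]; exact h.2.1.1
  · intro i hi
    by_cases h1 : i = l
    · subst h1
      rw [he, hne (i + 1) (by omega)]
      linarith [ht.2]
    · rw [hne i h1]
      by_cases h2 : i + 1 = l
      · rw [h2, he]
        have := h.2.1.2 i hi
        rw [h2] at this
        linarith only [ht.1, this]
      · rw [hne (i + 1) h2]
        exact h.2.1.2 i hi
  · rw [hne n (by omega)]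
    exact h.2.2

/-- the quadratic part of the modified path -/
lemma up_sum {n : ℕ} {m r : ℕ → ℝ} {l : ℕ} (hl : l < n) (c : ℝ) :
    ∑ i ∈ Finset.range (n + 1), (m (i + 1) - m i) * Function.update r l c i ^ 2 =
      ∑ i ∈ Finset.range (n + 1), (m (i + 1) - m i) * r i ^ 2 +
        (m (l + 1) - m l) * (c ^ 2 - r l ^ 2) := by
  have hmem : l ∈ Finset.range (n + 1) := by rw [Finset.mem_range]; omega
  rw [← Finset.add_sum_erase _ _ hmem, ← Finset.add_sum_erase (Finset.range (n + 1))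
    (fun i => (m (i + 1) - m i) * r i ^ 2) hmem]
  have h1 : ∑ i ∈ (Finset.range (n + 1)).erase l,
      (m (i + 1) - m i) * Function.update r l c i ^ 2 =
      ∑ i ∈ (Finset.range (n + 1)).erase l, (m (i + 1) - m i) * r i ^ 2 := by
    refine Finset.sum_congr rfl fun i hi => ?_
    rw [Function.update_of_ne (Finset.ne_of_mem_erase hi)]
  rw [h1, Function.update_self]
  ring

/-- the cascade of the modified path -/
lemma up_spin {b : ℝ} {n : ℕ} {m r : ℕ → ℝ} {l : ℕ} (hm : Exponents n m) (h : BPath b n r)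
    (hl1 : 1 ≤ l) (hl : l < n) {t : ℝ} (ht : t ∈ Icc 0 (r (l + 1) - r l)) :
    spinPart n m (Function.update r l (r l + t)) =
      cascade m r l (gstep (m l) t (Gb n m r l t)) 0 - r n / 2 := by
  have hP := up_path h hl1 hl ht
  have hne : ∀ i, i ≠ l → Function.update r l (r l + t) i = r i := fun i hi =>
    Function.update_of_ne hi _ _
  have he : Function.update r l (r l + t) l = r l + t := Function.update_self _ _ _
  have hpos : ∀ i, 1 ≤ i → i ≤ n + 1 → 0 < m i := fun i h1 h2 => gapn_exp_pos hm h1 h2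
  rw [minb_spin hP.1, fl_split (m := m) (r := Function.update r l (r l + t)) hl.le,
    hne n (by omega), fl_succ hl, he, hne (l + 1) (by omega)]
  have e4 : Fl n m (Function.update r l (r l + t)) (l + 1) = Fl n m r (l + 1) := by
    unfold Fl
    congr 1
    funext i
    exact hne _ (by omega)
  rw [e4]
  have e5 : gstep (m (l + 1)) (r (l + 1) - (r l + t)) (Fl n m r (l + 1)) = Gb n m r l t := by
    unfold Gb
    congr 1
    ring
  rw [e5]
  obtain ⟨k, rfl⟩ : ∃ k, l = k + 1 := ⟨l - 1, by omega⟩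
  obtain ⟨C, hG⟩ := fl_good hm h.2.1 (l := k + 1 + 1) (by omega)
  have hGt : Adm _ (Gb n m r (k + 1) t) := hG.adm.step (hpos (k + 1 + 1) (by omega) (by omega))
    (gapn_exp_le_one hm (by omega)) (show 0 ≤ r (k + 1 + 1) - r (k + 1) - t by linarith [ht.2])
  rw [cascade_succ_def, cascade_succ_def, he, hne k (by omega)]
  have e6 : cascade m (Function.update r (k + 1) (r (k + 1) + t)) k =
      cascade m r k := by
    funext G
    exact minb_congr (fun _ _ _ => rfl) (fun i hi => hne i (by omega)) G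
  rw [e6, gstep_add hGt (hpos (k + 1) (by omega) (by omega))
    (sub_nonneg.2 (h.2.1.2 k (by omega))) ht.1]
  congr 3
  ring

/-- the functions of the block -/
lemma up_Gb {n : ℕ} {m r : ℕ → ℝ} {l : ℕ} (hm : Exponents n m) (hr : Path n r) (hl : l < n)
    {s t : ℝ} (hst : s ≤ t) (ht : t ≤ r (l + 1) - r l) :
    gstep (m (l + 1)) (t - s) (Gb n m r l t) = Gb n m r l s := by
  obtain ⟨C, hG⟩ := fl_good hm hr (l := l + 1) (by omega)
  unfold Gb
  rw [gstep_add hG.adm (gapn_exp_pos hm (by omega) (by omega)) (by linarith) (by linarith)]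
  congr 1
  ring

lemma up_Gb_zero (n : ℕ) (m r : ℕ → ℝ) {l : ℕ} (hl : l < n) : Gb n m r l 0 = Fl n m r l := by
  unfold Gb
  rw [sub_zero, fl_succ hl]

/-- the averages along the block are continuous and bounded -/
lemma up_bc {C g V t : ℝ} {F : ℝ → ℝ} (h : Adm C F) (hg : 0 < g) (hg1 : g ≤ 1) (htV : t ≤ V)
    (g' : ℝ) : BcOn t (fun τ => tlt g' τ (gstep g (V - τ) F)
      (fun x => iteratedDeriv 1 (gstep g (V - τ) F) x ^ 2)) := by
  have b1 := first_f_bc h hg V 0
  obtain ⟨hc, B, hB⟩ := b1.mul b1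
  refine ⟨?_, 1, ?_⟩
  · have h1 := (first_fam h hg V).tlt_cont hc.continuousOn (fun s _ x => hB s x) g' 0 1
    simp only [zero_add, mul_one, first_f_zero] at h1
    refine (h1.mono (prod_mono (Icc_subset_Icc le_rfl htV) subset_rfl)).congr fun p hp => ?_
    simp only []
    congr 1
    funext y
    rw [sq]
    rfl
  · intro τ hτ x
    obtain ⟨h2, h3⟩ := ex_tlt_mem (g' := g') h hg hg1 (V - τ) τ x
    rw [abs_le]
    constructor <;> linarith

theorem var_up {b : ℝ} (hb : 1 < b) : ∃ C : ℝ, 1 ≤ C ∧ ∀ (n : ℕ) (r : ℕ → ℝ) (l : ℕ),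
    IsMin b n (gm n) r → 1 ≤ l → l < n → ∀ t ∈ Icc 0 (r (l + 1) - r l),
      ∫ s in (0 : ℝ)..t, (Rb n (gm n) r l s - (r l + s) / b ^ 2) ≤ C / (n + 1) * t ^ 2 := by
  have hb0 : 0 < b := by linarith
  obtain ⟨K, hK0, hK⟩ := tlt_exp_lip (b ^ 2)
  refine ⟨1 + 2 * K, by linarith, ?_⟩
  intro n r l h hl1 hl t ht
  have hm := gm_exponents n
  have hpath := h.1.2.1
  have hg : 0 < gm n (l + 1) := gapn_exp_pos hm (by omega) (by omega)
  have hg1 : gm n (l + 1) ≤ 1 := gapn_exp_le_one hm (by omega)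
  have hg' : 0 < gm n l := gapn_exp_pos hm hl1 (by omega)
  have hg'1 : gm n l ≤ 1 := gapn_exp_le_one hm (by omega)
  have hδ := gm_sub n l
  have ht0 : 0 ≤ t := ht.1
  have hrb := long_r_le h.1 (show l + 1 ≤ n by omega)
  have hr0 := long_r_nonneg h.1 hl.le
  have htb : t ≤ b ^ 2 := by linarith [ht.2]
  obtain ⟨C, hC⟩ := fl_good hm hpath (l := l + 1) (by omega)
  have hF := hC.adm
  have hmin := h.2 _ (up_path h.1 hl1 hl ht)
  unfold SKr at hmin
  rw [up_spin hm h.1 hl1 hl ht, minb_spin h.1.1, up_sum hl, fl_split (m := gm n) (r := r) hl.le]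
    at hmin
  have eF1 : Fl n (gm n) r l = gstep (gm n (l + 1)) t (Gb n (gm n) r l t) := by
    have := up_Gb hm hpath hl ht0 ht.2
    rw [sub_zero] at this
    rw [this, up_Gb_zero n _ r hl]
  have hVt : 0 ≤ r (l + 1) - r l - t := by linarith only [ht.2]
  have hGt := hF.step hg hg1 hVt
  have eGt : gstep (gm n (l + 1)) (r (l + 1) - r l - t) (Fl n (gm n) r (l + 1)) =
    Gb n (gm n) r l t := rfl
  rw [eGt] at hGt
  set g := gm n (l + 1) with hgd
  set g' := gm n l with hg'd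
  set d : ℝ := 1 / ((n : ℝ) + 1) with hd
  have hd0 : 0 < d := by rw [hd]; (clear * -; positivity)
  have hgg : g' ≤ g := by linarith only [hd0, hδ]
  set G1 := gstep g' t (Gb n (gm n) r l t) with hG1
  set F1 := Fl n (gm n) r l with hF1
  have aG1 := hGt.step hg' hg'1 ht0
  rw [← hG1] at aG1
  have aF1 := hGt.step hg hg1 ht0
  rw [← eF1] at aF1
  have hE1 : Sp7Exp (gm n) l := fun i hi => ⟨long_gm_pos n i, long_gm_le (by omega)⟩
  have hη : ∀ x, |F1 x - G1 x| ≤ 1 / 2 * d * t := by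
    intro x
    have h1 := gstep_exp_mono hGt hg' hgg hg1 ht0 x
    have h2 := gstep_exp_lip hGt hg' hgg hg1 ht0 x
    rw [← eF1, ← hG1] at h1 h2
    rw [abs_le]
    rw [hδ] at h2
    constructor <;> nlinarith
  have hη' : ∀ x, |G1 x - F1 x| ≤ 1 / 2 * d * t := fun x => by rw [abs_sub_comm]; exact hη x
  -- convexity
  have hconv := casc_convex (m := gm n) (r := r) (l := l) aF1 aG1 h.1.1 hE1
    (fun i hi => hpath.2 i (by omega)) ⟨_, hη'⟩
  -- the averages
  set f' : ℝ → ℝ → ℝ := fun τ => tlt g' τ (Gb n (gm n) r l τ)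
    (fun x => iteratedDeriv 1 (Gb n (gm n) r l τ) x ^ 2) with hf'
  set f : ℝ → ℝ → ℝ := fun τ => tlt g τ (Gb n (gm n) r l τ)
    (fun x => iteratedDeriv 1 (Gb n (gm n) r l τ) x ^ 2) with hf
  have bf' : BcOn t f' := up_bc hF hg hg1 ht.2 g'
  have bf : BcOn t f := up_bc hF hg hg1 ht.2 g
  have hdiff : ∀ x, G1 x - F1 x = -(1 / 2 * d) * ∫ τ in (0 : ℝ)..t, f' τ x := by
    intro x
    have h1 := gstep_diff hGt hg hg1 hg' hg'1 ht0 x
    rw [← eF1, ← hG1] at h1
    rw [h1]
    have h2 : ∫ τ in (0 : ℝ)..t, tlt g' τ (gstep g (t - τ) (Gb n (gm n) r l t))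
        (fun y => iteratedDeriv 1 (gstep g (t - τ) (Gb n (gm n) r l t)) y ^ 2) x =
        ∫ τ in (0 : ℝ)..t, f' τ x := by
      refine intervalIntegral.integral_congr fun τ hτ => ?_
      rw [uIcc_of_le ht0] at hτ
      simp only [hf']
      rw [up_Gb hm hpath hl hτ.2 ht.2]
    rw [h2, ← hδ]
    ring
  -- change of the tilt
  have htilt : ∀ τ ∈ Icc 0 t, ∀ x, f τ x - 2 * K * d * τ ≤ f' τ x := by
    intro τ hτ x
    have aG := hF.step hg hg1 (show 0 ≤ r (l + 1) - r l - τ by linarith only [ht.2, hτ.2])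
    have hE := adm_ec aG
    have h1 : Sp7Cb (fun x => iteratedDeriv 1 (Gb n (gm n) r l τ) x ^ 2) :=
      sp7_cb_sq (sp7_cb_M hE)
    have h2 := hK (g := g) (g' := g') (s := τ) (L := 2) hE hg.le hg1 hg'.le hg'1 hτ.1
      (hτ.2.trans htb) (by norm_num) h1 (fun x y => by
        have a1 := hE.abs_M x
        have a2 := hE.abs_M y
        have a3 := convex_univ.norm_image_sub_le_of_norm_hasDerivWithin_le
          (f := iteratedDeriv 1 (Gb n (gm n) r l τ)) (s := Set.univ) (C := 1)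
          (fun x _ => (hE.d2 x).hasDerivWithinAt) (fun x _ => hE.sm.bD x) (mem_univ y) (mem_univ x)
        rw [Real.norm_eq_abs, Real.norm_eq_abs, one_mul] at a3
        have e : iteratedDeriv 1 (Gb n (gm n) r l τ) x ^ 2 -
            iteratedDeriv 1 (Gb n (gm n) r l τ) y ^ 2 =
            (iteratedDeriv 1 (Gb n (gm n) r l τ) x + iteratedDeriv 1 (Gb n (gm n) r l τ) y) *
            (iteratedDeriv 1 (Gb n (gm n) r l τ) x - iteratedDeriv 1 (Gb n (gm n) r l τ) y) := by
          ring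
        rw [e, abs_mul]
        refine mul_le_mul ?_ a3 (abs_nonneg _) (by norm_num)
        exact (abs_add_le _ _).trans (by
          have e1 : Gb n (gm n) r l τ = gstep g (r (l + 1) - r l - τ) (Fl n (gm n) r (l + 1)) := rfl
          rw [e1]
          linarith only [a2, a1])) x
    have h3 := (abs_le.1 h2).1
    have h4 : |g' - g| = d := by
      rw [abs_sub_comm, abs_of_nonneg (by linarith only [hd0, hδ])]
      exact hδ
    rw [h4] at h3
    have h5 : f' τ x - f τ x = tlt g' τ (gstep g (r (l + 1) - r l - τ) (Fl n (gm n) r (l + 1)))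
      (fun x => iteratedDeriv 1 (Gb n (gm n) r l τ) x ^ 2) x -
      tlt g τ (gstep g (r (l + 1) - r l - τ) (Fl n (gm n) r (l + 1)))
      (fun x => iteratedDeriv 1 (Gb n (gm n) r l τ) x ^ 2) x := rfl
    rw [← h5] at h3
    linarith only [h3]
  -- integrated
  have cI := var0_cb_int ht0 bf
  have cI' := var0_cb_int ht0 bf'
  have hΦ : ∀ x, (∫ τ in (0 : ℝ)..t, f τ x) + -(K * d * t ^ 2) ≤ ∫ τ in (0 : ℝ)..t, f' τ x := by
    intro x
    have i1 : IntervalIntegrable (fun τ => f τ x) volume 0 t :=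
      (bf.time x).intervalIntegrable_of_Icc ht0
    have i2 : IntervalIntegrable (fun τ => f' τ x) volume 0 t :=
      (bf'.time x).intervalIntegrable_of_Icc ht0
    have i3 : IntervalIntegrable (fun τ : ℝ => 2 * K * d * τ) volume 0 t :=
      (by fun_prop : Continuous fun τ : ℝ => 2 * K * d * τ).intervalIntegrable _ _
    have h1 := intervalIntegral.integral_mono_on ht0 (i1.sub i3) i2 (fun τ hτ => htilt τ hτ x)
    rw [intervalIntegral.integral_sub i1 i3, intervalIntegral.integral_const_mul, integral_id] at h1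
    have e : 2 * K * d * ((t ^ 2 - 0 ^ 2) / 2) = K * d * t ^ 2 := by ring
    rw [e] at h1
    linarith only [h1]
  have hΦ0 : ∀ x, 0 ≤ ∫ τ in (0 : ℝ)..t, f τ x := fun x =>
    intervalIntegral.integral_nonneg ht0 fun τ _ => (ex_tlt_mem hF hg hg1 _ τ x).1
  have hΦ1 : ∀ x, ∫ τ in (0 : ℝ)..t, f τ x ≤ t := by
    intro x
    have i0 : IntervalIntegrable (fun _ : ℝ => (1 : ℝ)) volume 0 t := intervalIntegrable_const
    have h1 := intervalIntegral.integral_mono_on ht0
      ((bf.time x).intervalIntegrable_of_Icc ht0) i0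
      (fun τ _ => (ex_tlt_mem hF hg hg1 _ τ x).2)
    rw [intervalIntegral.integral_const, smul_eq_mul, mul_one, sub_zero] at h1
    exact h1
  have hcI := var0_chn_integral (r := r) ht0 l hE1 bf (adm_ec aF1)
  have hEG := adm_ec aG1
  have hEF := adm_ec aF1
  -- the lower bound of the average
  have h1 : chn (gm n) r l G1 (fun x => G1 x - F1 x) =
      -(1 / 2 * d) * chn (gm n) r l G1 (fun x => ∫ τ in (0 : ℝ)..t, f' τ x) := by
    rw [← long_chn_smul]
    congr 1
    exact funext hdiff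
  have h2 : chn (gm n) r l G1 (fun x => ∫ τ in (0 : ℝ)..t, f τ x) + -(K * d * t ^ 2) ≤
      chn (gm n) r l G1 (fun x => ∫ τ in (0 : ℝ)..t, f' τ x) := by
    have := sp7_chn_mono (gm n) r l hE1 hEG (sp7_cb_add cI (sp7_cb_const (-(K * d * t ^ 2)))) cI' hΦ
    rwa [sp7_chn_add (gm n) r l hE1 hEG cI (sp7_cb_const _), sp7_chn_const (gm n) r l hE1 hEG]
      at this
  have h3 : chn (gm n) r l F1 (fun x => ∫ τ in (0 : ℝ)..t, f τ x) - 2 * (1 / 2 * d * t) * t ≤
      chn (gm n) r l G1 (fun x => ∫ τ in (0 : ℝ)..t, f τ x) :=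
    chn_change_sub hm.1 hE1 (fun i hi => (hm.2.2 i (by omega)).le) hg'.le hg'1 hEF hEG cI hΦ0 hΦ1 hη
  have h4 : chn (gm n) r l F1 (fun x => ∫ τ in (0 : ℝ)..t, f τ x) =
      ∫ τ in (0 : ℝ)..t, Rb n (gm n) r l τ := hcI.2
  have hRi : IntervalIntegrable (Rb n (gm n) r l) volume 0 t :=
    hcI.1.intervalIntegrable_of_Icc ht0
  have i4 : IntervalIntegrable (fun s : ℝ => (r l + s) / b ^ 2) volume 0 t :=
    (by fun_prop : Continuous fun s : ℝ => (r l + s) / b ^ 2).intervalIntegrable _ _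
  rw [intervalIntegral.integral_sub hRi i4]
  have h5 : ∫ s in (0 : ℝ)..t, (r l + s) / b ^ 2 = ((r l + t) ^ 2 - r l ^ 2) / (2 * b ^ 2) := by
    have j1 : IntervalIntegrable (fun _ : ℝ => r l) volume 0 t := intervalIntegrable_const
    have j2 : IntervalIntegrable (fun s : ℝ => s) volume 0 t := intervalIntegral.intervalIntegrable_id
    have j3 := intervalIntegral.integral_add j1 j2
    rw [intervalIntegral.integral_const, integral_id, smul_eq_mul] at j3
    rw [intervalIntegral.integral_div, j3]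
    field_simp
    ring
  rw [h5]
  -- minimality
  rw [hδ, add_div] at hmin
  have h6 : (1 / 2 * d) * chn (gm n) r l G1 (fun x => ∫ τ in (0 : ℝ)..t, f' τ x) ≤
      d * ((r l + t) ^ 2 - r l ^ 2) / (4 * b ^ 2) := by
    rw [h1] at hconv
    linarith only [hconv, hmin]
  have h7 : d * ((r l + t) ^ 2 - r l ^ 2) / (4 * b ^ 2) =
      (1 / 2 * d) * (((r l + t) ^ 2 - r l ^ 2) / (2 * b ^ 2)) := by
    field_simp
    ring
  rw [h7] at h6
  have h8 := le_of_mul_le_mul_left h6 (by (clear * -; positivity))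
  have e9 : (1 + 2 * K) / ((n : ℝ) + 1) * t ^ 2 = d * t ^ 2 + 2 * K * d * t ^ 2 := by
    rw [hd]
    ring
  rw [e9]
  have h10 : 0 ≤ K * d * t ^ 2 := by (clear * - hK0; positivity)
  rw [← h4]
  have e11 : 2 * (1 / 2 * d * t) * t = d * t ^ 2 := by ring
  linarith only [h10, h8, h3, h2]

end Vale.Agent.P367.Cl
end

section

/-!
# P367, classical half: composition of tilted averages, integrals of nested averages
-/

open MeasureTheory ProbabilityTheory Filter Topology Set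

namespace Vale.Agent.P367.Cl

open Vale.Agent.P157.Par
open Vale.Agent.P146.Gap
open Vale.Agent.P146.Pw2

section COMP

variable {C g v s : ℝ} {F ψ : ℝ → ℝ}

lemma fvar1_exp_gstep (hF : Adm C F) (hg : 0 < g) (s y : ℝ) :
    Real.exp (g * gstep g s F y) = ∫ w, Real.exp (g * F (y + √s * w)) ∂(gaussianReal 0 1) := by
  have h := (ex_ec hF).sm.int_exp_pos g s y
  unfold gstep
  rw [← mul_assoc, mul_one_div_cancel hg.ne', one_mul, Real.exp_log h]

/-- the numerator of the tilted average -/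
lemma fvar1_num (hF : Adm C F) (hg : 0 < g) (s y : ℝ) (ψ : ℝ → ℝ) :
    tlt g s F ψ y * Real.exp (g * gstep g s F y) =
      ∫ w, ψ (y + √s * w) * Real.exp (g * F (y + √s * w)) ∂(gaussianReal 0 1) := by
  have h := (ex_ec hF).sm.int_exp_pos g s y
  rw [fvar1_exp_gstep hF hg]
  unfold tlt
  rw [div_mul_cancel₀ _ h.ne']

/-- Composition of tilted averages. -/
theorem tlt_comp (hF : Adm C F) (hg : 0 < g) (hv : 0 ≤ v) (hs : 0 ≤ s) (hψ : Sp7Cb ψ) (x : ℝ) :
    tlt g v (gstep g s F) (tlt g s F ψ) x = tlt g (v + s) F ψ x := by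
  obtain ⟨hc, K, hK⟩ := hψ
  have hS := (ex_ec hF).sm
  have hFc := hS.cont
  have h1 : ∫ z, tlt g s F ψ (x + √v * z) * Real.exp (g * gstep g s F (x + √v * z))
      ∂(gaussianReal 0 1) = ∫ z, ψ (x + √(v + s) * z) * Real.exp (g * F (x + √(v + s) * z))
      ∂(gaussianReal 0 1) := by
    simp only [fvar1_num hF hg]
    have := comp_conv (h := fun u => ψ (x + u) * Real.exp (g * F (x + u)))
      (by fun_prop : Continuous fun u => ψ (x + u) * Real.exp (g * F (x + u))).measurable hv hs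
      (hS.integrable hc hK g (v + s) x)
    simpa only [add_assoc] using this
  have h2 : ∫ z, Real.exp (g * gstep g s F (x + √v * z)) ∂(gaussianReal 0 1) =
      ∫ z, Real.exp (g * F (x + √(v + s) * z)) ∂(gaussianReal 0 1) := by
    simp only [fvar1_exp_gstep hF hg]
    have := comp_conv (h := fun u => Real.exp (g * F (x + u)))
      (by fun_prop : Continuous fun u => Real.exp (g * F (x + u))).measurable hv hs
      (hS.integrable_exp g (v + s) x)
    simpa only [add_assoc] using this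
  have e1 : tlt g v (gstep g s F) (tlt g s F ψ) x =
      (∫ z, tlt g s F ψ (x + √v * z) * Real.exp (g * gstep g s F (x + √v * z))
      ∂(gaussianReal 0 1)) / ∫ z, Real.exp (g * gstep g s F (x + √v * z))
      ∂(gaussianReal 0 1) := rfl
  rw [e1, h1, h2]
  rfl

end COMP

section INT

lemma fvar1_swap {T : ℝ} (hT : 0 ≤ T) {f : ℝ → ℝ → ℝ}
    (hc : ContinuousOn (fun p : ℝ × ℝ => f p.1 p.2) (Icc 0 T ×ˢ univ)) {B : ℝ}
    (hB : ∀ t ∈ Icc 0 T, ∀ x, |f t x| ≤ B) {w : ℝ → ℝ} (hw : Continuous w)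
    (hwi : Integrable w (gaussianReal 0 1)) :
    ∫ z, (∫ t in (0 : ℝ)..T, f t z) * w z ∂(gaussianReal 0 1) =
      ∫ t in (0 : ℝ)..T, ∫ z, f t z * w z ∂(gaussianReal 0 1) := by
  set c : ℝ → ℝ := fun t => max 0 (min t T) with hcd
  have hc0 : Continuous c := by fun_prop
  have hcm : ∀ t, c t ∈ Icc 0 T := fun t => ⟨le_max_left _ _, max_le hT (min_le_right _ _)⟩
  have hce : ∀ t ∈ Icc 0 T, c t = t := fun t ht => by
    simp only [hcd]
    rw [min_eq_left ht.2, max_eq_right ht.1]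
  have hcf : Continuous (fun p : ℝ × ℝ => f (c p.1) p.2) :=
    hc.comp_continuous (f := fun p : ℝ × ℝ => ((c p.1, p.2) : ℝ × ℝ)) (by fun_prop)
      (fun p => ⟨hcm p.1, mem_univ _⟩)
  have e1 : ∀ z, (∫ t in (0 : ℝ)..T, f t z) * w z = ∫ t in (0 : ℝ)..T, f (c t) z * w z := by
    intro z
    rw [intervalIntegral.integral_mul_const]
    congr 1
    refine intervalIntegral.integral_congr fun t ht => ?_
    rw [uIcc_of_le hT] at ht
    simp only [hce t ht]
  have e2 : ∫ t in (0 : ℝ)..T, ∫ z, f t z * w z ∂(gaussianReal 0 1) =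
      ∫ t in (0 : ℝ)..T, ∫ z, f (c t) z * w z ∂(gaussianReal 0 1) := by
    refine intervalIntegral.integral_congr fun t ht => ?_
    rw [uIcc_of_le hT] at ht
    simp only [hce t ht]
  simp only [e1]
  rw [e2]
  simp only [intervalIntegral.integral_of_le hT]
  refine integral_integral_swap ?_
  have hb : Integrable (fun p : ℝ × ℝ => B * |w p.1|)
      ((gaussianReal 0 1).prod (volume.restrict (Ioc 0 T))) :=
    (hwi.abs.const_mul B).comp_fst _
  refine hb.mono' ?_ (Eventually.of_forall fun p => ?_)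
  · have : Continuous (Function.uncurry fun z t => f (c t) z * w z) := by
      have h3 : Continuous (fun p : ℝ × ℝ => f (c p.2) p.1) := hcf.comp continuous_swap
      exact h3.mul (hw.comp continuous_fst)
    exact this.aestronglyMeasurable
  · simp only [Function.uncurry]
    rw [Real.norm_eq_abs, abs_mul]
    exact mul_le_mul_of_nonneg_right (hB _ (hcm _) _) (abs_nonneg _)

lemma fvar1_tlt_cont {F M D : ℝ → ℝ} (h : Ec F M D) {T : ℝ} {φ : ℝ → ℝ → ℝ}
    (hc : ContinuousOn (fun p : ℝ × ℝ => φ p.1 p.2) (Icc 0 T ×ˢ univ)) {B : ℝ}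
    (hB : ∀ t ∈ Icc 0 T, ∀ x, |φ t x| ≤ B) (g v : ℝ) :
    ContinuousOn (fun p : ℝ × ℝ => tlt g v F (φ p.1) p.2) (Icc 0 T ×ˢ univ) := by
  have h1 := (sp5_fam_const h 0 T).tlt_cont hc hB g v 0
  simpa only [mul_zero, add_zero] using h1

lemma fvar1_slice {T : ℝ} {φ : ℝ → ℝ → ℝ}
    (hc : ContinuousOn (fun p : ℝ × ℝ => φ p.1 p.2) (Icc 0 T ×ˢ univ)) {t : ℝ}
    (ht : t ∈ Icc 0 T) : Continuous (φ t) :=
  hc.comp_continuous (f := fun x : ℝ => ((t, x) : ℝ × ℝ)) (by fun_prop)
    (fun _ => ⟨ht, mem_univ _⟩)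

lemma fvar1_tlt_int {F M D : ℝ → ℝ} (h : Ec F M D) {T : ℝ} (hT : 0 ≤ T) {φ : ℝ → ℝ → ℝ}
    (hc : ContinuousOn (fun p : ℝ × ℝ => φ p.1 p.2) (Icc 0 T ×ˢ univ)) {B : ℝ}
    (hB : ∀ t ∈ Icc 0 T, ∀ x, |φ t x| ≤ B) (g v y : ℝ) :
    tlt g v F (fun x => ∫ t in (0 : ℝ)..T, φ t x) y = ∫ t in (0 : ℝ)..T, tlt g v F (φ t) y := by
  have hF := h.sm.cont
  have h1 := fvar1_swap hT (f := fun t z => φ t (y + √v * z))
    (hc.comp (f := fun p : ℝ × ℝ => ((p.1, y + √v * p.2) : ℝ × ℝ)) (by fun_prop)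
      (fun p hp => ⟨hp.1, mem_univ _⟩)) (fun t ht z => hB t ht _)
    (w := fun z => Real.exp (g * F (y + √v * z))) (by fun_prop) (h.sm.integrable_exp g v y)
  unfold tlt
  rw [intervalIntegral.integral_div, h1]

/-- Integrals of nested averages. -/
theorem chn_integral {m r : ℕ → ℝ} {l : ℕ} (hm : Sp7Exp m l) {F M D : ℝ → ℝ} (h : Ec F M D)
    {T : ℝ} (hT : 0 ≤ T) {φ : ℝ → ℝ → ℝ}
    (hc : ContinuousOn (fun p : ℝ × ℝ => φ p.1 p.2) (Icc 0 T ×ˢ univ)) {B : ℝ}
    (hB : ∀ t ∈ Icc 0 T, ∀ x, |φ t x| ≤ B) :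
    ContinuousOn (fun t => chn m r l F (φ t)) (Icc 0 T) ∧
      chn m r l F (fun x => ∫ t in (0 : ℝ)..T, φ t x) = ∫ t in (0 : ℝ)..T, chn m r l F (φ t) := by
  induction l generalizing F M D φ with
  | zero =>
    simp only [chn_zero_def]
    constructor
    · refine continuousOn_of_dominated (bound := fun _ => B) (fun t ht => ?_) (fun t ht => ?_)
        (integrable_const _) ?_
      · have := fvar1_slice hc ht
        exact (by fun_prop : Continuous fun z : ℝ => φ t (√(r 0) * z)).aestronglyMeasurable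
      · exact Eventually.of_forall fun z => by rw [Real.norm_eq_abs]; exact hB t ht _
      · refine Eventually.of_forall fun z => ?_
        exact hc.comp (f := fun t : ℝ => ((t, √(r 0) * z) : ℝ × ℝ)) (by fun_prop)
          (fun t ht => ⟨ht, mem_univ _⟩)
    · have h1 := fvar1_swap hT (f := fun t z => φ t (√(r 0) * z))
        (hc.comp (f := fun p : ℝ × ℝ => ((p.1, √(r 0) * p.2) : ℝ × ℝ)) (by fun_prop)
          (fun p hp => ⟨hp.1, mem_univ _⟩)) (fun t ht z => hB t ht _)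
        (w := fun _ => 1) continuous_const (integrable_const _)
      simpa only [mul_one] using h1
  | succ l ih =>
    obtain ⟨hm0, hm1⟩ := hm l (Nat.lt_succ_self l)
    have h1 := ih (sp7_exp_down hm) (h.step hm0 hm1 (r (l + 1) - r l))
      (φ := fun t => tlt (m (l + 1)) (r (l + 1) - r l) F (φ t))
      (fvar1_tlt_cont h hc hB _ _)
      (fun t ht x => h.sm.abs_tlt_le (fvar1_slice hc ht) (hB t ht) _ _ x)
    simp only [chn_succ_def]
    refine ⟨h1.1, ?_⟩
    rw [← h1.2]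
    congr 1
    funext y
    exact fvar1_tlt_int h hT hc hB _ _ y

end INT

end Vale.Agent.P367.Cl
end

section

/-!
# P146, lower bound of the exponential moments, Parisi side (L1): definitions

The minimiser over the paths which vanish below the level `d`.
-/

open MeasureTheory ProbabilityTheory Filter Topology Set

namespace Vale.Agent.P146.Lb

open Vale.Agent.P157.Par
open Vale.Agent.P146.Gap
open Vale.Agent.P146.Pw2
open Vale.Agent.P367.Cl

/-- `r` is a minimiser over the paths which vanish below the level `d`. -/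
def IsMinD (b : ℝ) (n d : ℕ) (r : ℕ → ℝ) : Prop :=
  BPath b n r ∧ (∀ l < d, r l = 0) ∧
    ∀ r', BPath b n r' → (∀ l < d, r' l = 0) → SKr b n (gm n) r ≤ SKr b n (gm n) r'

end Vale.Agent.P146.Lb
end

section

/-!
# P146, L1: change of the tilt exponent in the first block, quadratic in the time
-/

open MeasureTheory ProbabilityTheory Filter Topology Set

namespace Vale.Agent.P146.Lb

open Vale.Agent.P157.Par
open Vale.Agent.P146.Gap
open Vale.Agent.P146.Pw2

lemma tilt_quad {G M D : ℝ → ℝ} (h : Ec G M D) (y : ℝ) : G y + -(G 0) ≤ |y| ^ 2 := by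
  have h0 : ∀ y : ℝ, 0 ≤ y → G y - G 0 ≤ y ^ 2 := fun y hy => by
    have h1 : ∀ x ∈ Icc 0 y, |M x| ≤ y := fun x hx => by
      have := first_M_le h x
      have h2 : |M x| ≤ |x| := sq_le_sq.1 this
      rw [abs_of_nonneg hx.1] at h2
      exact h2.trans hx.2
    have h3 := (convex_Icc (0 : ℝ) y).norm_image_sub_le_of_norm_hasDerivWithin_le (f := G)
      (f' := M) (C := y) (fun x _ => (h.d1 x).hasDerivWithinAt) h1
      (left_mem_Icc.2 hy) (right_mem_Icc.2 hy)
    rw [sub_zero, Real.norm_eq_abs, Real.norm_eq_abs, abs_of_nonneg hy] at h3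
    calc G y - G 0 ≤ |G y - G 0| := le_abs_self _
      _ ≤ y * y := h3
      _ = y ^ 2 := by ring
  rcases le_total 0 y with hy | hy
  · rw [abs_of_nonneg hy]
    linarith [h0 y hy]
  · rw [abs_of_nonpos hy, ← h.even y]
    linarith [h0 (-y) (by linarith)]

lemma tilt_four_int (c : ℝ) : Integrable (fun z : ℝ => |z| ^ 4 * Real.exp (c * |z|))
    (gaussianReal 0 1) := by
  refine ((heat_int_exp (1 + c)).const_mul 24).mono' (by exact Continuous.aestronglyMeasurable (by fun_prop)) (ae_of_all _ fun z => ?_)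
  rw [Real.norm_eq_abs, abs_of_nonneg (by positivity)]
  have h1 := Real.pow_div_factorial_le_exp (x := |z|) (abs_nonneg z) 4
  have h2 : ((Nat.factorial 4 : ℕ) : ℝ) = 24 := by norm_num [Nat.factorial]
  rw [h2, div_le_iff₀ (by norm_num)] at h1
  rw [add_mul, one_mul, Real.exp_add]
  calc |z| ^ 4 * Real.exp (c * |z|) ≤ (Real.exp |z| * 24) * Real.exp (c * |z|) :=
        mul_le_mul_of_nonneg_right h1 (Real.exp_pos _).le
    _ = _ := by ring

/-- Change of the tilt exponent, for any two tilts. -/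
theorem Rf_tilt4 (S : ℝ) : ∃ K : ℝ, 0 ≤ K ∧ ∀ (C g g₁ g₂ s₁ : ℝ) (F : ℝ → ℝ), Adm C F → 0 < g →
    g ≤ 1 → 0 < g₁ → g₁ ≤ g₂ → g₂ ≤ 1 → s₁ ≤ S → ∀ τ ∈ Icc 0 s₁,
      Rf g₂ g s₁ F τ ≤ Rf g₁ g s₁ F τ + K * (g₂ - g₁) * τ ^ 2 := by
  refine ⟨∫ z, |z| ^ 4 * Real.exp (√S * |z|) ∂(gaussianReal 0 1), ?_, ?_⟩
  · exact integral_nonneg fun z => by positivity
  intro C g₀ g g' s₁ F h hg₀ hg₀1 hg hgg hg'1 hS τ hτ
  have hg1 : g ≤ 1 := hgg.trans hg'1
  set I := ∫ z, |z| ^ 4 * Real.exp (√S * |z|) ∂(gaussianReal 0 1) with hI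
  have hE := first_ec h hg₀ hg₀1 hτ
  set G := gstep g₀ (s₁ - τ) F with hG
  set M := first_f g₀ s₁ F 1 τ with hM
  set D := first_f g₀ s₁ F 2 τ with hD
  set w : ℝ → ℝ := fun y => G y + -(G 0) with hw
  have hw0 : ∀ y, 0 ≤ w y := fun y => by
    have := first_min hE y
    simp only [hw]; linarith
  have hw1 : ∀ y, w y ≤ |y| := fun y => by
    have := hE.sm.lip y 0
    rw [sub_zero, one_mul] at this
    exact (le_abs_self _).trans this
  have hw2 : ∀ y, w y ≤ |y| ^ 2 := fun y => tilt_quad hE y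
  have hwS : Sm 1 1 w M D :=
    ⟨fun x => by simpa [hw] using (hE.d1 x).add_const (-(G 0)), hE.d2, hE.cD, hE.sm.bM, hE.sm.bD⟩
  have hMc : Continuous fun x => M x * M x := hE.sm.cont1.mul hE.sm.cont1
  have hMb : ∀ x, |M x * M x| ≤ 1 := fun x => by
    rw [abs_mul]
    have := hE.abs_M x
    (by_contra nlg; linarith only [nlg, mul_nonneg (sub_nonneg.2 this) (sub_nonneg.2 (abs_nonneg (M x))), mul_nonneg (sub_nonneg.2 this) (sub_nonneg.2 this), mul_nonneg (le_of_lt (sub_pos.2 (not_le.1 nlg))) (sub_nonneg.2 hg1), mul_pos (sub_pos.2 (not_le.1 nlg)) (sub_pos.2 hg)])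
  have e : ∀ m : ℝ, tlt m τ G (fun x => M x * M x) 0 = tlt m τ w (fun x => M x * M x) 0 :=
    fun m => (sp5_tlt_add_const m τ (-(G 0)) G (fun x => M x * M x) 0).symm
  rw [first_Rf_eq, first_Rf_eq]
  simp only []
  rw [← hG, ← hM, e, e]
  unfold tlt
  set A' := ∫ z, M (0 + √τ * z) * M (0 + √τ * z) * Real.exp (g' * w (0 + √τ * z))
    ∂(gaussianReal 0 1) with hA'
  set Z' := ∫ z, Real.exp (g' * w (0 + √τ * z)) ∂(gaussianReal 0 1) with hZ'
  set A := ∫ z, M (0 + √τ * z) * M (0 + √τ * z) * Real.exp (g * w (0 + √τ * z))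
    ∂(gaussianReal 0 1) with hA
  set Z := ∫ z, Real.exp (g * w (0 + √τ * z)) ∂(gaussianReal 0 1) with hZ
  have hτ0 : 0 ≤ τ := hτ.1
  have hτS : τ ≤ S := hτ.2.trans hS
  have hZ1 : 1 ≤ Z := by
    have h1 : ∫ _z : ℝ, (1 : ℝ) ∂(gaussianReal 0 1) = 1 := by simp
    rw [← h1, hZ]
    refine integral_mono (integrable_const _) (hwS.integrable_exp g τ 0) fun z => ?_
    exact Real.one_le_exp (mul_nonneg hg.le (hw0 _))
  have hZZ : Z ≤ Z' := by
    refine integral_mono (hwS.integrable_exp g τ 0) (hwS.integrable_exp g' τ 0) fun z => ?_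
    exact Real.exp_le_exp.2 (mul_le_mul_of_nonneg_right hgg (hw0 _))
  have hA'0 : 0 ≤ A' := integral_nonneg fun z => mul_nonneg (mul_self_nonneg _) (Real.exp_pos _).le
  have hAA : A' ≤ A + I * (g' - g) * τ ^ 2 := by
    have h1 : A + I * (g' - g) * τ ^ 2 = ∫ z, (M (0 + √τ * z) * M (0 + √τ * z) *
        Real.exp (g * w (0 + √τ * z)) + ((g' - g) * τ ^ 2) *
          (|z| ^ 4 * Real.exp (√S * |z|))) ∂(gaussianReal 0 1) := by
      rw [integral_add (hwS.integrable hMc hMb g τ 0) ((tilt_four_int _).const_mul _),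
        integral_const_mul]
      ring
    rw [h1, hA']
    refine integral_mono (hwS.integrable hMc hMb g' τ 0)
      ((hwS.integrable hMc hMb g τ 0).add ((tilt_four_int _).const_mul _)) fun z => ?_
    simp only [zero_add]
    set y := √τ * z with hy
    have hη : 0 ≤ g' - g := by linarith
    have k1 : Real.exp (g' * w y) - Real.exp (g * w y) ≤ (g' - g) * |y| ^ 2 * Real.exp |y| := by
      have k2 : Real.exp (g * w y) = Real.exp (g' * w y) * Real.exp (-((g' - g) * w y)) := by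
        rw [← Real.exp_add]; congr 1; ring
      have k3 := Real.add_one_le_exp (-((g' - g) * w y))
      have k4 : Real.exp (g' * w y) ≤ Real.exp |y| := by
        apply Real.exp_le_exp.2
        have := hw0 y
        have := hw1 y
        nlinarith
      have k5 : 0 ≤ (g' - g) * w y := mul_nonneg hη (hw0 y)
      calc Real.exp (g' * w y) - Real.exp (g * w y)
          = Real.exp (g' * w y) * (1 - Real.exp (-((g' - g) * w y))) := by rw [k2]; ring
        _ ≤ Real.exp (g' * w y) * ((g' - g) * w y) :=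
            mul_le_mul_of_nonneg_left (by linarith) (Real.exp_pos _).le
        _ ≤ Real.exp |y| * ((g' - g) * |y| ^ 2) :=
            mul_le_mul k4 (mul_le_mul_of_nonneg_left (hw2 y) hη) k5 (Real.exp_pos _).le
        _ = _ := by ring
    have k6 : M y * M y ≤ y ^ 2 := by rw [← sq]; exact first_M_le hE y
    have k7 : |y| = √τ * |z| := by rw [hy, abs_mul, abs_of_nonneg (Real.sqrt_nonneg τ)]
    have k8 : √τ ≤ √S := Real.sqrt_le_sqrt hτS
    have k9 : (g' - g) * |y| ^ 4 * Real.exp |y| ≤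
        (g' - g) * τ ^ 2 * (|z| ^ 4 * Real.exp (√S * |z|)) := by
      have j1 : Real.exp |y| ≤ Real.exp (√S * |z|) := by
        rw [k7]
        exact Real.exp_le_exp.2 (mul_le_mul_of_nonneg_right k8 (abs_nonneg _))
      have j2 : |y| ^ 4 = τ ^ 2 * |z| ^ 4 := by
        rw [k7, mul_pow, show (4 : ℕ) = 2 * 2 by rfl, pow_mul, Real.sq_sqrt hτ0]
      calc (g' - g) * |y| ^ 4 * Real.exp |y|
          ≤ (g' - g) * (τ ^ 2 * |z| ^ 4) * Real.exp (√S * |z|) := by
            rw [j2]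
            exact mul_le_mul_of_nonneg_left j1 (by (clear * - hgg; positivity))
        _ = _ := by ring
    have k10 : M y * M y * (Real.exp (g' * w y) - Real.exp (g * w y)) ≤
        (g' - g) * |y| ^ 4 * Real.exp |y| := by
      have j3 : 0 ≤ Real.exp (g' * w y) - Real.exp (g * w y) := by
        have := Real.exp_le_exp.2 (mul_le_mul_of_nonneg_right hgg (hw0 y))
        linarith
      calc M y * M y * (Real.exp (g' * w y) - Real.exp (g * w y))
          ≤ y ^ 2 * ((g' - g) * |y| ^ 2 * Real.exp |y|) :=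
            mul_le_mul k6 k1 j3 (sq_nonneg _)
        _ = _ := by rw [← sq_abs]; ring
    linarith
  have hZ0 : 0 < Z := by linarith
  have hr : 0 ≤ I * (g' - g) * τ ^ 2 := by
    have : 0 ≤ I := integral_nonneg fun z => by (clear * -; positivity)
    have : 0 ≤ g' - g := by linarith
    (clear * - hgg; positivity)
  calc A' / Z' ≤ A' / Z := div_le_div_of_nonneg_left hA'0 hZ0 hZZ
    _ ≤ (A + I * (g' - g) * τ ^ 2) / Z := div_le_div_of_nonneg_right hAA hZ0.le
    _ = A / Z + I * (g' - g) * τ ^ 2 / Z := add_div _ _ _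
    _ ≤ A / Z + I * (g' - g) * τ ^ 2 := by
        have := div_le_self hr hZ1
        linarith

end Vale.Agent.P146.Lb
end

section

/-!
# P146, Ce: the total inequality of the tilted measure, over the statement of `tilt_cond`
-/

open MeasureTheory ProbabilityTheory

namespace Vale.Agent.P146.Ce

open Vale.Agent.P146.Ub.Cv

variable {ι : Type} [Fintype ι]

/-- two conditionally independent copies -/
theorem two_int {f h : (ι → ℝ) → ℝ} (hf : Dom f) (hh : Dom h) {c s : ℝ} (hc : |c| ≤ 1)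
    (hs : |s| ≤ 1) :
    Integrable (fun z => (∫ y, f (mix c s z y) ∂(gpi ι)) * ∫ y, h (mix c s z y) ∂(gpi ι))
      (gpi ι) ∧
    ∫ g : J3 ι → ℝ, f (mix c s (pu g) (pv g)) * h (mix c s (pu g) (pw g)) ∂(gpi (J3 ι)) =
      ∫ z, (∫ y, f (mix c s z y) ∂(gpi ι)) * (∫ y, h (mix c s z y) ∂(gpi ι)) ∂(gpi ι) := by
  set F : (ι → ℝ) × ((ι → ℝ) × (ι → ℝ)) → ℝ := fun q =>
    f (mix c s q.1 q.2.1) * h (mix c s q.1 q.2.2) with hF
  have cf : Continuous F :=
    (hf.cont.comp (cont_mix continuous_const continuous_const continuous_fst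
      (continuous_fst.comp continuous_snd))).mul
    (hh.cont.comp (cont_mix continuous_const continuous_const continuous_fst
      (continuous_snd.comp continuous_snd)))
  have i1 : Integrable F ((gpi ι).prod ((gpi ι).prod (gpi ι))) := by
    rw [← (mp3 (ι := ι)).integrable_comp cf.aestronglyMeasurable]
    exact ((dom_uv hf hc hs).mul (dom_uw hh hc hs)).integrable
  have e1 := int_J3 cf
  have e2 : ∫ g : J3 ι → ℝ, F (pu g, (pv g, pw g)) ∂(gpi (J3 ι)) =
      ∫ g : J3 ι → ℝ, f (mix c s (pu g) (pv g)) * h (mix c s (pu g) (pw g)) ∂(gpi (J3 ι)) := rfl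
  have e3 : ∀ z, ∫ q, F (z, q) ∂((gpi ι).prod (gpi ι)) =
      (∫ y, f (mix c s z y) ∂(gpi ι)) * ∫ y, h (mix c s z y) ∂(gpi ι) := fun z => by
    simp only [hF]
    exact integral_prod_mul (fun y => f (mix c s z y)) (fun y => h (mix c s z y))
  have i2 := i1.integral_prod_left
  simp only [e3] at i2
  refine ⟨i2, ?_⟩
  rw [← e2, e1, integral_prod _ i1]
  exact integral_congr_ae (Filter.Eventually.of_forall e3)

/-- one copy -/
theorem one_int {f : (ι → ℝ) → ℝ} (hf : Dom f) {c s : ℝ} (hcs : c ^ 2 + s ^ 2 = 1) :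
    ∫ z, (∫ y, f (mix c s z y) ∂(gpi ι)) ∂(gpi ι) = ∫ g, f g ∂(gpi ι) := by
  rw [← integral_prod (fun q : (ι → ℝ) × (ι → ℝ) => f (mix c s q.1 q.2))
    ((mp_mix hcs).integrable_comp_of_integrable hf.integrable)]
  exact int_mix hcs hf.cont

theorem int_uv {f : (ι → ℝ) → ℝ} (hf : Dom f) {c s : ℝ} (hcs : c ^ 2 + s ^ 2 = 1)
    (hc : |c| ≤ 1) (hs : |s| ≤ 1) :
    ∫ g : J3 ι → ℝ, f (mix c s (pu g) (pv g)) ∂(gpi (J3 ι)) = ∫ g, f g ∂(gpi ι) := by
  have h1 := (two_int hf (Dom.const 1) hc hs).2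
  simp only [mul_one, integral_const, probReal_univ, smul_eq_mul] at h1
  rw [h1, one_int hf hcs]

theorem int_uw {f : (ι → ℝ) → ℝ} (hf : Dom f) {c s : ℝ} (hcs : c ^ 2 + s ^ 2 = 1)
    (hc : |c| ≤ 1) (hs : |s| ≤ 1) :
    ∫ g : J3 ι → ℝ, f (mix c s (pu g) (pw g)) ∂(gpi (J3 ι)) = ∫ g, f g ∂(gpi ι) := by
  have h1 := (two_int (Dom.const 1) hf hc hs).2
  simp only [one_mul, integral_const, probReal_univ, smul_eq_mul] at h1
  rw [h1, one_int hf hcs]

/-- `E N²` is at most `E exp (2 a F)` -/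
theorem sq_le {F : (ι → ℝ) → ℝ} (hF : Lin F) {c s : ℝ} (hcs : c ^ 2 + s ^ 2 = 1)
    (hc : |c| ≤ 1) (hs : |s| ≤ 1) (a : ℝ) :
    ∫ z, (∫ y, Real.exp (a * F (mix c s z y)) ∂(gpi ι)) *
      (∫ y, Real.exp (a * F (mix c s z y)) ∂(gpi ι)) ∂(gpi ι) ≤
      ∫ g, Real.exp (2 * a * F g) ∂(gpi ι) := by
  have d1 : Dom (fun g => Real.exp (a * F g)) := (hF.const_mul a).dom_exp
  have d2 : Dom (fun g => Real.exp (2 * a * F g)) := (hF.const_mul (2 * a)).dom_exp
  rw [← (two_int d1 d1 hc hs).2]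
  have e : ∫ g, Real.exp (2 * a * F g) ∂(gpi ι) =
      ∫ g : J3 ι → ℝ, (1 / 2 * Real.exp (2 * a * F (mix c s (pu g) (pv g))) +
        1 / 2 * Real.exp (2 * a * F (mix c s (pu g) (pw g)))) ∂(gpi (J3 ι)) := by
    rw [int_add ((dom_uv d2 hc hs).const_mul _) ((dom_uw d2 hc hs).const_mul _),
      integral_const_mul, integral_const_mul, int_uv d2 hcs hc hs, int_uw d2 hcs hc hs]
    ring
  rw [e]
  refine int_mono ((dom_uv d1 hc hs).mul (dom_uw d1 hc hs))
    (((dom_uv d2 hc hs).const_mul _).add ((dom_uw d2 hc hs).const_mul _)) fun g => ?_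
  have e1 : ∀ t : ℝ, Real.exp (2 * a * t) = Real.exp (a * t) ^ 2 := fun t => by
    rw [← Real.exp_nat_mul]
    congr 1
    push_cast
    ring
  rw [e1, e1]
  linarith only [sq_nonneg (Real.exp (a * F (mix c s (pu g) (pv g))) - Real.exp (a * F (mix c s (pu g) (pw g))))]

/-- `E N²` is at least `exp (2 a E F)` -/
theorem le_sq {F : (ι → ℝ) → ℝ} (hF : Lin F) {c s : ℝ} (hcs : c ^ 2 + s ^ 2 = 1)
    (hc : |c| ≤ 1) (hs : |s| ≤ 1) (a : ℝ) :
    Real.exp (2 * a * ∫ g, F g ∂(gpi ι)) ≤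
    ∫ z, (∫ y, Real.exp (a * F (mix c s z y)) ∂(gpi ι)) *
      (∫ y, Real.exp (a * F (mix c s z y)) ∂(gpi ι)) ∂(gpi ι) := by
  have d1 : Dom (fun g => Real.exp (a * F g)) := (hF.const_mul a).dom_exp
  rw [← (two_int d1 d1 hc hs).2]
  have e0 : ∀ g : J3 ι → ℝ, Real.exp (a * F (mix c s (pu g) (pv g))) *
      Real.exp (a * F (mix c s (pu g) (pw g))) =
      Real.exp (a * F (mix c s (pu g) (pv g)) + a * F (mix c s (pu g) (pw g))) := fun g => by
    rw [Real.exp_add]
  have dS : Dom (fun g : J3 ι → ℝ =>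
      a * F (mix c s (pu g) (pv g)) + a * F (mix c s (pu g) (pw g))) :=
    ((dom_uv hF.dom hc hs).const_mul a).add ((dom_uw hF.dom hc hs).const_mul a)
  have dE : Dom (fun g : J3 ι → ℝ =>
      Real.exp (a * F (mix c s (pu g) (pv g)) + a * F (mix c s (pu g) (pw g)))) :=
    ((dom_uv d1 hc hs).mul (dom_uw d1 hc hs)).congr fun g => (e0 g).symm
  have j := exp_integral_le dS.integrable dE.integrable
  rw [int_add ((dom_uv hF.dom hc hs).const_mul a) ((dom_uw hF.dom hc hs).const_mul a),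
    integral_const_mul, integral_const_mul, int_uv hF.dom hcs hc hs,
    int_uw hF.dom hcs hc hs] at j
  simp_rw [e0]
  refine le_trans (Real.exp_le_exp.2 ?_) j
  apply le_of_eq
  ring

/-- association -/
theorem assoc_le {F : (ι → ℝ) → ℝ} (hF : Lin F) {c s : ℝ} (hcs : c ^ 2 + s ^ 2 = 1)
    (hc : |c| ≤ 1) (hs : |s| ≤ 1) {a : ℝ} (ha : 0 ≤ a) :
    (∫ g, F g ∂(gpi ι)) * ∫ z, (∫ y, Real.exp (a * F (mix c s z y)) ∂(gpi ι)) *
      (∫ y, Real.exp (a * F (mix c s z y)) ∂(gpi ι)) ∂(gpi ι) ≤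
    ∫ z, (∫ y, F (mix c s z y) * Real.exp (a * F (mix c s z y)) ∂(gpi ι)) *
      (∫ y, Real.exp (a * F (mix c s z y)) ∂(gpi ι)) ∂(gpi ι) := by
  have d1 : Dom (fun g => Real.exp (a * F g)) := (hF.const_mul a).dom_exp
  have d3 : Dom (fun g => F g * Real.exp (a * F g)) := hF.dom.mul d1
  have q1 := (two_int d3 d1 hc hs).2
  have q2 := (two_int d1 d3 hc hs).2
  have q3 := (two_int d1 d1 hc hs).2
  have q4 : ∫ z, (∫ y, Real.exp (a * F (mix c s z y)) ∂(gpi ι)) *
      (∫ y, F (mix c s z y) * Real.exp (a * F (mix c s z y)) ∂(gpi ι)) ∂(gpi ι) =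
      ∫ z, (∫ y, F (mix c s z y) * Real.exp (a * F (mix c s z y)) ∂(gpi ι)) *
      (∫ y, Real.exp (a * F (mix c s z y)) ∂(gpi ι)) ∂(gpi ι) :=
    integral_congr_ae (Filter.Eventually.of_forall fun z => mul_comm _ _)
  rw [q4] at q2
  set m := ∫ g, F g ∂(gpi ι) with hm
  set X := ∫ z, (∫ y, F (mix c s z y) * Real.exp (a * F (mix c s z y)) ∂(gpi ι)) *
      (∫ y, Real.exp (a * F (mix c s z y)) ∂(gpi ι)) ∂(gpi ι) with hX
  set W := ∫ z, (∫ y, Real.exp (a * F (mix c s z y)) ∂(gpi ι)) *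
      (∫ y, Real.exp (a * F (mix c s z y)) ∂(gpi ι)) ∂(gpi ι) with hW
  -- the four functions on three blocks
  set U : (J3 ι → ℝ) → ℝ := fun g => F (mix c s (pu g) (pv g)) with hU
  set V : (J3 ι → ℝ) → ℝ := fun g => F (mix c s (pu g) (pw g)) with hV
  have dU : Dom U := dom_uv hF.dom hc hs
  have dV : Dom V := dom_uw hF.dom hc hs
  have dUe : Dom (fun g => Real.exp (a * U g)) := dom_uv d1 hc hs
  have dVe : Dom (fun g => Real.exp (a * V g)) := dom_uw d1 hc hs
  have dE : Dom (fun g => Real.exp (a * U g) * Real.exp (a * V g)) := dUe.mul dVe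
  have p1 : ∫ g, (U g * Real.exp (a * U g)) * Real.exp (a * V g) ∂(gpi (J3 ι)) = X := q1
  have p2 : ∫ g, Real.exp (a * U g) * (V g * Real.exp (a * V g)) ∂(gpi (J3 ι)) = X := q2
  have p3 : ∫ g, Real.exp (a * U g) * Real.exp (a * V g) ∂(gpi (J3 ι)) = W := q3
  have p4 : ∫ g, U g ∂(gpi (J3 ι)) = m := int_uv hF.dom hcs hc hs
  have p5 : ∫ g, V g ∂(gpi (J3 ι)) = m := int_uw hF.dom hcs hc hs
  -- the integrated inequality
  have pos : ∀ g, 0 ≤ ((U g * Real.exp (a * U g)) * Real.exp (a * V g) +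
      Real.exp (a * U g) * (V g * Real.exp (a * V g))) +
      ((-(2 * m)) * (Real.exp (a * U g) * Real.exp (a * V g)) +
      ((-Real.exp (a * (2 * m))) * (U g + V g) + 2 * m * Real.exp (a * (2 * m)))) := by
    intro g
    have e : ((U g * Real.exp (a * U g)) * Real.exp (a * V g) +
      Real.exp (a * U g) * (V g * Real.exp (a * V g))) +
      ((-(2 * m)) * (Real.exp (a * U g) * Real.exp (a * V g)) +
      ((-Real.exp (a * (2 * m))) * (U g + V g) + 2 * m * Real.exp (a * (2 * m)))) =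
      ((U g + V g) - 2 * m) * (Real.exp (a * (U g + V g)) - Real.exp (a * (2 * m))) := by
      rw [mul_add a, Real.exp_add]
      ring
    rw [e]
    rcases le_total (2 * m) (U g + V g) with h1 | h1
    · refine mul_nonneg (by linarith) ?_
      have := Real.exp_le_exp.2 (mul_le_mul_of_nonneg_left h1 ha)
      linarith
    · refine mul_nonneg_of_nonpos_of_nonpos (by linarith) ?_
      have := Real.exp_le_exp.2 (mul_le_mul_of_nonneg_left h1 ha)
      linarith
  have D1 : Dom (fun g => (U g * Real.exp (a * U g)) * Real.exp (a * V g)) := (dU.mul dUe).mul dVe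
  have D2 : Dom (fun g => Real.exp (a * U g) * (V g * Real.exp (a * V g))) := dUe.mul (dV.mul dVe)
  have D3 : Dom (fun g => (-(2 * m)) * (Real.exp (a * U g) * Real.exp (a * V g))) :=
    dE.const_mul _
  have D4 : Dom (fun g => (-Real.exp (a * (2 * m))) * (U g + V g)) := (dU.add dV).const_mul _
  have D5 : Dom (fun _ : J3 ι → ℝ => 2 * m * Real.exp (a * (2 * m))) := Dom.const _
  have I := integral_nonneg (μ := gpi (J3 ι)) (f := fun g =>
      ((U g * Real.exp (a * U g)) * Real.exp (a * V g) +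
      Real.exp (a * U g) * (V g * Real.exp (a * V g))) +
      ((-(2 * m)) * (Real.exp (a * U g) * Real.exp (a * V g)) +
      ((-Real.exp (a * (2 * m))) * (U g + V g) + 2 * m * Real.exp (a * (2 * m))))) pos
  rw [int_add (D1.add D2) (D3.add (D4.add D5)), int_add D1 D2, int_add D3 (D4.add D5),
    int_add D4 D5, integral_const_mul, integral_const_mul, int_add dU dV, p1, p2, p3, p4, p5,
    integral_const, probReal_univ, smul_eq_mul] at I
  linarith only [I]

section main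

variable {F : (ι → ℝ) → ℝ} {G : ι → (ι → ℝ) → ℝ}

/-- the total inequality, over the conditional one -/
theorem tilt_total0 (hF : Lin F) (hG : ∀ i, Lin (G i))
    {c s a x L : ℝ} (hcs : c ^ 2 + s ^ 2 = 1) (ha : 0 ≤ a) (hx : 0 ≤ x)
    (tc : ∀ z : ι → ℝ, (∫ y, Real.exp (a * F (mix c s z y)) ∂(gpi ι)) *
      Real.exp (x * ((∫ y, F (mix c s z y) * Real.exp (a * F (mix c s z y)) ∂(gpi ι)) /
          (∫ y, Real.exp (a * F (mix c s z y)) ∂(gpi ι))) +
        x ^ 2 * s ^ 2 / 2 * ∑ i, ((∫ y, G i (mix c s z y) *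
          Real.exp (a * F (mix c s z y)) ∂(gpi ι)) /
            (∫ y, Real.exp (a * F (mix c s z y)) ∂(gpi ι))) ^ 2) ≤
      ∫ y, Real.exp ((a + x) * F (mix c s z y)) ∂(gpi ι))
    (hL : ∫ g, Real.exp (2 * (a + x) * F g) ∂(gpi ι) ≤
      Real.exp (2 * (a + x) * (∫ g, F g ∂(gpi ι)) + L)) :
    x ^ 2 * s ^ 2 * ∑ i, ∫ z, (∫ y, G i (mix c s z y) *
      Real.exp (a * F (mix c s z y)) ∂(gpi ι)) ^ 2 ∂(gpi ι) ≤
      (∫ g, Real.exp (2 * a * F g) ∂(gpi ι)) * L := by
  have hc1 : |c| ≤ 1 := abs_le_one_iff_mul_self_le_one.2 (by linarith only [sq_nonneg s, hcs])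
  have hs1 : |s| ≤ 1 := abs_le_one_iff_mul_self_le_one.2 (by linarith only [sq_nonneg c, hcs])
  have d1 : Dom (fun g => Real.exp (a * F g)) := (hF.const_mul a).dom_exp
  have d2 : Dom (fun g => Real.exp ((a + x) * F g)) := (hF.const_mul (a + x)).dom_exp
  have d3 : Dom (fun g => F g * Real.exp (a * F g)) := hF.dom.mul d1
  have d4 : ∀ i, Dom (fun g => G i g * Real.exp (a * F g)) := fun i => (hG i).dom.mul d1
  set N : (ι → ℝ) → ℝ := fun z => ∫ y, Real.exp (a * F (mix c s z y)) ∂(gpi ι) with hN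
  set N' : (ι → ℝ) → ℝ := fun z => ∫ y, Real.exp ((a + x) * F (mix c s z y)) ∂(gpi ι) with hN'
  set A : (ι → ℝ) → ℝ := fun z => ∫ y, F (mix c s z y) * Real.exp (a * F (mix c s z y)) ∂(gpi ι)
    with hA
  set Q : ι → (ι → ℝ) → ℝ := fun i z => ∫ y, G i (mix c s z y) *
      Real.exp (a * F (mix c s z y)) ∂(gpi ι) with hQ
  have hNpos : ∀ z, 0 < N z := fun z => by
    have h1 : Integrable (fun y => Real.exp (a * F (mix c s z y))) (gpi ι) :=
      ((hF.fix hc1 hs1 z).const_mul a).dom_exp.integrable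
    exact integral_exp_pos h1
  have iN : Integrable (fun z => N z * N z) (gpi ι) := (two_int d1 d1 hc1 hs1).1
  have iN' : Integrable (fun z => N' z * N' z) (gpi ι) := (two_int d2 d2 hc1 hs1).1
  have iA : Integrable (fun z => A z * N z) (gpi ι) := (two_int d3 d1 hc1 hs1).1
  have iQ : ∀ i, Integrable (fun z => Q i z ^ 2) (gpi ι) := fun i => by
    have := (two_int (d4 i) (d4 i) hc1 hs1).1
    simp only [← sq] at this
    exact this
  set W := ∫ z, N z * N z ∂(gpi ι) with hW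
  set m := ∫ g, F g ∂(gpi ι) with hm
  set T := ∑ i, ∫ z, Q i z ^ 2 ∂(gpi ι) with hT
  have w1 : Real.exp (2 * a * m) ≤ W := le_sq hF hcs hc1 hs1 a
  have w2 : W ≤ ∫ g, Real.exp (2 * a * F g) ∂(gpi ι) := sq_le hF hcs hc1 hs1 a
  have w3 : ∫ z, N' z * N' z ∂(gpi ι) ≤ ∫ g, Real.exp (2 * (a + x) * F g) ∂(gpi ι) :=
    sq_le hF hcs hc1 hs1 (a + x)
  have w4 : m * W ≤ ∫ z, A z * N z ∂(gpi ι) := assoc_le hF hcs hc1 hs1 ha
  have hW0 : 0 < W := (Real.exp_pos _).trans_le w1
  set Y := ∫ z, A z * N z ∂(gpi ι) with hY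
  set M := (2 * x * Y + x ^ 2 * s ^ 2 * T) / W with hM
  have hMW : M * W = 2 * x * Y + x ^ 2 * s ^ 2 * T := by
    rw [hM]
    field_simp
  have pt : ∀ z, Real.exp M * ((1 - M) * (N z * N z) + (2 * x * (A z * N z) +
      x ^ 2 * s ^ 2 * ∑ i, Q i z ^ 2)) ≤ N' z * N' z := by
    intro z
    have hn := hNpos z
    have h1 := tc z
    set φ := x * (A z / N z) + x ^ 2 * s ^ 2 / 2 * ∑ i, (Q i z / N z) ^ 2 with hφ
    have h2 : N z * Real.exp φ ≤ N' z := h1
    have h3 : (N z * Real.exp φ) * (N z * Real.exp φ) ≤ N' z * N' z :=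
      mul_self_le_mul_self (by positivity) h2
    refine le_trans ?_ h3
    have h4 := Real.add_one_le_exp (2 * φ - M)
    have h5 : Real.exp (2 * φ) = Real.exp M * Real.exp (2 * φ - M) := by
      rw [← Real.exp_add]; congr 1; ring
    have h6 : (N z * Real.exp φ) * (N z * Real.exp φ) = (N z * N z) * Real.exp (2 * φ) := by
      have e9 : Real.exp (2 * φ) = Real.exp φ * Real.exp φ := by
        rw [two_mul φ, Real.exp_add]
      rw [e9]
      generalize Real.exp φ = E
      ring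
    have h7 : (1 - M) * (N z * N z) + (2 * x * (A z * N z) + x ^ 2 * s ^ 2 * ∑ i, Q i z ^ 2) =
        (N z * N z) * (2 * φ - M + 1) := by
      have h8 : ∑ i, (Q i z / N z) ^ 2 = (∑ i, Q i z ^ 2) / N z ^ 2 := by
        rw [Finset.sum_div]
        exact Finset.sum_congr rfl fun i _ => div_pow _ _ _
      rw [hφ, h8]
      field_simp
      ring
    rw [h6, h5, h7]
    have h9 : 0 ≤ Real.exp M * (N z * N z) := by positivity
    linarith only [mul_le_mul_of_nonneg_left h4 h9]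
  have iS : Integrable (fun z => ∑ i, Q i z ^ 2) (gpi ι) := integrable_finsetSum _ fun i _ => iQ i
  have j1 : Integrable (fun z => (1 - M) * (N z * N z)) (gpi ι) := iN.const_mul _
  have j2 : Integrable (fun z => 2 * x * (A z * N z)) (gpi ι) := iA.const_mul _
  have j3 : Integrable (fun z => x ^ 2 * s ^ 2 * ∑ i, Q i z ^ 2) (gpi ι) := iS.const_mul _
  have j4 : Integrable (fun z => 2 * x * (A z * N z) + x ^ 2 * s ^ 2 * ∑ i, Q i z ^ 2) (gpi ι) :=
    j2.add j3
  have I1 : ∫ z, Real.exp M * ((1 - M) * (N z * N z) + (2 * x * (A z * N z) +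
      x ^ 2 * s ^ 2 * ∑ i, Q i z ^ 2)) ∂(gpi ι) = Real.exp M * W := by
    rw [integral_const_mul, integral_add j1 j4, integral_add j2 j3, integral_const_mul,
      integral_const_mul, integral_const_mul, integral_finsetSum _ fun i _ => iQ i]
    have : (1 - M) * W + (2 * x * Y + x ^ 2 * s ^ 2 * T) = W := by
      rw [← hMW]; ring
    rw [this]
  have I2 : Real.exp M * W ≤ Real.exp (2 * (a + x) * m + L) := by
    rw [← I1]
    refine le_trans (integral_mono ((j1.add j4).const_mul _) iN' pt) (w3.trans hL)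
  have I3 : Real.exp (M + 2 * a * m) ≤ Real.exp (2 * (a + x) * m + L) := by
    rw [Real.exp_add]
    exact (mul_le_mul_of_nonneg_left w1 (Real.exp_pos M).le).trans I2
  have I4 := Real.exp_le_exp.1 I3
  have I5 : M * W ≤ (2 * x * m + L) * W :=
    mul_le_mul_of_nonneg_right (by linarith) hW0.le
  rw [hMW] at I5
  have I6 : 2 * x * (m * W) ≤ 2 * x * Y := mul_le_mul_of_nonneg_left w4 (by positivity)
  have I7 : x ^ 2 * s ^ 2 * T ≤ L * W := by linarith only [I6, I5]
  have hT0 : 0 ≤ T := Finset.sum_nonneg fun i _ => integral_nonneg fun z => sq_nonneg _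
  have hL0 : 0 ≤ L := by
    have h1 : 0 ≤ L * W := le_trans (by (clear * -; positivity)) I7
    exact nonneg_of_mul_nonneg_left h1 hW0
  calc x ^ 2 * s ^ 2 * T ≤ L * W := I7
    _ ≤ L * ∫ g, Real.exp (2 * a * F g) ∂(gpi ι) := mul_le_mul_of_nonneg_left w2 hL0
    _ = _ := mul_comm _ _

end main

end Vale.Agent.P146.Ce
end
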