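import Mathlib
import Vale.Agent.P146.Bdl.B25
import Vale.Agent.P146.Bdl.B37

set_option linter.all false

section

/-!
(L2): the SK systems with tree fields, with the disorder at the level `d` (`1 ≤ d ≤ K`): the
exponential moments of the free energy. The definitions of the coefficients are those of `Ub`.
-/

open MeasureTheory ProbabilityTheory Filter Topology

namespace Vale.Agent.P146.Ub.Ld

open Vale.Agent.P157 Vale.Agent.P157.Lv Vale.Agent.P157.Lv.Sy
open Vale.Agent.P157.Par (Path Exponents incr)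
open Vale.Agent.P146 (Pair)

variable {n K : ℕ}

/-- The levels: the disorder has the level `d`. -/
def rlv (d : ℕ) : RI n K → ℕ
  | Sum.inl _ => d
  | Sum.inr (Sum.inl p) => p.1
  | Sum.inr (Sum.inr l) => l

theorem rlv_le {d : ℕ} (hd : d ≤ K) (e : RI n K) : rlv d e ≤ K := by
  rcases e with p | p | l
  · exact hd
  · exact Nat.le_of_lt_succ p.1.2
  · exact Nat.le_of_lt_succ l.2

theorem rlv_zero {d : ℕ} (hd : 1 ≤ d) (e : RI n K) (h : rlv d e = 0) : rlev e = 0 := by
  rcases e with p | p | l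
  · rfl
  · exact h
  · exact h

/-- The systems. -/
noncomputable def SN (n : ℕ) (K d : ℕ) (m : ℕ → ℝ) (β : ℝ) (N : ℕ) (s : ℕ → ℝ) :
    Sy (RI n K) (Fin n → Bool) := ls (rlv d) K m (lc n) (st β N s)

noncomputable def SC (n : ℕ) (K d : ℕ) (m : ℕ → ℝ) (β : ℝ) (N : ℕ) (s : ℕ → ℝ) :
    Sy (RI n K) (Fin n → Bool) := ls (rlv d) K m (lc n) (sc β N s)

/-- The interpolating systems: tree field at `θ = π / 2`, cavity field at `θ = 0`. -/
noncomputable def ST (n : ℕ) (K d : ℕ) (m : ℕ → ℝ) (β : ℝ) (N : ℕ) (s R : ℕ → ℝ) (θ : ℝ) :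
    Sy (RI n K) (Fin n → Bool) := ls (rlv d) K m (lc n) (tc β N s R θ)

/-- The free energy of the stage `N`. -/
noncomputable def AN (n : ℕ) (K d : ℕ) (m : ℕ → ℝ) (β : ℝ) (N : ℕ) (s : ℕ → ℝ) : ℝ :=
  (SN n K d m β N s).fe

/-- The second differences of the free energy in the strength `j`. -/
noncomputable def dl (n : ℕ) (K d : ℕ) (m : ℕ → ℝ) (β : ℝ) (N : ℕ) (s : ℕ → ℝ) (t : ℝ)
    (j : ℕ) : ℝ :=
  AN n K d m β N (Function.update s j (s j + t)) + AN n K d m β N (Function.update s j (s j - t)) -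
    2 * AN n K d m β N s

/-- The error of the concentration of the field `j`. -/
noncomputable def ej (n : ℕ) (K d : ℕ) (m : ℕ → ℝ) (β : ℝ) (N : ℕ) (s : ℕ → ℝ) (t : ℝ)
    (j : ℕ) : ℝ :=
  1 / (N * t) * (2 * dl n K d m β N s t j + 3 * β ^ 2 + Real.log 2 / m 1 +
    3 * √(2 * ((2 * β ^ 2 + 4) * N)))

/-- The sum of the errors. -/
noncomputable def ee (n : ℕ) (K d : ℕ) (m : ℕ → ℝ) (β : ℝ) (N : ℕ) (s : ℕ → ℝ) (t : ℝ) : ℝ :=
  ∑ j ∈ Finset.range (K + 1), ej n K d m β N s t j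

/-- The path cut below the level `d`. -/
noncomputable def ct (d : ℕ) (R : ℕ → ℝ) : ℕ → ℝ := fun l => if l < d then 0 else R l

theorem ct_lt {d l : ℕ} (h : l < d) (R : ℕ → ℝ) : ct d R l = 0 := if_pos h

theorem ct_ge {d l : ℕ} (h : d ≤ l) (R : ℕ → ℝ) : ct d R l = R l := if_neg (not_lt.2 h)

theorem ct_path {d : ℕ} {R : ℕ → ℝ} (hR : Path K R) : Path K (ct d R) := by
  have h0 : ∀ l ≤ K, 0 ≤ R l := by
    intro l hl
    induction l with
    | zero => exact hR.1
    | succ l ih => exact (ih (by omega)).trans (hR.2 l (by omega))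
  refine ⟨?_, fun l hl => ?_⟩
  · unfold ct
    split_ifs
    · exact le_rfl
    · exact hR.1
  · unfold ct
    split_ifs with h1 h2 h2
    · exact le_rfl
    · exact h0 _ (by omega)
    · omega
    · exact hR.2 l hl

end Vale.Agent.P146.Ub.Ld
end

section

/-!
# P146, Lt (lower tail): Bessel's inequality, the mean gradient of the smoothed function
-/

open MeasureTheory ProbabilityTheory

namespace Vale.Agent.P146.Lt

open Vale.Agent.P146.Ub.Cv

variable {ι : Type} [Fintype ι]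

/-- Bessel's inequality for `1, y_1, ..., y_N` in `L²` of the Gaussian measure. -/
theorem bessel {h : (ι → ℝ) → ℝ} (hh : Lin h) :
    ∑ i, (∫ y, h y * y i ∂(gpi ι)) ^ 2 ≤
      ∫ y, h y ^ 2 ∂(gpi ι) - (∫ y, h y ∂(gpi ι)) ^ 2 := by
  classical
  obtain ⟨m, hm⟩ : ∃ m : ℝ, m = ∫ y, h y ∂(gpi ι) := ⟨_, rfl⟩
  obtain ⟨b, hb⟩ : ∃ b : ι → ℝ, b = fun i => ∫ y, h y * y i ∂(gpi ι) := ⟨_, rfl⟩
  have hbi : ∀ i, ∫ y, h y * y i ∂(gpi ι) = b i := fun i => by rw [hb]
  have dh : Dom h := hh.dom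
  have dL : Dom (fun y : ι → ℝ => ∑ i, b i * y i) := Dom.sum _ fun i _ => (Dom.coord i).const_mul _
  -- moments of the linear function
  have e1 : ∫ y : ι → ℝ, (∑ i, b i * y i) ∂(gpi ι) = 0 := by
    rw [int_sum _ fun i _ => (Dom.coord i).const_mul _]
    refine Finset.sum_eq_zero fun i _ => ?_
    rw [integral_const_mul, int_coord_zero, mul_zero]
  have e2 : ∫ y : ι → ℝ, (∑ i, b i * y i) * (∑ i, b i * y i) ∂(gpi ι) = ∑ i, b i ^ 2 := by
    have h1 : ∀ y : ι → ℝ, (∑ i, b i * y i) * (∑ i, b i * y i) =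
        ∑ i, b i * (y i * ∑ j, b j * y j) := by
      intro y
      rw [Finset.sum_mul]
      exact Finset.sum_congr rfl fun i _ => by ring
    simp_rw [h1]
    rw [int_sum _ fun i _ => ((Dom.coord i).mul dL).const_mul _]
    refine Finset.sum_congr rfl fun i _ => ?_
    rw [integral_const_mul]
    have h2 : ∫ y : ι → ℝ, y i * (∑ j, b j * y j) ∂(gpi ι) = ∫ _y : ι → ℝ, b i ∂(gpi ι) := by
      refine ibp i dL (Dom.const (b i)) fun g t => ?_
      have h3 : ∀ t : ℝ, ∑ j, b j * Function.update g i t j =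
          b i * t + ∑ j ∈ Finset.univ.erase i, b j * g j := by
        intro t
        rw [← Finset.add_sum_erase Finset.univ _ (Finset.mem_univ i), Function.update_self]
        congr 1
        refine Finset.sum_congr rfl fun j hj => ?_
        rw [Function.update_of_ne (Finset.ne_of_mem_erase hj)]
      simp_rw [h3]
      exact lin_deriv _ _ _
    rw [h2]
    simp [sq]
  have e3 : ∫ y : ι → ℝ, h y * (∑ i, b i * y i) ∂(gpi ι) = ∑ i, b i ^ 2 := by
    have h1 : ∀ y : ι → ℝ, h y * (∑ i, b i * y i) = ∑ i, b i * (h y * y i) := by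
      intro y
      rw [Finset.mul_sum]
      exact Finset.sum_congr rfl fun i _ => by ring
    simp_rw [h1]
    rw [int_sum _ fun i _ => (dh.mul (Dom.coord i)).const_mul _]
    refine Finset.sum_congr rfl fun i _ => ?_
    rw [integral_const_mul, hbi, sq]
  -- the square
  have e4 : ∀ y : ι → ℝ, (h y - m - ∑ i, b i * y i) ^ 2 =
      ((h y ^ 2 + (∑ i, b i * y i) * (∑ i, b i * y i)) + (m ^ 2 + (2 * m) * (∑ i, b i * y i))) -
        ((2 * m) * h y + 2 * (h y * (∑ i, b i * y i))) := by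
    intro y
    ring
  have h0 : 0 ≤ ∫ y : ι → ℝ, (h y - m - ∑ i, b i * y i) ^ 2 ∂(gpi ι) :=
    integral_nonneg fun y => sq_nonneg _
  simp_rw [e4] at h0
  rw [int_sub (((dh.pow 2).add (dL.mul dL)).add ((Dom.const (m ^ 2)).add (dL.const_mul _)))
      ((dh.const_mul _).add ((dh.mul dL).const_mul _)),
    int_add ((dh.pow 2).add (dL.mul dL)) ((Dom.const (m ^ 2)).add (dL.const_mul _)),
    int_add (dh.pow 2) (dL.mul dL), int_add (Dom.const (m ^ 2)) (dL.const_mul _),
    int_add (dh.const_mul _) ((dh.mul dL).const_mul _), integral_const_mul, integral_const_mul,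
    integral_const_mul, e1, e2, e3, ← hm] at h0
  have e5 : ∫ _y : ι → ℝ, m ^ 2 ∂(gpi ι) = m ^ 2 := by simp
  rw [e5] at h0
  simp_rw [hbi]
  rw [← hm]
  linarith

/-- The mean gradient of the smoothed function. -/
theorem grad_mean [DecidableEq ι] {F : (ι → ℝ) → ℝ} {G H : ι → (ι → ℝ) → ℝ} {B : ℝ}
    (h : Reg F G H B) (hF : Lin F) {c s : ℝ} (hcs : c ^ 2 + s ^ 2 = 1) (x : ι → ℝ) (i : ι) :
    s * ∫ y, G i (mix c s x y) ∂(gpi ι) = ∫ y, F (mix c s x y) * y i ∂(gpi ι) := by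
  have hc : |c| ≤ 1 := by
    rw [abs_le]; constructor <;> nlinarith [sq_nonneg s]
  have hs : |s| ≤ 1 := by
    rw [abs_le]; constructor <;> nlinarith [sq_nonneg c]
  have lG : Lin (G i) := Lin.of_bounded (h.G_dom i).cont B (h.G_bd i)
  have dF : Dom (fun y => F (mix c s x y)) := (hF.fix hc hs x).dom
  have dG : Dom (fun y => s * G i (mix c s x y)) := ((lG.fix hc hs x).const_mul s).dom
  have h1 := ibp i dF dG fun g t => by
    simp only [mix_upd_right]
    have d2 := comp_upd (f := F) (f' := G i) (i := i) (z := mix c s x g)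
      (fun t => h.coord _ i t) (lin_deriv' s (c * x i) t)
    refine d2.congr_deriv ?_
    ring
  rw [← integral_const_mul, ← h1]
  exact integral_congr_ae (Filter.Eventually.of_forall fun y => mul_comm _ _)

/-- `E |∇ P F|² ≤ Var F · c² / s²` -/
theorem grad_le [DecidableEq ι] {F : (ι → ℝ) → ℝ} {G H : ι → (ι → ℝ) → ℝ} {B : ℝ}
    (h : Reg F G H B) (hF : Lin F) (hG : ∀ i, Lin (G i)) {c s : ℝ} (hcs : c ^ 2 + s ^ 2 = 1)
    (hs : 0 < s) :
    ∫ x, ∑ i, (c * ∫ y, G i (mix c s x y) ∂(gpi ι)) ^ 2 ∂(gpi ι) ≤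
      (∫ g, F g ^ 2 ∂(gpi ι) - (∫ g, F g ∂(gpi ι)) ^ 2) / s ^ 2 := by
  have hc1 : |c| ≤ 1 := by
    rw [abs_le]; constructor <;> nlinarith [sq_nonneg s]
  have hs1 : |s| ≤ 1 := by
    rw [abs_le]; constructor <;> nlinarith [sq_nonneg c]
  have hs2 : 0 < s ^ 2 := by positivity
  have hc2 : c ^ 2 ≤ 1 := by linarith only [hs2, hcs]
  have mF := (hF.mix2 hcs).1
  have mF2 : Integrable (fun q : (ι → ℝ) × (ι → ℝ) => F (mix c s q.1 q.2) ^ 2)
      ((gpi ι).prod (gpi ι)) :=
    (mp_mix hcs).integrable_comp_of_integrable (g := fun z => F z ^ 2) (hF.dom.pow 2).integrable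
  obtain ⟨A, hA⟩ : ∃ A : (ι → ℝ) → ℝ, A = fun x => ∫ y, F (mix c s x y) ∂(gpi ι) := ⟨_, rfl⟩
  obtain ⟨A2, hA2⟩ : ∃ A2 : (ι → ℝ) → ℝ, A2 = fun x => ∫ y, F (mix c s x y) ^ 2 ∂(gpi ι) :=
    ⟨_, rfl⟩
  have iA : Integrable A (gpi ι) := by rw [hA]; exact mF.integral_prod_left
  have iA2 : Integrable A2 (gpi ι) := by rw [hA2]; exact mF2.integral_prod_left
  have hbes : ∀ x, ∑ i, (∫ y, F (mix c s x y) * y i ∂(gpi ι)) ^ 2 ≤ A2 x - A x ^ 2 := by
    intro x
    rw [hA, hA2]
    exact bessel (hF.fix hc1 hs1 x)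
  have hle : ∀ x, A x ^ 2 ≤ A2 x := by
    intro x
    have h1 := hbes x
    have h2 : 0 ≤ ∑ i, (∫ y, F (mix c s x y) * y i ∂(gpi ι)) ^ 2 :=
      Finset.sum_nonneg fun i _ => sq_nonneg _
    linarith
  have iAs : Integrable (fun x => A x ^ 2) (gpi ι) := by
    refine Integrable.mono' iA2 (iA.1.pow 2) (Filter.Eventually.of_forall fun x => ?_)
    rw [Real.norm_eq_abs, abs_of_nonneg (sq_nonneg _)]
    exact hle x
  have eA : ∫ x, A x ∂(gpi ι) = ∫ g, F g ∂(gpi ι) := by
    rw [hA, ← integral_prod _ mF]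
    exact int_mix hcs hF.cont
  have eA2 : ∫ x, A2 x ∂(gpi ι) = ∫ g, F g ^ 2 ∂(gpi ι) := by
    rw [hA2, ← integral_prod _ mF2]
    exact int_mix hcs (hF.cont.pow 2)
  -- Jensen
  have hJ : (∫ g, F g ∂(gpi ι)) ^ 2 ≤ ∫ x, A x ^ 2 ∂(gpi ι) := by
    obtain ⟨m, hm⟩ : ∃ m : ℝ, m = ∫ g, F g ∂(gpi ι) := ⟨_, rfl⟩
    have h0 : 0 ≤ ∫ x, (A x - m) ^ 2 ∂(gpi ι) := integral_nonneg fun x => sq_nonneg _
    have e4 : ∀ x, (A x - m) ^ 2 = (A x ^ 2 + m ^ 2) - (2 * m) * A x := by
      intro x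
      ring
    simp_rw [e4] at h0
    have i5 : Integrable (fun x => A x ^ 2 + m ^ 2) (gpi ι) := iAs.add (integrable_const _)
    rw [integral_sub i5 (iA.const_mul _),
      integral_add iAs (integrable_const _), integral_const_mul, eA, ← hm] at h0
    have e5 : ∫ _y : ι → ℝ, m ^ 2 ∂(gpi ι) = m ^ 2 := by simp
    rw [e5] at h0
    rw [← hm]
    linarith
  have hpt : ∀ x, ∑ i, (c * ∫ y, G i (mix c s x y) ∂(gpi ι)) ^ 2 ≤ (A2 x - A x ^ 2) / s ^ 2 := by
    intro x
    rw [le_div_iff₀ hs2]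
    refine le_trans ?_ (hbes x)
    rw [Finset.sum_mul]
    refine Finset.sum_le_sum fun i _ => ?_
    rw [← grad_mean h hF hcs x i]
    have e : (c * ∫ y, G i (mix c s x y) ∂(gpi ι)) ^ 2 * s ^ 2 =
        c ^ 2 * (s * ∫ y, G i (mix c s x y) ∂(gpi ι)) ^ 2 := by ring
    rw [e]
    exact mul_le_of_le_one_left (sq_nonneg _) hc2
  refine (integral_mono_of_nonneg (Filter.Eventually.of_forall fun x =>
    Finset.sum_nonneg fun i _ => sq_nonneg _) ((iA2.sub iAs).div_const (s ^ 2))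
    (Filter.Eventually.of_forall hpt)).trans ?_
  have e6 : ∫ x, (A2 - fun x => A x ^ 2) x / s ^ 2 ∂(gpi ι) =
      (∫ g, F g ^ 2 ∂(gpi ι) - ∫ x, A x ^ 2 ∂(gpi ι)) / s ^ 2 := by
    rw [integral_div, integral_sub' iA2 iAs, eA2]
  refine (le_of_eq e6).trans ?_
  refine div_le_div_of_nonneg_right ?_ hs2.le
  linarith

end Vale.Agent.P146.Lt
end

section

/-!
# P146, Ce: exponential concentration at the scale of the variance bound, definitions
-/

open MeasureTheory ProbabilityTheory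

namespace Vale.Agent.P146.Ce

open Vale.Agent.P146.Ub.Cv

variable {ι : Type} [Fintype ι]

/-- regularity without the bound of the gradient -/
structure RegD (F : (ι → ℝ) → ℝ) (G H : ι → (ι → ℝ) → ℝ) [DecidableEq ι] : Prop where
  F_dom : Dom F
  G_dom : ∀ i, Dom (G i)
  H_dom : ∀ i, Dom (H i)
  F_diff : ∀ g, HasFDerivAt F
    (∑ i, G i g • ContinuousLinearMap.proj (R := ℝ) (φ := fun _ : ι => ℝ) i) g
  G_diff : ∀ i g t, HasDerivAt (fun t => G i (Function.update g i t))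
    (H i (Function.update g i t)) t

end Vale.Agent.P146.Ce
end

section

set_option linter.all false

/-!
# P146, Ce: the covariance formula for functions whose gradient is not bounded
-/

open MeasureTheory ProbabilityTheory

namespace Vale.Agent.P146.Ce

open Vale.Agent.P146.Ub.Cv

variable {ι : Type} [Fintype ι]

section KK

variable [DecidableEq ι] {F : (ι → ℝ) → ℝ} {G H : ι → (ι → ℝ) → ℝ} {B : ℝ}

lemma RegD.path (h : RegD F G H) {p : ℝ → ι → ℝ} {p' : ι → ℝ} {t : ℝ}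
    (hp : HasDerivAt p p' t) : HasDerivAt (fun t => F (p t)) (∑ i, G i (p t) * p' i) t := by
  have h1 := (h.F_diff (p t)).comp_hasDerivAt t hp
  refine h1.congr_deriv ?_
  simp

lemma RegD.coord (h : RegD F G H) (g : ι → ℝ) (i : ι) (t : ℝ) :
    HasDerivAt (fun t => F (Function.update g i t)) (G i (Function.update g i t)) t := by
  refine (h.path (hasDerivAt_update g i t)).congr_deriv ?_
  rw [Finset.sum_eq_single i]
  · simp
  · intro j _ hj
    simp [Pi.single_eq_of_ne hj]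
  · intro hi
    exact absurd (Finset.mem_univ i) hi

omit [DecidableEq ι] in
lemma unif_bd (hG : ∀ i, Dom (G i)) : ∃ C k : ℝ, 0 ≤ C ∧ 0 ≤ k ∧
    ∀ i g, |G i g| ≤ C * Real.exp (k * ∑ j, |g j|) := by
  choose C k hC hk hb using fun i => (hG i).bound
  refine ⟨∑ i, C i, ∑ i, k i, Finset.sum_nonneg fun i _ => hC i,
    Finset.sum_nonneg fun i _ => hk i, fun i g => (hb i g).trans ?_⟩
  have h1 : C i ≤ ∑ i, C i := Finset.single_le_sum (fun j _ => hC j) (Finset.mem_univ i)
  have h2 : k i ≤ ∑ i, k i := Finset.single_le_sum (fun j _ => hk j) (Finset.mem_univ i)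
  have h3 := sum_abs_nonneg g
  exact mul_le_mul h1 (Real.exp_le_exp.2 (mul_le_mul_of_nonneg_right h2 h3))
    (Real.exp_pos _).le ((hC i).trans h1)

omit [DecidableEq ι] in
lemma lin_bd' {D : ℝ} (hD : 0 ≤ D) (θ : ℝ) (z x y : ι → ℝ) (hG : ∀ i, |G i z| ≤ D) :
    |∑ i, G i z * (-Real.sin θ * x i + Real.cos θ * y i)| ≤
      D * (∑ i, |x i| + ∑ i, |y i|) := by
  refine (Finset.abs_sum_le_sum_abs _ _).trans ?_
  rw [← Finset.sum_add_distrib, Finset.mul_sum]
  refine Finset.sum_le_sum fun i _ => ?_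
  rw [abs_mul]
  refine mul_le_mul (hG i) ?_ (abs_nonneg _) hD
  refine (abs_add_le _ _).trans ?_
  rw [abs_mul, abs_mul, abs_neg]
  have h1 := mul_le_mul_of_nonneg_right (Real.abs_sin_le_one θ) (abs_nonneg (x i))
  have h2 := mul_le_mul_of_nonneg_right (Real.abs_cos_le_one θ) (abs_nonneg (y i))
  linarith

lemma dom_combD (h : RegD F G H) (θ : ℝ) :
    Dom (dK F G θ) := by
  have hc := Real.abs_cos_le_one θ
  have hs := Real.abs_sin_le_one θ
  unfold dK
  refine Dom.add (Dom.mul (Dom.sum _ fun i _ => Dom.mul (dom_uv (h.G_dom i) hc hs) ?_)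
    (dom_uw h.F_dom hc hs)) (Dom.mul (dom_uv h.F_dom hc hs)
    (Dom.sum _ fun i _ => Dom.mul (dom_uw (h.G_dom i) hc hs) ?_))
  · exact ((Dom.coord (Sum.inl i)).const_mul _).add ((Dom.coord (Sum.inr (Sum.inl i))).const_mul _)
  · exact ((Dom.coord (Sum.inl i)).const_mul _).add ((Dom.coord (Sum.inr (Sum.inr i))).const_mul _)

lemma kk_deriv_aux (h : RegD F G H) (θ : ℝ) :
    HasDerivAt (KK F) (∫ g, dK F G θ g ∂(gpi (J3 ι))) θ := by
  obtain ⟨C, k, hC, hk, hb⟩ := h.F_dom.bound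
  obtain ⟨C', k', hC', hk', hB⟩ := unif_bd h.G_dom
  have key := hasDerivAt_integral_of_dominated_loc_of_deriv_le (μ := gpi (J3 ι)) (𝕜 := ℝ)
    (F := fun θ (g : J3 ι → ℝ) => F (mix (Real.cos θ) (Real.sin θ) (pu g) (pv g)) *
      F (mix (Real.cos θ) (Real.sin θ) (pu g) (pw g)))
    (F' := fun θ g => dK F G θ g) (x₀ := θ)
    (s := Metric.ball θ 1)
    (bound := fun g => 2 * (((C' * Real.exp (k' * ∑ j, |g j|)) * ∑ j, |g j|) *
      (C * Real.exp (k * ∑ j, |g j|))))
    (Metric.ball_mem_nhds θ one_pos)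
    (Filter.Eventually.of_forall fun y => ((dom_uv h.F_dom (Real.abs_cos_le_one y)
      (Real.abs_sin_le_one y)).mul (dom_uw h.F_dom (Real.abs_cos_le_one y)
      (Real.abs_sin_le_one y))).cont.aestronglyMeasurable)
    ((dom_uv h.F_dom (Real.abs_cos_le_one θ) (Real.abs_sin_le_one θ)).mul
      (dom_uw h.F_dom (Real.abs_cos_le_one θ) (Real.abs_sin_le_one θ))).integrable
    (dom_combD h θ).cont.aestronglyMeasurable
    (Filter.Eventually.of_forall fun g y _ => by
      rw [Real.norm_eq_abs]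
      have hc := Real.abs_cos_le_one y
      have hs := Real.abs_sin_le_one y
      have hS : 0 ≤ ∑ j, |g j| := sum_abs_nonneg g
      have f1 : |F (mix (Real.cos y) (Real.sin y) (pu g) (pv g))| ≤
          C * Real.exp (k * ∑ j, |g j|) := by
        refine (hb _).trans ?_
        have := sum_uv_le hc hs g
        gcongr
      have f2 : |F (mix (Real.cos y) (Real.sin y) (pu g) (pw g))| ≤
          C * Real.exp (k * ∑ j, |g j|) := by
        refine (hb _).trans ?_
        have := sum_uw_le hc hs g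
        gcongr
      have hD : 0 ≤ C' * Real.exp (k' * ∑ j, |g j|) := by positivity
      have g1 : ∀ i, |G i (mix (Real.cos y) (Real.sin y) (pu g) (pv g))| ≤
          C' * Real.exp (k' * ∑ j, |g j|) := fun i => by
        refine (hB i _).trans ?_
        have := sum_uv_le hc hs g
        gcongr
      have g2 : ∀ i, |G i (mix (Real.cos y) (Real.sin y) (pu g) (pw g))| ≤
          C' * Real.exp (k' * ∑ j, |g j|) := fun i => by
        refine (hB i _).trans ?_
        have := sum_uw_le hc hs g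
        gcongr
      have l1 := lin_bd' hD y (mix (Real.cos y) (Real.sin y) (pu g) (pv g))
        (pu g) (pv g) g1
      have l2 := lin_bd' hD y (mix (Real.cos y) (Real.sin y) (pu g) (pw g))
        (pu g) (pw g) g2
      have e1 : ∑ i, |pu g i| + ∑ i, |pv g i| ≤ ∑ j, |g j| := by
        rw [sum_J3]; linarith [sum_abs_nonneg (pw g)]
      have e2 : ∑ i, |pu g i| + ∑ i, |pw g i| ≤ ∑ j, |g j| := by
        rw [sum_J3]; linarith [sum_abs_nonneg (pv g)]
      have l1' := l1.trans (mul_le_mul_of_nonneg_left e1 hD)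
      have l2' := l2.trans (mul_le_mul_of_nonneg_left e2 hD)
      unfold dK
      refine (abs_add_le _ _).trans ?_
      rw [abs_mul, abs_mul]
      have q1 := mul_le_mul l1' f2 (abs_nonneg _) (by (clear * - hC'; positivity))
      have q2 := mul_le_mul f1 l2' (abs_nonneg _) (by positivity)
      linarith)
    (by
      have hd : Dom (fun g : J3 ι → ℝ =>
          2 * (((C' * Real.exp (k' * ∑ j, |g j|)) * ∑ j, |g j|) *
            (C * Real.exp (k * ∑ j, |g j|)))) :=
        (((Dom.exp_mul_sum C' k' hC' hk').mul Dom.sumabs).mul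
          (Dom.exp_mul_sum C k hC hk)).const_mul 2
      exact hd.integrable)
    (Filter.Eventually.of_forall fun g y _ => by
      have p1 := h.path (hasDerivAt_mix (pu g) (pv g) y)
      have p2 := h.path (hasDerivAt_mix (pu g) (pw g) y)
      exact p1.mul p2)
  exact key.2

/-- integration by parts, first copy -/
lemma ibp_uvD (h : RegD F G H) {c s : ℝ} (hc : |c| ≤ 1) (hs : |s| ≤ 1) (i : ι) :
    ∫ g : J3 ι → ℝ, (G i (mix c s (pu g) (pv g)) * (-s * pu g i + c * pv g i)) *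
        F (mix c s (pu g) (pw g)) ∂(gpi (J3 ι)) =
      -(s * c) * ∫ g : J3 ι → ℝ, G i (mix c s (pu g) (pv g)) * G i (mix c s (pu g) (pw g))
        ∂(gpi (J3 ι)) := by
  have dGa : Dom (fun g : J3 ι → ℝ => G i (mix c s (pu g) (pv g))) := dom_uv (h.G_dom i) hc hs
  have dHa : Dom (fun g : J3 ι → ℝ => H i (mix c s (pu g) (pv g))) := dom_uv (h.H_dom i) hc hs
  have dFb : Dom (fun g : J3 ι → ℝ => F (mix c s (pu g) (pw g))) := dom_uw h.F_dom hc hs
  have dGb : Dom (fun g : J3 ι → ℝ => G i (mix c s (pu g) (pw g))) := dom_uw (h.G_dom i) hc hs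
  have i1 : ∫ g : J3 ι → ℝ, g (Sum.inl i) * (G i (mix c s (pu g) (pv g)) *
      F (mix c s (pu g) (pw g))) ∂(gpi (J3 ι)) =
      ∫ g : J3 ι → ℝ, (c * (H i (mix c s (pu g) (pv g)) * F (mix c s (pu g) (pw g))) +
        c * (G i (mix c s (pu g) (pv g)) * G i (mix c s (pu g) (pw g)))) ∂(gpi (J3 ι)) := by
    refine ibp (Sum.inl i) (dGa.mul dFb) (((dHa.mul dFb).const_mul c).add
      ((dGa.mul dGb).const_mul c)) fun g t => ?_
    simp only [pu_u, pv_u, pw_u, mix_upd_left]
    have d1 := comp_upd (f := G i) (f' := H i) (i := i) (z := mix c s (pu g) (pv g))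
      (fun t => h.G_diff i _ t) (lin_deriv c (s * pv g i) t)
    have d2 := comp_upd (f := F) (f' := G i) (i := i) (z := mix c s (pu g) (pw g))
      (fun t => h.coord _ i t) (lin_deriv c (s * pw g i) t)
    refine (d1.mul d2).congr_deriv ?_
    ring
  have i2 : ∫ g : J3 ι → ℝ, g (Sum.inr (Sum.inl i)) * (G i (mix c s (pu g) (pv g)) *
      F (mix c s (pu g) (pw g))) ∂(gpi (J3 ι)) =
      ∫ g : J3 ι → ℝ, s * (H i (mix c s (pu g) (pv g)) * F (mix c s (pu g) (pw g)))
        ∂(gpi (J3 ι)) := by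
    refine ibp (Sum.inr (Sum.inl i)) (dGa.mul dFb) ((dHa.mul dFb).const_mul s) fun g t => ?_
    simp only [pu_v, pv_v, pw_v, mix_upd_right]
    have d1 := comp_upd (f := G i) (f' := H i) (i := i) (z := mix c s (pu g) (pv g))
      (fun t => h.G_diff i _ t) (lin_deriv' s (c * pu g i) t)
    refine (d1.mul_const _).congr_deriv ?_
    ring
  have e0 : ∀ g : J3 ι → ℝ, (G i (mix c s (pu g) (pv g)) * (-s * pu g i + c * pv g i)) *
        F (mix c s (pu g) (pw g)) =
      (-s) * (g (Sum.inl i) * (G i (mix c s (pu g) (pv g)) * F (mix c s (pu g) (pw g)))) +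
      c * (g (Sum.inr (Sum.inl i)) * (G i (mix c s (pu g) (pv g)) *
        F (mix c s (pu g) (pw g)))) := by
    intro g
    unfold pu pv
    ring
  simp_rw [e0]
  rw [int_add (((Dom.coord _).mul (dGa.mul dFb)).const_mul _)
    (((Dom.coord _).mul (dGa.mul dFb)).const_mul _), integral_const_mul, integral_const_mul,
    i1, i2, int_add ((dHa.mul dFb).const_mul c) ((dGa.mul dGb).const_mul c),
    integral_const_mul, integral_const_mul, integral_const_mul]
  ring

/-- integration by parts, second copy -/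
lemma ibp_uwD (h : RegD F G H) {c s : ℝ} (hc : |c| ≤ 1) (hs : |s| ≤ 1) (i : ι) :
    ∫ g : J3 ι → ℝ, F (mix c s (pu g) (pv g)) *
        (G i (mix c s (pu g) (pw g)) * (-s * pu g i + c * pw g i)) ∂(gpi (J3 ι)) =
      -(s * c) * ∫ g : J3 ι → ℝ, G i (mix c s (pu g) (pv g)) * G i (mix c s (pu g) (pw g))
        ∂(gpi (J3 ι)) := by
  have dGa : Dom (fun g : J3 ι → ℝ => G i (mix c s (pu g) (pv g))) := dom_uv (h.G_dom i) hc hs
  have dFa : Dom (fun g : J3 ι → ℝ => F (mix c s (pu g) (pv g))) := dom_uv h.F_dom hc hs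
  have dHb : Dom (fun g : J3 ι → ℝ => H i (mix c s (pu g) (pw g))) := dom_uw (h.H_dom i) hc hs
  have dGb : Dom (fun g : J3 ι → ℝ => G i (mix c s (pu g) (pw g))) := dom_uw (h.G_dom i) hc hs
  have i1 : ∫ g : J3 ι → ℝ, g (Sum.inl i) * (F (mix c s (pu g) (pv g)) *
      G i (mix c s (pu g) (pw g))) ∂(gpi (J3 ι)) =
      ∫ g : J3 ι → ℝ, (c * (F (mix c s (pu g) (pv g)) * H i (mix c s (pu g) (pw g))) +
        c * (G i (mix c s (pu g) (pv g)) * G i (mix c s (pu g) (pw g)))) ∂(gpi (J3 ι)) := by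
    refine ibp (Sum.inl i) (dFa.mul dGb) (((dFa.mul dHb).const_mul c).add
      ((dGa.mul dGb).const_mul c)) fun g t => ?_
    simp only [pu_u, pv_u, pw_u, mix_upd_left]
    have d1 := comp_upd (f := G i) (f' := H i) (i := i) (z := mix c s (pu g) (pw g))
      (fun t => h.G_diff i _ t) (lin_deriv c (s * pw g i) t)
    have d2 := comp_upd (f := F) (f' := G i) (i := i) (z := mix c s (pu g) (pv g))
      (fun t => h.coord _ i t) (lin_deriv c (s * pv g i) t)
    refine (d2.mul d1).congr_deriv ?_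
    ring
  have i2 : ∫ g : J3 ι → ℝ, g (Sum.inr (Sum.inr i)) * (F (mix c s (pu g) (pv g)) *
      G i (mix c s (pu g) (pw g))) ∂(gpi (J3 ι)) =
      ∫ g : J3 ι → ℝ, s * (F (mix c s (pu g) (pv g)) * H i (mix c s (pu g) (pw g)))
        ∂(gpi (J3 ι)) := by
    refine ibp (Sum.inr (Sum.inr i)) (dFa.mul dGb) ((dFa.mul dHb).const_mul s) fun g t => ?_
    simp only [pu_w, pv_w, pw_w, mix_upd_right]
    have d1 := comp_upd (f := G i) (f' := H i) (i := i) (z := mix c s (pu g) (pw g))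
      (fun t => h.G_diff i _ t) (lin_deriv' s (c * pu g i) t)
    refine (d1.const_mul _).congr_deriv ?_
    ring
  have e0 : ∀ g : J3 ι → ℝ, F (mix c s (pu g) (pv g)) *
        (G i (mix c s (pu g) (pw g)) * (-s * pu g i + c * pw g i)) =
      (-s) * (g (Sum.inl i) * (F (mix c s (pu g) (pv g)) * G i (mix c s (pu g) (pw g)))) +
      c * (g (Sum.inr (Sum.inr i)) * (F (mix c s (pu g) (pv g)) *
        G i (mix c s (pu g) (pw g)))) := by
    intro g
    unfold pu pw
    ring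
  simp_rw [e0]
  rw [int_add (((Dom.coord _).mul (dFa.mul dGb)).const_mul _)
    (((Dom.coord _).mul (dFa.mul dGb)).const_mul _), integral_const_mul, integral_const_mul,
    i1, i2, int_add ((dFa.mul dHb).const_mul c) ((dGa.mul dGb).const_mul c),
    integral_const_mul, integral_const_mul, integral_const_mul]
  ring

lemma int_dKD (h : RegD F G H) (θ : ℝ) :
    ∫ g, dK F G θ g ∂(gpi (J3 ι)) = -(2 * Real.sin θ * Real.cos θ) * phi G θ := by
  have hc := Real.abs_cos_le_one θ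
  have hs := Real.abs_sin_le_one θ
  have dl1 : ∀ i, Dom (fun g : J3 ι → ℝ => -Real.sin θ * pu g i + Real.cos θ * pv g i) :=
    fun i => ((Dom.coord (Sum.inl i)).const_mul _).add
      ((Dom.coord (Sum.inr (Sum.inl i))).const_mul _)
  have dl2 : ∀ i, Dom (fun g : J3 ι → ℝ => -Real.sin θ * pu g i + Real.cos θ * pw g i) :=
    fun i => ((Dom.coord (Sum.inl i)).const_mul _).add
      ((Dom.coord (Sum.inr (Sum.inr i))).const_mul _)
  have d1 : ∀ i, Dom (fun g : J3 ι → ℝ =>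
      (G i (mix (Real.cos θ) (Real.sin θ) (pu g) (pv g)) *
      (-Real.sin θ * pu g i + Real.cos θ * pv g i)) *
      F (mix (Real.cos θ) (Real.sin θ) (pu g) (pw g))) := fun i =>
    ((dom_uv (h.G_dom i) hc hs).mul (dl1 i)).mul (dom_uw h.F_dom hc hs)
  have d2 : ∀ i, Dom (fun g : J3 ι → ℝ =>
      F (mix (Real.cos θ) (Real.sin θ) (pu g) (pv g)) *
      (G i (mix (Real.cos θ) (Real.sin θ) (pu g) (pw g)) *
      (-Real.sin θ * pu g i + Real.cos θ * pw g i))) := fun i =>
    (dom_uv h.F_dom hc hs).mul ((dom_uw (h.G_dom i) hc hs).mul (dl2 i))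
  unfold dK
  simp_rw [Finset.sum_mul, Finset.mul_sum]
  rw [int_add (Dom.sum _ fun i _ => d1 i) (Dom.sum _ fun i _ => d2 i),
    int_sum _ fun i _ => d1 i, int_sum _ fun i _ => d2 i]
  unfold phi
  rw [int_sum _ fun i _ => (dom_uv (h.G_dom i) hc hs).mul (dom_uw (h.G_dom i) hc hs),
    Finset.mul_sum, ← Finset.sum_add_distrib]
  refine Finset.sum_congr rfl fun i _ => ?_
  rw [ibp_uvD h hc hs i, ibp_uwD h hc hs i]
  ring

theorem kk_deriv (h : RegD F G H) (θ : ℝ) :
    HasDerivAt (KK F) (-(2 * Real.sin θ * Real.cos θ) * phi G θ) θ := by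
  rw [← int_dKD h]
  exact kk_deriv_aux h θ

theorem var_le_phi (h : RegD F G H) {A M : ℝ} (hA : ∀ θ, Real.sin θ ^ 2 * phi G θ ≤ A)
    (hM : ∀ θ, phi G θ ≤ M) {u : ℝ} (hu : 0 < u) (hu1 : u ≤ 1) :
    ∫ g, F g ^ 2 ∂(gpi ι) - (∫ g, F g ∂(gpi ι)) ^ 2 ≤ M * u + A * (-Real.log u) := by
  have b1 := hA
  have b2 := hM
  have hpi : (0 : ℝ) ≤ Real.pi / 2 := by positivity
  have dsq : ∀ θ, HasDerivAt (fun θ => Real.sin θ ^ 2) (2 * Real.sin θ * Real.cos θ) θ := by
    intro θ
    refine ((Real.hasDerivAt_sin θ).fun_pow 2).congr_deriv ?_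
    simp
  have sc : ∀ θ, 0 ≤ θ → θ ≤ Real.pi / 2 → 0 ≤ Real.sin θ ∧ 0 ≤ Real.cos θ := fun θ h0 h1 =>
    ⟨Real.sin_nonneg_of_nonneg_of_le_pi h0 (by linarith [Real.pi_pos]),
      Real.cos_nonneg_of_neg_pi_div_two_le_of_le (by linarith [Real.pi_pos]) h1⟩
  -- the angle
  set t := Real.arcsin (√u) with ht
  have hsu : 0 < √u := Real.sqrt_pos.2 hu
  have hsu1 : √u ≤ 1 := by
    rw [Real.sqrt_le_iff]; constructor <;> linarith
  have hst : Real.sin t = √u := Real.sin_arcsin (by linarith) hsu1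
  have hst2 : Real.sin t ^ 2 = u := by rw [hst, Real.sq_sqrt hu.le]
  have ht0 : 0 < t := Real.arcsin_pos.2 hsu
  have ht1 : t ≤ Real.pi / 2 := Real.arcsin_le_pi_div_two _
  -- first piece
  have p1 : KK F 0 ≤ KK F t + M * u := by
    set D : ℝ → ℝ := fun θ => KK F θ + M * Real.sin θ ^ 2 with hD
    have dD : ∀ θ, HasDerivAt D (-(2 * Real.sin θ * Real.cos θ) * phi G θ +
        M * (2 * Real.sin θ * Real.cos θ)) θ := fun θ =>
      (kk_deriv h θ).add ((dsq θ).const_mul M)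
    have mono : MonotoneOn D (Set.Icc 0 t) := by
      refine monotoneOn_of_deriv_nonneg (convex_Icc _ _)
        (fun θ _ => (dD θ).continuousAt.continuousWithinAt)
        (fun θ _ => (dD θ).differentiableAt.differentiableWithinAt) fun θ hθ => ?_
      rw [interior_Icc] at hθ
      rw [(dD θ).deriv]
      obtain ⟨s0, c0⟩ := sc θ hθ.1.le (hθ.2.le.trans ht1)
      have h5 : -(2 * Real.sin θ * Real.cos θ) * phi G θ +
          M * (2 * Real.sin θ * Real.cos θ) =
          (2 * Real.sin θ * Real.cos θ) * (M - phi G θ) := by ring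
      rw [h5]
      exact mul_nonneg (by positivity) (by linarith [b2 θ])
    have h6 := mono (Set.left_mem_Icc.2 ht0.le) (Set.right_mem_Icc.2 ht0.le) ht0.le
    simp only [hD] at h6
    rw [hst2, Real.sin_zero] at h6
    linarith
  -- second piece
  have p2 : KK F t ≤ KK F (Real.pi / 2) + A * (-Real.log u) := by
    set D : ℝ → ℝ := fun θ => KK F θ + A * Real.log (Real.sin θ ^ 2) with hD
    have spos : ∀ θ ∈ Set.Icc t (Real.pi / 2), 0 < Real.sin θ := fun θ hθ =>
      Real.sin_pos_of_pos_of_lt_pi (ht0.trans_le hθ.1) (by linarith [hθ.2, Real.pi_pos])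
    have dD : ∀ θ ∈ Set.Icc t (Real.pi / 2), HasDerivAt D
        (-(2 * Real.sin θ * Real.cos θ) * phi G θ +
        A * ((2 * Real.sin θ * Real.cos θ) / Real.sin θ ^ 2)) θ := fun θ hθ =>
      (kk_deriv h θ).add (((dsq θ).log (pow_pos (spos θ hθ) 2).ne').const_mul A)
    have mono : MonotoneOn D (Set.Icc t (Real.pi / 2)) := by
      refine monotoneOn_of_deriv_nonneg (convex_Icc _ _)
        (fun θ hθ => (dD θ hθ).continuousAt.continuousWithinAt)
        (fun θ hθ => (dD θ (interior_subset hθ)).differentiableAt.differentiableWithinAt)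
        fun θ hθ => ?_
      have hθ' := interior_subset hθ
      rw [(dD θ hθ').deriv]
      obtain ⟨s0, c0⟩ := sc θ (ht0.le.trans hθ'.1) hθ'.2
      have s1 := spos θ hθ'
      have h4 : phi G θ ≤ A / Real.sin θ ^ 2 := by
        rw [le_div_iff₀ (pow_pos s1 2)]
        linarith [b1 θ]
      have h5 : -(2 * Real.sin θ * Real.cos θ) * phi G θ +
          A * ((2 * Real.sin θ * Real.cos θ) / Real.sin θ ^ 2) =
          (2 * Real.sin θ * Real.cos θ) * (A / Real.sin θ ^ 2 - phi G θ) := by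
        field_simp
        ring
      rw [h5]
      exact mul_nonneg (by positivity) (by linarith)
    have h6 := mono (Set.left_mem_Icc.2 ht1) (Set.right_mem_Icc.2 ht1) ht1
    simp only [hD] at h6
    rw [hst2, Real.sin_pi_div_two] at h6
    norm_num at h6
    linarith
  rw [KK_zero h.F_dom] at p1
  rw [KK_pi h.F_dom] at p2
  linarith

omit [DecidableEq ι] in
lemma mp_uw : MeasurePreserving (fun g : J3 ι → ℝ => (pu g, pw g)) (gpi (J3 ι))
    ((gpi ι).prod (gpi ι)) := by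
  have h1 : MeasurePreserving (Prod.map id Prod.snd :
      (ι → ℝ) × ((ι → ℝ) × (ι → ℝ)) → (ι → ℝ) × (ι → ℝ))
      ((gpi ι).prod ((gpi ι).prod (gpi ι))) ((gpi ι).prod (gpi ι)) :=
    (MeasurePreserving.id (gpi ι)).prod measurePreserving_snd
  exact h1.comp mp3

omit [DecidableEq ι] in
theorem phi_le_sq (hG : ∀ i, Dom (G i)) (θ : ℝ) :
    phi G θ ≤ ∫ g, ∑ i, G i g ^ 2 ∂(gpi ι) := by
  have hc := Real.abs_cos_le_one θ
  have hs := Real.abs_sin_le_one θ
  have hcs : Real.cos θ ^ 2 + Real.sin θ ^ 2 = 1 := Real.cos_sq_add_sin_sq θ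
  have dS : Dom (fun g : ι → ℝ => ∑ i, G i g ^ 2) := by
    have : Dom (fun g : ι → ℝ => ∑ i, G i g * G i g) := Dom.sum _ fun i _ => (hG i).mul (hG i)
    simpa only [sq] using this
  have m1 : ∫ g : J3 ι → ℝ, ∑ i, G i (mix (Real.cos θ) (Real.sin θ) (pu g) (pv g)) ^ 2
      ∂(gpi (J3 ι)) = ∫ g, ∑ i, G i g ^ 2 ∂(gpi ι) := by
    have h1 := (mp_mix (ι := ι) hcs).comp (mp_uv (ι := ι))
    conv_rhs => rw [← h1.map_eq]
    rw [integral_map h1.measurable.aemeasurable]
    · rfl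
    · rw [h1.map_eq]
      exact dS.cont.aestronglyMeasurable
  have m2 : ∫ g : J3 ι → ℝ, ∑ i, G i (mix (Real.cos θ) (Real.sin θ) (pu g) (pw g)) ^ 2
      ∂(gpi (J3 ι)) = ∫ g, ∑ i, G i g ^ 2 ∂(gpi ι) := by
    have h1 := (mp_mix (ι := ι) hcs).comp (mp_uw (ι := ι))
    conv_rhs => rw [← h1.map_eq]
    rw [integral_map h1.measurable.aemeasurable]
    · rfl
    · rw [h1.map_eq]
      exact dS.cont.aestronglyMeasurable
  have d1 := dom_uv dS hc hs
  have d2 := dom_uw dS hc hs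
  have h1 : phi G θ ≤ ∫ g : J3 ι → ℝ,
      ((1 / 2 : ℝ) * ∑ i, G i (mix (Real.cos θ) (Real.sin θ) (pu g) (pv g)) ^ 2 +
      (1 / 2 : ℝ) * ∑ i, G i (mix (Real.cos θ) (Real.sin θ) (pu g) (pw g)) ^ 2)
      ∂(gpi (J3 ι)) := by
    refine int_mono (Dom.sum _ fun i _ => (dom_uv (hG i) hc hs).mul (dom_uw (hG i) hc hs))
      ((d1.const_mul _).add (d2.const_mul _)) fun g => ?_
    rw [← mul_add, ← Finset.sum_add_distrib, Finset.mul_sum]
    refine Finset.sum_le_sum fun i _ => ?_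
    linarith only [sq_nonneg (G i (mix (Real.cos θ) (Real.sin θ) (pu g) (pv g)) - G i (mix (Real.cos θ) (Real.sin θ) (pu g) (pw g)))]
  rw [int_add (d1.const_mul _) (d2.const_mul _), integral_const_mul, integral_const_mul,
    m1, m2] at h1
  linarith

theorem regD_exp (h : Reg F G H B) (hF : Lin F) (a : ℝ) :
    RegD (fun g => Real.exp (a * F g)) (fun i g => a * G i g * Real.exp (a * F g))
      (fun i g => (a * H i g + (a * G i g) ^ 2) * Real.exp (a * F g)) := by
  have dE : Dom (fun g => Real.exp (a * F g)) := (hF.const_mul a).dom_exp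
  refine ⟨dE, fun i => ((h.G_dom i).const_mul a).mul dE, fun i => ?_, fun g => ?_,
    fun i g t => ?_⟩
  · have h1 : Dom (fun g => (a * G i g) * (a * G i g)) :=
      ((h.G_dom i).const_mul a).mul ((h.G_dom i).const_mul a)
    have h2 := (((h.H_dom i).const_mul a).add h1).mul dE
    simpa only [sq] using h2
  · have h1 := ((h.F_diff g).const_mul a).exp
    refine h1.congr_fderiv ?_
    rw [Finset.smul_sum, Finset.smul_sum]
    refine Finset.sum_congr rfl fun i _ => ?_
    rw [smul_smul, smul_smul]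
    congr 1
    ring
  · have h1 := (h.G_diff i g t).const_mul a
    have h2 := ((h.coord g i t).const_mul a).exp
    refine (h1.mul h2).congr_deriv ?_
    ring

end KK

end Vale.Agent.P146.Ce
end
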