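import Mathlib
import Vale.Agent.P146.Bdl.B34
import Vale.Agent.P146.Bd3.B1
import Vale.Agent.P146.Bdl.B5

set_option linter.all false

section

/-!
# P367, classical half, section SUM: full replica symmetry breaking from the other sections

`SumHyp b` collects the statements of the sections FRep, FBlk, FVar, FReal that are used.
-/

open MeasureTheory ProbabilityTheory Filter Topology Set

namespace Vale.Agent.P367.Cl

open Vale.Agent.P157.Par
open Vale.Agent.P146.Gap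
open Vale.Agent.P146.Pw2

/-- The statements of the other sections. -/
structure SumHyp (b : ℝ) : Prop where
  m2 : ∀ (n l : ℕ) (m r : ℕ → ℝ) (t : ℝ), Exponents n m → Path n r → r 0 = 0 → l < n →
    t ∈ Icc 0 (r (l + 1) - r l) → 0 < r l + t → 0 ≤ M2b n m r l t
  rd : ∀ (n l : ℕ) (m r : ℕ → ℝ) (t : ℝ), Exponents n m → Path n r → l < n →
    t ∈ Ioo 0 (r (l + 1) - r l) → HasDerivAt (Rb n m r l) (Mb n m r l t) t
  md : ∀ (n l : ℕ) (m r : ℕ → ℝ) (t : ℝ), Exponents n m → Path n r → l < n →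
    t ∈ Ioo 0 (r (l + 1) - r l) → HasDerivAt (Mb n m r l) (M1b n m r l t) t
  m1d : ∀ (n l : ℕ) (m r : ℕ → ℝ) (t : ℝ), Exponents n m → Path n r → l < n →
    t ∈ Ioo 0 (r (l + 1) - r l) → HasDerivAt (M1b n m r l) (M2b n m r l t) t
  rc : ∀ (n l : ℕ) (m r : ℕ → ℝ), Exponents n m → Path n r → l < n →
    ContinuousOn (Rb n m r l) (Icc 0 (r (l + 1) - r l))
  mc : ∀ (n l : ℕ) (m r : ℕ → ℝ), Exponents n m → Path n r → l < n →
    ContinuousOn (Mb n m r l) (Icc 0 (r (l + 1) - r l))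
  r0 : ∀ (n l : ℕ) (m r : ℕ → ℝ), Exponents n m → Path n r → l < n →
    Rb n m r l 0 = spR n m r l
  rv : ∀ (n l : ℕ) (m r : ℕ → ℝ), Exponents n m → Path n r → l < n →
    Rb n m r l (r (l + 1) - r l) = spR n m r (l + 1)
  m0 : ∀ (n l : ℕ) (m r : ℕ → ℝ), Exponents n m → Path n r → l < n →
    Mb n m r l 0 = Ml n m r l
  mv : ∀ (n l : ℕ) (m r : ℕ → ℝ), Exponents n m → Path n r → l < n →
    Mb n m r l (r (l + 1) - r l) = Ml n m r (l + 1)
  low : ∀ (n l : ℕ) (m r : ℕ → ℝ) (t : ℝ), Exponents n m → Path n r → l < n →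
    t ∈ Icc 0 (r (l + 1) - r l) → -(2 * m (l + 1)) ≤ M1b n m r l t
  bd : ∃ C : ℝ, 1 ≤ C ∧ ∀ (n : ℕ) (m r : ℕ → ℝ), Exponents n m → BPath b n r →
    ∀ l < n, ∀ t ∈ Icc 0 (r (l + 1) - r l), |M1b n m r l t| ≤ C
  up : ∃ C : ℝ, 1 ≤ C ∧ ∀ (n : ℕ) (r : ℕ → ℝ) (l : ℕ),
    IsMin b n (gm n) r → 1 ≤ l → l < n → ∀ t ∈ Icc 0 (r (l + 1) - r l),
      ∫ s in (0 : ℝ)..t, (Rb n (gm n) r l s - (r l + s) / b ^ 2) ≤ C / (n + 1) * t ^ 2
  down : ∃ C : ℝ, 1 ≤ C ∧ ∀ (n : ℕ) (r : ℕ → ℝ) (l : ℕ),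
    IsMin b n (gm n) r → l < n → ∀ t ∈ Icc 0 (r (l + 1) - r l),
      -(C / (n + 1) * (r (l + 1) - r l - t) ^ 2) ≤
        ∫ s in t..(r (l + 1) - r l), (Rb n (gm n) r l s - (r l + s) / b ^ 2)
  block : ∀ {C S : ℝ}, 1 ≤ C → 0 < S → ∃ C' : ℝ, 1 ≤ C' ∧
    ∀ (V d : ℝ) (f k k1 k2 : ℝ → ℝ), 0 < V → V ≤ S → 0 ≤ d → d ≤ 1 →
      ContinuousOn f (Icc 0 V) → ContinuousOn k (Icc 0 V) →
      (∀ t ∈ Ioo 0 V, HasDerivAt f (k t) t) → (∀ t ∈ Ioo 0 V, HasDerivAt k (k1 t) t) →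
      (∀ t ∈ Ioo 0 V, HasDerivAt k1 (k2 t) t) → (∀ t ∈ Ioo 0 V, 0 ≤ k2 t) →
      (∀ t ∈ Ioo 0 V, |k1 t| ≤ C) → f 0 = 0 → f V = 0 →
      (∀ t ∈ Icc 0 V, ∫ s in (0 : ℝ)..t, f s ≤ C * d * V ^ 2) →
      (∀ t ∈ Icc 0 V, -(C * d * V ^ 2) ≤ ∫ s in t..V, f s) →
      ∫ t in (0 : ℝ)..V, |k t| ≤ C' * √d * V
  first : ∀ {V d : ℝ} {f k k1 : ℝ → ℝ}, 0 < V → 0 ≤ d →
    ContinuousOn f (Icc 0 V) → ContinuousOn k (Icc 0 V) →
    (∀ t ∈ Ioo 0 V, HasDerivAt f (k t) t) → (∀ t ∈ Ioo 0 V, HasDerivAt k (k1 t) t) →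
    (∀ t ∈ Ioo 0 V, -(2 * d) ≤ k1 t) → f 0 = 0 → f V = 0 →
    ∀ t ∈ Icc 0 V, ∫ s in (0 : ℝ)..t, f s ≤ 2 * d * V ^ 3

/-- one block -/
theorem sum_block {b : ℝ} (hb : 1 < b) (H : SumHyp b) : ∃ C : ℝ, 1 ≤ C ∧ ∀ (n : ℕ) (r : ℕ → ℝ),
    IsMin b n (gm n) r → ∀ l < n, ∫ t in (0 : ℝ)..(r (l + 1) - r l),
      |Mb n (gm n) r l t - 1 / b ^ 2| ≤ C * √(1 / ((n : ℝ) + 1)) * (r (l + 1) - r l) := by
  have hb0 : 0 < b := by linarith
  have hb2 : 0 < b ^ 2 := by positivity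
  obtain ⟨C1, hC1, h1⟩ := H.bd
  obtain ⟨C2, hC2, h2⟩ := H.up
  obtain ⟨C3, hC3, h3⟩ := H.down
  obtain ⟨C, hCd⟩ : ∃ C, C = C1 + C2 + C3 + 2 * b ^ 2 := ⟨_, rfl⟩
  obtain ⟨C', hC', hblk⟩ := H.block (C := C) (S := b ^ 2) (by rw [hCd]; linarith) hb2
  refine ⟨C', hC', fun n r hr l hl => ?_⟩
  have hm := gm_exponents n
  have hBP := hr.1
  have hpath := hBP.2.1
  have hr0 := hBP.1
  have hfix := stat_fix hb0 hm hr.1 hr.2
  have hn0 : (0 : ℝ) < (n : ℝ) + 1 := by positivity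
  have hrl : 0 ≤ r l := by
    have := gapn_path_le hpath (Nat.zero_le l) hl.le
    rwa [hr0] at this
  have hrl1 : r (l + 1) ≤ b ^ 2 := (gapn_path_le hpath hl le_rfl).trans hBP.2.2
  rcases (hpath.2 l hl).eq_or_lt with heq | hlt
  · rw [← heq, sub_self, intervalIntegral.integral_same, mul_zero]
  obtain ⟨V, hV⟩ : ∃ V, V = r (l + 1) - r l := ⟨_, rfl⟩
  have hV0 : 0 < V := by rw [hV]; linarith
  have hVS : V ≤ b ^ 2 := by rw [hV]; linarith
  have hd0 : 0 ≤ 1 / ((n : ℝ) + 1) := by positivity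
  have hd1 : 1 / ((n : ℝ) + 1) ≤ 1 := by
    rw [div_le_one hn0]
    have : (0 : ℝ) ≤ n := Nat.cast_nonneg n
    linarith
  have hRc := H.rc n l (gm n) r hm hpath hl
  have hMc := H.mc n l (gm n) r hm hpath hl
  have hupper := fun t ht => h3 n r l hr hl t ht
  have hrd := fun t ht => H.rd n l (gm n) r t hm hpath hl ht
  have hmd := fun t ht => H.md n l (gm n) r t hm hpath hl ht
  have hm1d := fun t ht => H.m1d n l (gm n) r t hm hpath hl ht
  have hm2 := fun t ht => H.m2 n l (gm n) r t hm hpath hr0 hl ht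
  have hbd := h1 n (gm n) r hm hBP l hl
  have hlow := fun t ht => H.low n l (gm n) r t hm hpath hl ht
  have hf0' := H.r0 n l (gm n) r hm hpath hl
  have hfV' := H.rv n l (gm n) r hm hpath hl
  have hup := fun (h : 1 ≤ l) => h2 n r l hr h hl
  rw [← hV] at hRc hMc hupper hrd hmd hm1d hm2 hbd hlow hfV' hup ⊢
  have hfc : ContinuousOn (fun t => Rb n (gm n) r l t - (r l + t) / b ^ 2) (Icc 0 V) :=
    hRc.sub (by fun_prop)
  have hkc : ContinuousOn (fun t => Mb n (gm n) r l t - 1 / b ^ 2) (Icc 0 V) :=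
    hMc.sub continuousOn_const
  have hfd : ∀ t ∈ Ioo 0 V, HasDerivAt (fun t => Rb n (gm n) r l t - (r l + t) / b ^ 2)
      (Mb n (gm n) r l t - 1 / b ^ 2) t := by
    intro t ht
    have e1 : HasDerivAt (fun t : ℝ => (r l + t) / b ^ 2) (1 / b ^ 2) t :=
      ((hasDerivAt_id t).const_add (r l)).div_const _
    exact (hrd t ht).sub e1
  have hkd : ∀ t ∈ Ioo 0 V, HasDerivAt (fun t => Mb n (gm n) r l t - 1 / b ^ 2)
      (M1b n (gm n) r l t) t := fun t ht => (hmd t ht).sub_const _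
  have hf0 : Rb n (gm n) r l 0 - (r l + 0) / b ^ 2 = 0 := by
    rw [hf0', add_zero]
    have := hfix l hl.le
    rw [sub_eq_zero, eq_div_iff hb2.ne']
    linarith
  have hfV : Rb n (gm n) r l V - (r l + V) / b ^ 2 = 0 := by
    have e : r l + V = r (l + 1) := by rw [hV]; ring
    rw [hfV', e]
    have := hfix (l + 1) hl
    rw [sub_eq_zero, eq_div_iff hb2.ne']
    linarith
  have hb2' : 0 ≤ 2 * b ^ 2 := by positivity
  have hV2 : 0 ≤ V ^ 2 := sq_nonneg V
  refine hblk V (1 / ((n : ℝ) + 1)) (fun t => Rb n (gm n) r l t - (r l + t) / b ^ 2)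
    (fun t => Mb n (gm n) r l t - 1 / b ^ 2) (M1b n (gm n) r l) (M2b n (gm n) r l) hV0 hVS hd0 hd1
    hfc hkc hfd hkd hm1d (fun t ht => hm2 t ⟨ht.1.le, ht.2.le⟩ (by linarith [ht.1]))
    (fun t ht => (hbd t ⟨ht.1.le, ht.2.le⟩).trans (by rw [hCd]; linarith)) hf0 hfV ?_ ?_
  · intro t ht
    rcases Nat.eq_zero_or_pos l with h0 | h0
    · have e := H.first (d := 1 / ((n : ℝ) + 1)) hV0 hd0 hfc hkc hfd hkd (fun t ht => by
        have := hlow t ⟨ht.1.le, ht.2.le⟩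
        have e2 : gm n (l + 1) = 1 / ((n : ℝ) + 1) := by
          rw [h0]
          simp [gm]
        rwa [e2] at this) hf0 hfV t ht
      refine e.trans ?_
      have e3 : V ^ 3 ≤ b ^ 2 * V ^ 2 := by
        have := mul_le_mul_of_nonneg_right hVS hV2
        calc V ^ 3 = V * V ^ 2 := by ring
          _ ≤ _ := this
      have e4 := mul_le_mul_of_nonneg_left e3 (show 0 ≤ 2 * (1 / ((n : ℝ) + 1)) by positivity)
      refine e4.trans ?_
      have e5 : 2 * (1 / ((n : ℝ) + 1)) * (b ^ 2 * V ^ 2) =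
          (2 * b ^ 2) * (1 / ((n : ℝ) + 1) * V ^ 2) := by ring
      rw [e5, mul_assoc C]
      refine mul_le_mul_of_nonneg_right ?_ (by positivity)
      rw [hCd]
      linarith
    · refine (hup h0 t ht).trans ?_
      have e1 : t ^ 2 ≤ V ^ 2 := pow_le_pow_left₀ ht.1 ht.2 2
      have e2 : C2 / ((n : ℝ) + 1) * t ^ 2 ≤ C2 / ((n : ℝ) + 1) * V ^ 2 :=
        mul_le_mul_of_nonneg_left e1 (by positivity)
      refine e2.trans ?_
      have e3 : C2 / ((n : ℝ) + 1) * V ^ 2 = C2 * (1 / ((n : ℝ) + 1) * V ^ 2) := by ring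
      rw [e3, mul_assoc C]
      refine mul_le_mul_of_nonneg_right ?_ (by positivity)
      rw [hCd]
      linarith
  · intro t ht
    refine le_trans ?_ (hupper t ht)
    rw [neg_le_neg_iff]
    have e1 : (V - t) ^ 2 ≤ V ^ 2 := pow_le_pow_left₀ (by linarith [ht.2]) (by linarith [ht.1]) 2
    have e2 : C3 / ((n : ℝ) + 1) * (V - t) ^ 2 ≤ C3 / ((n : ℝ) + 1) * V ^ 2 :=
      mul_le_mul_of_nonneg_left e1 (by positivity)
    refine e2.trans ?_
    have e3 : C3 / ((n : ℝ) + 1) * V ^ 2 = C3 * (1 / ((n : ℝ) + 1) * V ^ 2) := by ring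
    rw [e3, mul_assoc C]
    refine mul_le_mul_of_nonneg_right ?_ (by positivity)
    rw [hCd]
    linarith

/-- full replica symmetry breaking -/
theorem full_rsb_of {b : ℝ} (hb : 1 < b) (H : SumHyp b) : ∃ C : ℝ, 1 ≤ C ∧
    ∀ (n : ℕ) (r : ℕ → ℝ),
    IsMin b n (gm n) r → ∑ l ∈ Finset.range n, ∫ t in (0 : ℝ)..(r (l + 1) - r l),
      |Mb n (gm n) r l t - 1 / b ^ 2| ≤ C / √((n : ℝ) + 1) := by
  obtain ⟨C, hC, h⟩ := sum_block hb H
  have hb2 : 1 ≤ b ^ 2 := by nlinarith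
  refine ⟨C * b ^ 2, one_le_mul_of_one_le_of_one_le hC hb2, fun n r hr => ?_⟩
  refine (Finset.sum_le_sum fun l hl => h n r hr l (Finset.mem_range.1 hl)).trans ?_
  rw [← Finset.mul_sum, Finset.sum_range_sub, hr.1.1, sub_zero, Real.sqrt_div zero_le_one,
    Real.sqrt_one]
  have e : C * b ^ 2 / √((n : ℝ) + 1) = C * (1 / √((n : ℝ) + 1)) * b ^ 2 := by ring
  rw [e]
  exact mul_le_mul_of_nonneg_left hr.1.2.2 (by positivity)

/-! ### The last level -/

/-- Jensen at the last level -/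
theorem sum_jensen {n : ℕ} {m r : ℕ → ℝ} (hm : Exponents n m) (hr : Path n r) :
    (1 - spR n m r n) ^ 2 ≤ Ml n m r n := by
  have hT : Sp7Cb Real.tanh := sp7_cb_M ec_logcosh
  have e2 : (fun x => iteratedDeriv 2 (Fl n m r n) x ^ 2) =
      fun x => (1 - Real.tanh x ^ 2) ^ 2 := by
    rw [fl_last, adm_lc_it2]
  have e1 : spR n m r n = Ee n m r n (fun x => Real.tanh x ^ 2) := by
    rw [spR_eq hm hr le_rfl, fl_last, adm_lc_it1]
  have hcb : Sp7Cb (fun x => (1 - Real.tanh x ^ 2) ^ 2) := by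
    have h1 := sp7_cb_sq (sp7_cb_add (sp7_cb_const 1) (sp7_cb_neg (sp7_cb_sq hT)))
    have e : (fun x => (1 + -(Real.tanh x ^ 2)) ^ 2) = fun x => (1 - Real.tanh x ^ 2) ^ 2 := by
      funext x
      ring
    rw [← e]
    exact h1
  obtain ⟨a, ha⟩ : ∃ a, a = 1 - spR n m r n := ⟨_, rfl⟩
  have h2 := ee_mono hm hr le_rfl
    (sp7_cb_add (sp7_cb_const (2 * a - a ^ 2)) (nest_cb_smul (-(2 * a)) (sp7_cb_sq hT)))
    hcb (fun x => by
      have := sq_nonneg (1 - Real.tanh x ^ 2 - a)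
      nlinarith)
  rw [ee_add hm hr le_rfl (sp7_cb_const _) (nest_cb_smul _ (sp7_cb_sq hT)), ee_smul,
    ee_const hm hr le_rfl, ← e1] at h2
  unfold Ml
  rw [e2, ← ha]
  refine le_trans (le_of_eq ?_) h2
  have : spR n m r n = 1 - a := by rw [ha]; ring
  rw [this]
  ring

theorem sum_Ml_le {n : ℕ} {m r : ℕ → ℝ} (hm : Exponents n m) (hr : Path n r) :
    Ml n m r n ≤ 1 := by
  have hT : Sp7Cb Real.tanh := sp7_cb_M ec_logcosh
  have e2 : (fun x => iteratedDeriv 2 (Fl n m r n) x ^ 2) =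
      fun x => (1 - Real.tanh x ^ 2) ^ 2 := by
    rw [fl_last, adm_lc_it2]
  have hcb : Sp7Cb (fun x => (1 - Real.tanh x ^ 2) ^ 2) := by
    have h1 := sp7_cb_sq (sp7_cb_add (sp7_cb_const 1) (sp7_cb_neg (sp7_cb_sq hT)))
    have e : (fun x => (1 + -(Real.tanh x ^ 2)) ^ 2) = fun x => (1 - Real.tanh x ^ 2) ^ 2 := by
      funext x
      ring
    rw [← e]
    exact h1
  have h2 := ee_mono hm hr le_rfl hcb (sp7_cb_const 1) (fun x => by
    have h3 : Real.tanh x ^ 2 ≤ 1 := by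
      have := sp3_abs_tanh x
      rw [← sq_abs]
      exact pow_le_one₀ (abs_nonneg _) this
    have h4 := sq_nonneg (Real.tanh x)
    exact pow_le_one₀ (by linarith) (by linarith))
  rw [ee_const hm hr le_rfl] at h2
  unfold Ml
  rw [e2]
  exact h2

/-- Lipschitz bound inside a block -/
theorem sum_lip {b : ℝ} (H : SumHyp b) {C : ℝ} {n l : ℕ} {r : ℕ → ℝ} (hm : Exponents n (gm n))
    (hr : Path n r) (hl : l < n)
    (hC : ∀ t ∈ Icc 0 (r (l + 1) - r l), |M1b n (gm n) r l t| ≤ C) {s t : ℝ}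
    (hs : s ∈ Icc 0 (r (l + 1) - r l)) (ht : t ∈ Icc 0 (r (l + 1) - r l)) (hst : s ≤ t) :
    |Mb n (gm n) r l t - Mb n (gm n) r l s| ≤ C * (t - s) := by
  rcases hst.eq_or_lt with h | h
  · rw [h, sub_self, sub_self, abs_zero, mul_zero]
  obtain ⟨x, hx, hxe⟩ := exists_hasDerivAt_eq_slope (Mb n (gm n) r l) (M1b n (gm n) r l) h
    ((H.mc n l (gm n) r hm hr hl).mono (Icc_subset_Icc hs.1 ht.2))
    (fun x hx => H.md n l (gm n) r x hm hr hl ⟨hs.1.trans_lt hx.1, hx.2.trans_le ht.2⟩)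
  have h1 := hC x ⟨(hs.1.trans_lt hx.1).le, (hx.2.trans_le ht.2).le⟩
  have h2 : Mb n (gm n) r l t - Mb n (gm n) r l s = M1b n (gm n) r l x * (t - s) := by
    rw [hxe, div_mul_cancel₀ _ (sub_pos.2 h).ne']
  rw [h2, abs_mul, abs_of_pos (sub_pos.2 h)]
  exact mul_le_mul_of_nonneg_right h1 (sub_pos.2 h).le

theorem sum_step {b : ℝ} (H : SumHyp b) {C : ℝ} {n l : ℕ} {r : ℕ → ℝ} (hm : Exponents n (gm n))
    (hr : Path n r) (hl : l < n)
    (hC : ∀ t ∈ Icc 0 (r (l + 1) - r l), |M1b n (gm n) r l t| ≤ C) :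
    |Ml n (gm n) r (l + 1) - Ml n (gm n) r l| ≤ C * (r (l + 1) - r l) := by
  have hV : 0 ≤ r (l + 1) - r l := sub_nonneg.2 (hr.2 l hl)
  have h1 := sum_lip H hm hr hl hC (left_mem_Icc.2 hV) (right_mem_Icc.2 hV) hV
  rw [H.m0 n l (gm n) r hm hr hl, H.mv n l (gm n) r hm hr hl, sub_zero] at h1
  exact h1

theorem sum_steps {C : ℝ} {n : ℕ} {r M : ℕ → ℝ}
    (h : ∀ l < n, |M (l + 1) - M l| ≤ C * (r (l + 1) - r l)) {l : ℕ} (hl : l ≤ n) :
    M n - M l ≤ C * (r n - r l) := by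
  induction n, hl using Nat.le_induction with
  | base => simp
  | succ n hln ih =>
    have h1 := ih (fun i hi => h i (by omega))
    have h2 := (abs_le.1 (h n (Nat.lt_succ_self n))).2
    have e : C * (r (n + 1) - r l) = C * (r (n + 1) - r n) + C * (r n - r l) := by ring
    rw [e]
    linarith

/-- the integral of a Lipschitz function near a point where it is large -/
theorem sum_low {C κ e R : ℝ} (hC : 0 ≤ C) (hκ : 0 ≤ κ) (he : 0 ≤ e) (hCe : C * e ≤ 1 / 2)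
    (hR : e * κ ≤ R) : e * κ ^ 2 / 2 ≤ ∫ x in (0 : ℝ)..R, max (κ - C * (R - x)) 0 := by
  have hc : Continuous fun x : ℝ => max (κ - C * (R - x)) 0 := by fun_prop
  have h0 : 0 ≤ e * κ := mul_nonneg he hκ
  rw [← intervalIntegral.integral_add_adjacent_intervals (hc.intervalIntegrable 0 (R - e * κ))
    (hc.intervalIntegrable (R - e * κ) R)]
  have h1 : 0 ≤ ∫ x in (0 : ℝ)..(R - e * κ), max (κ - C * (R - x)) 0 :=
    intervalIntegral.integral_nonneg (by linarith) fun x _ => le_max_right _ _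
  have h2 : ∫ x in (R - e * κ)..R, κ / 2 ≤ ∫ x in (R - e * κ)..R, max (κ - C * (R - x)) 0 := by
    refine intervalIntegral.integral_mono_on (by linarith) intervalIntegrable_const
      (hc.intervalIntegrable _ _) fun x hx => ?_
    refine le_trans ?_ (le_max_left _ _)
    have h3 : C * (R - x) ≤ C * (e * κ) := mul_le_mul_of_nonneg_left (by linarith [hx.1]) hC
    have h4 : C * (e * κ) ≤ 1 / 2 * κ := by
      rw [← mul_assoc]
      exact mul_le_mul_of_nonneg_right hCe hκ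
    linarith
  rw [intervalIntegral.integral_const, smul_eq_mul] at h2
  have h3 : (R - (R - e * κ)) * (κ / 2) = e * κ ^ 2 / 2 := by ring
  rw [h3] at h2
  linarith

/-- the sum of the blocks near the last level -/
theorem sum_last {b : ℝ} (H : SumHyp b) {C : ℝ} {n : ℕ} {r : ℕ → ℝ} (hr : Path n r)
    (hr0 : r 0 = 0) (hC : ∀ l < n, ∀ t ∈ Icc 0 (r (l + 1) - r l), |M1b n (gm n) r l t| ≤ C)
    (c : ℝ) : ∫ x in (0 : ℝ)..(r n), max (Ml n (gm n) r n - c - C * (r n - x)) 0 ≤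
      ∑ l ∈ Finset.range n, ∫ t in (0 : ℝ)..(r (l + 1) - r l), |Mb n (gm n) r l t - c| := by
  have hm := gm_exponents n
  have hc : Continuous fun x : ℝ => max (Ml n (gm n) r n - c - C * (r n - x)) 0 := by fun_prop
  have e1 : ∫ x in (0 : ℝ)..(r n), max (Ml n (gm n) r n - c - C * (r n - x)) 0 =
      ∑ l ∈ Finset.range n, ∫ x in (r l)..(r (l + 1)),
        max (Ml n (gm n) r n - c - C * (r n - x)) 0 := by
    rw [intervalIntegral.sum_integral_adjacent_intervals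
      (fun l _ => hc.intervalIntegrable _ _), hr0]
  rw [e1]
  refine Finset.sum_le_sum fun l hl => ?_
  have hl' := Finset.mem_range.1 hl
  have hV : 0 ≤ r (l + 1) - r l := sub_nonneg.2 (hr.2 l hl')
  have e2 : ∫ x in (r l)..(r (l + 1)), max (Ml n (gm n) r n - c - C * (r n - x)) 0 =
      ∫ t in (0 : ℝ)..(r (l + 1) - r l),
        max (Ml n (gm n) r n - c - C * (r n - (r l + t))) 0 := by
    rw [intervalIntegral.integral_comp_add_left
      (fun x => max (Ml n (gm n) r n - c - C * (r n - x)) 0) (r l), add_zero,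
      add_sub_cancel]
  rw [e2]
  have hMc := H.mc n l (gm n) r hm hr hl'
  refine intervalIntegral.integral_mono_on hV ?_ ?_ fun t ht => ?_
  · exact (hc.comp (by fun_prop : Continuous fun t : ℝ => r l + t)).intervalIntegrable _ _
  · exact ((hMc.sub continuousOn_const).abs).intervalIntegrable_of_Icc hV
  · refine max_le ?_ (abs_nonneg _)
    refine le_trans ?_ (le_abs_self _)
    have h1 := sum_lip H hm hr hl' (hC l hl') ht (right_mem_Icc.2 hV) ht.2
    rw [H.mv n l (gm n) r hm hr hl'] at h1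
    have h2 := (abs_le.1 h1).2
    have h3 := sum_steps (M := Ml n (gm n) r) (fun i hi => sum_step H hm hr hi (hC i hi))
      (show l + 1 ≤ n by omega)
    have e3 : C * (r n - (r l + t)) = C * (r n - r (l + 1)) + C * (r (l + 1) - r l - t) := by ring
    rw [e3]
    linarith

/-- the last level -/
theorem last_level_of {b : ℝ} (hb : 1 < b) (H : SumHyp b) : ∃ C : ℝ, 1 ≤ C ∧
    ∀ (n : ℕ) (r : ℕ → ℝ), C ≤ (n : ℝ) → IsMin b n (gm n) r →
      (b ^ 2 - r n) ^ 2 / b ^ 2 ≤ 1 + C / (((n : ℝ) + 1) ^ (1 / 4 : ℝ)) := by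
  have hb0 : 0 < b := by linarith
  have hb2 : 0 < b ^ 2 := by positivity
  have hb21 : 1 < b ^ 2 := by nlinarith
  obtain ⟨C1, hC1, h1⟩ := H.bd
  obtain ⟨C0, hC0, h0⟩ := full_rsb_of hb H
  obtain ⟨A, hA, hsplit⟩ := split_zero hb
  obtain ⟨c, hc⟩ : ∃ c : ℝ, c = 1 / b ^ 2 := ⟨_, rfl⟩
  have hc0 : 0 < c := by rw [hc]; positivity
  have hc1 : c < 1 := by rw [hc, div_lt_one hb2]; exact hb21
  obtain ⟨c0, hc0d⟩ : ∃ c0 : ℝ, c0 = (1 - c) / (2 * (2 + C1)) := ⟨_, rfl⟩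
  have hc00 : 0 < c0 := by rw [hc0d]; exact div_pos (by linarith) (by linarith)
  obtain ⟨e, he⟩ : ∃ e : ℝ, e = min c0 (1 / (2 * C1)) := ⟨_, rfl⟩
  have he0 : 0 < e := by rw [he]; exact lt_min hc00 (by positivity)
  have hCe : C1 * e ≤ 1 / 2 := by
    have h2 : e ≤ 1 / (2 * C1) := by rw [he]; exact min_le_right _ _
    have h3 := mul_le_mul_of_nonneg_left h2 (show 0 ≤ C1 by linarith)
    refine h3.trans (le_of_eq ?_)
    field_simp
  obtain ⟨C, hC⟩ : ∃ C : ℝ, C = 1 + 2 * A / (1 - c) + b ^ 2 * √(2 * C0 / e) := ⟨_, rfl⟩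
  have p1 : 0 < 2 * A / (1 - c) := div_pos (by linarith) (by linarith)
  have p2 : 0 ≤ b ^ 2 * √(2 * C0 / e) := by positivity
  refine ⟨C, by rw [hC]; linarith, fun n r hn hr => ?_⟩
  have hm := gm_exponents n
  have hBP := hr.1
  have hpath := hBP.2.1
  have hr0 := hBP.1
  have hn0 : (0 : ℝ) < (n : ℝ) + 1 := by positivity
  have hbd := h1 n (gm n) r hm hBP
  have hfix := stat_fix hb0 hm hr.1 hr.2
  -- the lower bound of the last level
  have hstep := sum_steps (M := Ml n (gm n) r) (fun i hi => sum_step H hm hpath hi (hbd i hi))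
    (Nat.zero_le n)
  rw [hr0, sub_zero, Ml_zero hr0] at hstep
  have hs := hsplit n r hr
  have hl := Ml_last (n := n) (m := gm n) (r := r) hm hpath
  have hR := spR_le hm hpath hr0 le_rfl
  have hAn : A / ((n : ℝ) + 1) ≤ (1 - c) / 2 := by
    rw [div_le_iff₀ hn0]
    have h2 : 2 * A / (1 - c) ≤ (n : ℝ) + 1 := by
      have : 2 * A / (1 - c) ≤ C := by rw [hC]; linarith
      linarith
    rw [div_le_iff₀ (by linarith)] at h2
    linarith
  have hrn : c0 ≤ r n := by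
    rw [hc0d, div_le_iff₀ (by linarith)]
    rw [← hc] at hs
    linarith
  -- the main estimate
  obtain ⟨κ, hκ⟩ : ∃ κ, κ = Ml n (gm n) r n - c := ⟨_, rfl⟩
  have hn1 : 0 < n := by
    rcases Nat.eq_zero_or_pos n with h | h
    · rw [h] at hn
      simp only [Nat.cast_zero] at hn
      rw [hC] at hn
      linarith
    · exact h
  have hM1 := sum_Ml_le (n := n) hm hpath
  have hmain : κ ≤ √(2 * C0 / e) / (((n : ℝ) + 1) ^ (1 / 4 : ℝ)) := by
    rcases le_or_gt κ 0 with hk | hk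
    · exact hk.trans (by positivity)
    have hκ1 : κ ≤ 1 := by rw [hκ]; linarith
    have hek : e * κ ≤ r n := by
      have h2 : e ≤ c0 := by rw [he]; exact min_le_left _ _
      calc e * κ ≤ c0 * 1 := mul_le_mul h2 hκ1 hk.le hc00.le
        _ ≤ r n := by linarith
    have k1 := sum_low (R := r n) (show 0 ≤ C1 by linarith) hk.le he0.le hCe hek
    have k2 := sum_last H hpath hr0 hbd c
    rw [← hκ] at k2
    have k3 := h0 n r hr
    rw [← hc] at k3
    have k4 := k1.trans (k2.trans k3)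
    have k5 : κ ^ 2 ≤ 2 * C0 / e / √((n : ℝ) + 1) := by
      rw [div_div, mul_comm e, ← div_div, le_div_iff₀ he0]
      have : 2 * C0 / √((n : ℝ) + 1) = 2 * (C0 / √((n : ℝ) + 1)) := by ring
      rw [this]
      linarith
    have k6 : (((n : ℝ) + 1) ^ (1 / 4 : ℝ)) = √(√((n : ℝ) + 1)) := by
      rw [Real.sqrt_eq_rpow, Real.sqrt_eq_rpow, ← Real.rpow_mul hn0.le]
      norm_num
    rw [k6, ← Real.sqrt_div (by positivity)]
    exact Real.le_sqrt_of_sq_le k5
  -- conclusion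
  have hj := sum_jensen hm hpath
  have hfn := hfix n le_rfl
  have hfin : (b ^ 2 - r n) ^ 2 / b ^ 2 = b ^ 2 * (1 - spR n (gm n) r n) ^ 2 := by
    have e1 : b ^ 2 - r n = b ^ 2 * (1 - spR n (gm n) r n) := by
      rw [mul_sub, mul_one, ← hfn]
    rw [e1]
    field_simp
  rw [hfin]
  have hfin2 : b ^ 2 * (1 - spR n (gm n) r n) ^ 2 ≤ b ^ 2 * (c + κ) := by
    refine mul_le_mul_of_nonneg_left ?_ hb2.le
    rw [hκ]
    linarith
  refine hfin2.trans ?_
  have e2 : b ^ 2 * (c + κ) = 1 + b ^ 2 * κ := by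
    rw [hc]
    field_simp
  rw [e2]
  have e3 := mul_le_mul_of_nonneg_left hmain hb2.le
  have e4 : b ^ 2 * (√(2 * C0 / e) / (((n : ℝ) + 1) ^ (1 / 4 : ℝ))) ≤
      C / (((n : ℝ) + 1) ^ (1 / 4 : ℝ)) := by
    rw [← mul_div_assoc]
    refine div_le_div_of_nonneg_right ?_ (by positivity)
    rw [hC]
    linarith
  linarith

end Vale.Agent.P367.Cl
end

section

/-!
# P367, classical half, full RSB: the heat flow of the density (section LH)
-/

open MeasureTheory ProbabilityTheory Filter Topology Set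

namespace Vale.Agent.P367.Cl

open Vale.Agent.P157.Par
open Vale.Agent.P146.Gap
open Vale.Agent.P146.Pw2

section LH

variable {τ s : ℝ} {L : ℝ → ℝ}

/-! ### auxiliary facts -/

theorem lhA_pos (hτ : 0 < τ) (hs : 0 ≤ s) : 0 < τ + s := by linarith

theorem lhA_sig_pos (hτ : 0 < τ) (hs : 0 < s) : 0 < τ * s / (τ + s) :=
  div_pos (mul_pos hτ hs) (lhA_pos hτ hs.le)

theorem lhA_lam_nonneg (hτ : 0 < τ) (hs : 0 ≤ s) : 0 ≤ τ / (τ + s) :=
  div_nonneg hτ.le (lhA_pos hτ hs).le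

theorem lhA_lam_le (hτ : 0 < τ) (hs : 0 ≤ s) : τ / (τ + s) ≤ 1 := by
  rw [div_le_one (lhA_pos hτ hs)]
  linarith

/-- chain rule for a function of two variables with continuous derivatives in each variable. -/
theorem lhA_chain {f f1 f2 : ℝ → ℝ → ℝ} {a b : ℝ → ℝ} {a' b' t : ℝ} (ha0 : 0 < a t)
    (h1 : ∀ s, 0 < s → ∀ x, HasDerivAt (fun s => f s x) (f1 s x) s)
    (h2 : ∀ s x, HasDerivAt (fun x => f s x) (f2 s x) x)
    (c1 : Continuous fun p : ℝ × ℝ => f1 p.1 p.2) (c2 : Continuous fun p : ℝ × ℝ => f2 p.1 p.2)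
    (ha : HasDerivAt a a' t) (hb : HasDerivAt b b' t) :
    HasDerivAt (fun t => f (a t) (b t)) (f1 (a t) (b t) * a' + f2 (a t) (b t) * b') t := by
  have e1 : ∀ᶠ v : ℝ × ℝ in 𝓝 (a t, b t), HasFDerivAt (fun s => f s v.2)
      (ContinuousLinearMap.toSpanSingleton ℝ (f1 v.1 v.2)) v.1 := by
    have : ∀ᶠ v : ℝ × ℝ in 𝓝 (a t, b t), 0 < v.1 :=
      (continuous_fst.tendsto (a t, b t)).eventually (lt_mem_nhds ha0)
    filter_upwards [this] with v hv
    exact (h1 v.1 hv v.2).hasFDerivAt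
  have e2 : ∀ᶠ v : ℝ × ℝ in 𝓝 (a t, b t), HasFDerivAt (fun x => f v.1 x)
      (ContinuousLinearMap.toSpanSingleton ℝ (f2 v.1 v.2)) v.2 :=
    Eventually.of_forall fun v => (h2 v.1 v.2).hasFDerivAt
  have e3 : ContinuousAt (fun v : ℝ × ℝ => ContinuousLinearMap.toSpanSingleton ℝ (f1 v.1 v.2))
      (a t, b t) :=
    (((ContinuousLinearMap.toSpanSingletonCLE (𝕜 := ℝ) (E := ℝ)).continuous).comp
      c1).continuousAt
  have e4 : ContinuousAt (fun v : ℝ × ℝ => ContinuousLinearMap.toSpanSingleton ℝ (f2 v.1 v.2))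
      (a t, b t) :=
    (((ContinuousLinearMap.toSpanSingletonCLE (𝕜 := ℝ) (E := ℝ)).continuous).comp
      c2).continuousAt
  have hF := hasStrictFDerivAt_uncurry_coprod (𝕜 := ℝ) (u := (a t, b t)) (f := f)
    (f₁ := fun s x => ContinuousLinearMap.toSpanSingleton ℝ (f1 s x))
    (f₂ := fun s x => ContinuousLinearMap.toSpanSingleton ℝ (f2 s x)) e1 e2 e3 e4
  have hG := hF.hasFDerivAt.comp_hasDerivAt t (ha.prodMk hb)
  refine hG.congr_deriv ?_
  simp [mul_comm, Function.HasUncurry.uncurry]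

theorem lh_zero (hτ : 0 < τ) (L : ℝ → ℝ) : Lh τ L 0 = L := by
  funext x
  unfold Lh
  rw [mul_zero, add_zero, zero_div, div_self hτ.ne', one_mul, gstep_zero one_ne_zero]

theorem lh_deriv (h : SmB L) (hτ : 0 < τ) (hs : 0 ≤ s) (j : ℕ) (x : ℝ) :
    iteratedDeriv j (Lh τ L s) x =
      (τ / (τ + s)) ^ j * fj 1 L j (τ * s / (τ + s)) (τ / (τ + s) * x) := by
  have h1 : ContDiff ℝ (j : WithTop ℕ∞) (gstep 1 (τ * s / (τ + s)) L) :=
    (smB_gstep h one_pos _).smooth.of_le (by exact_mod_cast le_top)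
  have h2 := congrFun (iteratedDeriv_comp_const_mul h1 (τ / (τ + s))) x
  unfold fj
  exact h2

theorem lh_smb (h : SmB L) (hτ : 0 < τ) (hs : 0 ≤ s) : SmB (Lh τ L s) where
  smooth := by
    unfold Lh
    exact (smB_gstep h one_pos _).smooth.comp (contDiff_const.mul contDiff_id)
  bd j := by
    obtain ⟨C, hC⟩ := fj_bd h one_pos j
    refine ⟨C, fun x => ?_⟩
    rw [lh_deriv h hτ hs, abs_mul, abs_of_nonneg (pow_nonneg (lhA_lam_nonneg hτ hs) _)]
    calc (τ / (τ + s)) ^ (j + 1) * |fj 1 L (j + 1) (τ * s / (τ + s)) (τ / (τ + s) * x)|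
        ≤ 1 * |fj 1 L (j + 1) (τ * s / (τ + s)) (τ / (τ + s) * x)| :=
          mul_le_mul_of_nonneg_right (pow_le_one₀ (lhA_lam_nonneg hτ hs) (lhA_lam_le hτ hs))
            (abs_nonneg _)
      _ ≤ C := by rw [one_mul]; exact hC _ _

theorem lh_even (he : ∀ x, L (-x) = L x) (τ s x : ℝ) : Lh τ L s (-x) = Lh τ L s x := by
  unfold Lh
  rw [mul_neg, gstep_even he]

theorem lh_bd (h : SmB L) (hτ : 0 < τ) (v : ℝ) (j : ℕ) :
    ∃ C : ℝ, ∀ s ∈ Icc 0 v, ∀ x, |iteratedDeriv (j + 1) (Lh τ L s) x| ≤ C := by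
  obtain ⟨C, hC⟩ := fj_bd h one_pos j
  refine ⟨C, fun s hs x => ?_⟩
  rw [lh_deriv h hτ hs.1, abs_mul, abs_of_nonneg (pow_nonneg (lhA_lam_nonneg hτ hs.1) _)]
  calc (τ / (τ + s)) ^ (j + 1) * |fj 1 L (j + 1) (τ * s / (τ + s)) (τ / (τ + s) * x)|
      ≤ 1 * |fj 1 L (j + 1) (τ * s / (τ + s)) (τ / (τ + s) * x)| :=
        mul_le_mul_of_nonneg_right (pow_le_one₀ (lhA_lam_nonneg hτ hs.1) (lhA_lam_le hτ hs.1))
          (abs_nonneg _)
    _ ≤ C := by rw [one_mul]; exact hC _ _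

theorem lh_cont (h : SmB L) (hτ : 0 < τ) (v : ℝ) (j : ℕ) :
    ContinuousOn (fun p : ℝ × ℝ => iteratedDeriv j (Lh τ L p.1) p.2) (Icc 0 v ×ˢ univ) := by
  have h0 : ∀ p ∈ Icc (0 : ℝ) v ×ˢ (univ : Set ℝ), τ + p.1 ≠ 0 := fun p hp =>
    (lhA_pos hτ hp.1.1).ne'
  have h1 : ContinuousOn (fun p : ℝ × ℝ => τ / (τ + p.1)) (Icc 0 v ×ˢ univ) :=
    continuousOn_const.div (by fun_prop) h0
  have h2 : ContinuousOn (fun p : ℝ × ℝ => τ * p.1 / (τ + p.1)) (Icc 0 v ×ˢ univ) :=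
    ContinuousOn.div (by fun_prop) (by fun_prop) h0
  have h3 : ContinuousOn (fun p : ℝ × ℝ => (τ / (τ + p.1)) ^ j *
      fj 1 L j (τ * p.1 / (τ + p.1)) (τ / (τ + p.1) * p.2)) (Icc 0 v ×ˢ univ) := by
    refine (h1.pow j).mul ?_
    have h4 : ContinuousOn (fun p : ℝ × ℝ => (τ * p.1 / (τ + p.1), τ / (τ + p.1) * p.2))
        (Icc 0 v ×ˢ univ) := h2.prodMk (h1.mul continuous_snd.continuousOn)
    exact Continuous.comp_continuousOn (g := fun q : ℝ × ℝ => fj 1 L j q.1 q.2)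
      (f := fun p : ℝ × ℝ => (τ * p.1 / (τ + p.1), τ / (τ + p.1) * p.2))
      (fj_cont h one_pos j) h4
  exact h3.congr fun p hp => lh_deriv h hτ hp.1.1 j p.2

theorem lh_x (h : SmB L) (hτ : 0 < τ) (hs : 0 ≤ s) (j : ℕ) (x : ℝ) :
    HasDerivAt (iteratedDeriv j (Lh τ L s)) (iteratedDeriv (j + 1) (Lh τ L s) x) x :=
  heat_hasDeriv (lh_smb h hτ hs).smooth j x

theorem lhA_lam_deriv (hτ : 0 < τ) (hs : 0 < s) :
    HasDerivAt (fun s => τ / (τ + s)) (-(τ / (τ + s)) / (τ + s)) s := by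
  have h0 : τ + s ≠ 0 := (lhA_pos hτ hs.le).ne'
  have h1 : HasDerivAt (fun s => τ + s) 1 s := (hasDerivAt_id s).const_add τ
  refine ((hasDerivAt_const s τ).div h1 h0).congr_deriv ?_
  field_simp
  ring

theorem lhA_sig_deriv (hτ : 0 < τ) (hs : 0 < s) :
    HasDerivAt (fun s => τ * s / (τ + s)) ((τ / (τ + s)) ^ 2) s := by
  have h0 : τ + s ≠ 0 := (lhA_pos hτ hs.le).ne'
  have h1 : HasDerivAt (fun s => τ + s) 1 s := (hasDerivAt_id s).const_add τ
  refine (((hasDerivAt_id s).const_mul τ).div h1 h0).congr_deriv ?_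
  simp only [id]
  field_simp
  ring

/-- the time derivative of the derivatives. -/
theorem lhA_time (h : SmB L) (hτ : 0 < τ) (hs : 0 < s) (j : ℕ) {f1 : ℝ → ℝ → ℝ}
    (h1 : ∀ s, 0 < s → ∀ x, HasDerivAt (fun s => fj 1 L j s x) (f1 s x) s)
    (c1 : Continuous fun p : ℝ × ℝ => f1 p.1 p.2) (x : ℝ) :
    HasDerivAt (fun s => iteratedDeriv j (Lh τ L s) x)
      (-(j : ℝ) / (τ + s) * iteratedDeriv j (Lh τ L s) x
        + (τ / (τ + s)) ^ (j + 2) * f1 (τ * s / (τ + s)) (τ / (τ + s) * x)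
        - x / (τ + s) * iteratedDeriv (j + 1) (Lh τ L s) x) s := by
  have h0 : τ + s ≠ 0 := (lhA_pos hτ hs.le).ne'
  have hlam := lhA_lam_deriv hτ hs
  have hsig := lhA_sig_deriv hτ hs
  have hA := lhA_chain (f := fj 1 L j) (f1 := f1) (f2 := fj 1 L (j + 1)) (t := s)
    (a := fun s => τ * s / (τ + s)) (b := fun s => τ / (τ + s) * x)
    (lhA_sig_pos hτ hs) h1 (fun s x => fj_x h one_pos j s x) c1 (fj_cont h one_pos (j + 1))
    hsig (hlam.mul_const x)
  have hB := (hlam.pow j).mul hA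
  have hC : HasDerivAt (fun s => iteratedDeriv j (Lh τ L s) x) _ s :=
    hB.congr_of_eventuallyEq (by
      filter_upwards [lt_mem_nhds hs] with t ht
      exact lh_deriv h hτ ht.le j x)
  refine hC.congr_deriv ?_
  rw [lh_deriv h hτ hs.le, lh_deriv h hτ hs.le]
  obtain ⟨l, hl⟩ : ∃ l, l = τ / (τ + s) := ⟨_, rfl⟩
  simp only [Pi.pow_apply]
  rw [← hl]
  have h5 : (j : ℝ) * l ^ (j - 1) * (-l / (τ + s)) = -(j : ℝ) / (τ + s) * l ^ j := by
    cases j with
    | zero => simp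
    | succ j =>
      rw [Nat.add_sub_cancel, pow_succ]
      ring
  rw [h5, pow_succ l j, pow_add l j 2]
  ring

/-- `K_s = K''/2 - K² - W K'`, `K = 1/(τ+s) - L_s''`, `W = x/(τ+s) - L_s'`. -/
theorem lh_s2 (h : SmB L) (hτ : 0 < τ) (hs : 0 < s) (x : ℝ) :
    HasDerivAt (fun s => 1 / (τ + s) - iteratedDeriv 2 (Lh τ L s) x)
      (1 / 2 * -iteratedDeriv 4 (Lh τ L s) x - (1 / (τ + s) - iteratedDeriv 2 (Lh τ L s) x) ^ 2
        - (x / (τ + s) - iteratedDeriv 1 (Lh τ L s) x) * -iteratedDeriv 3 (Lh τ L s) x) s := by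
  have h0 : τ + s ≠ 0 := (lhA_pos hτ hs.le).ne'
  have h1 : HasDerivAt (fun s => τ + s) 1 s := (hasDerivAt_id s).const_add τ
  have h2 : HasDerivAt (fun s => 1 / (τ + s)) (-(1 / (τ + s) ^ 2)) s := by
    refine ((hasDerivAt_const s (1 : ℝ)).div h1 h0).congr_deriv ?_
    field_simp
    ring
  have h3 := lhA_time h hτ hs 2
    (f1 := fun s x => 1 / 2 * fj 1 L 4 s x + 1 * (fj 1 L 2 s x ^ 2 + fj 1 L 1 s x * fj 1 L 3 s x))
    (fun s hs x => fj_s2 h one_pos hs x)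
    ((continuous_const.mul (fj_cont h one_pos 4)).add (continuous_const.mul
      (((fj_cont h one_pos 2).pow 2).add ((fj_cont h one_pos 1).mul (fj_cont h one_pos 3))))) x
  refine (h2.sub h3).congr_deriv ?_
  simp only [lh_deriv h hτ hs.le]
  push_cast
  field_simp
  ring

/-- `K'_s = K'''/2 - 3 K K' - W K''`. -/
theorem lh_s3 (h : SmB L) (hτ : 0 < τ) (hs : 0 < s) (x : ℝ) :
    HasDerivAt (fun s => -iteratedDeriv 3 (Lh τ L s) x)
      (1 / 2 * -iteratedDeriv 5 (Lh τ L s) x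
        - 3 * (1 / (τ + s) - iteratedDeriv 2 (Lh τ L s) x) * -iteratedDeriv 3 (Lh τ L s) x
        - (x / (τ + s) - iteratedDeriv 1 (Lh τ L s) x) * -iteratedDeriv 4 (Lh τ L s) x) s := by
  have h0 : τ + s ≠ 0 := (lhA_pos hτ hs.le).ne'
  have h3 := lhA_time h hτ hs 3
    (f1 := fun s x => 1 / 2 * fj 1 L 5 s x + 1 * (3 * fj 1 L 2 s x * fj 1 L 3 s x
        + fj 1 L 1 s x * fj 1 L 4 s x))
    (fun s hs x => fj_s3 h one_pos hs x)
    ((continuous_const.mul (fj_cont h one_pos 5)).add (continuous_const.mul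
      (((continuous_const.mul (fj_cont h one_pos 2)).mul (fj_cont h one_pos 3)).add
        ((fj_cont h one_pos 1).mul (fj_cont h one_pos 4))))) x
  refine h3.neg.congr_deriv ?_
  simp only [lh_deriv h hτ hs.le]
  push_cast
  field_simp
  ring

/-- The density flows by the heat equation. -/
theorem lh_heat (h : SmB L) (hτ : 0 < τ) (hs : 0 ≤ s) (y : ℝ) :
    ∫ z, Real.exp (L (y + √s * z) - (y + √s * z) ^ 2 / (2 * τ)) ∂(gaussianReal 0 1) =
      √(τ / (τ + s)) * Real.exp (Lh τ L s y - y ^ 2 / (2 * (τ + s))) := by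
  have h0 : 0 < τ + s := lhA_pos hτ hs
  obtain ⟨l, hl⟩ : ∃ l, l = τ / (τ + s) := ⟨_, rfl⟩
  have hl0 : 0 < l := by rw [hl]; exact div_pos hτ h0
  have hsl : √l ^ 2 = l := Real.sq_sqrt hl0.le
  have hss : √s ^ 2 = s := Real.sq_sqrt hs
  have hsl0 : 0 < √l := Real.sqrt_pos.2 hl0
  have hsig : √(τ * s / (τ + s)) = √s * √l := by
    rw [← Real.sqrt_mul hs, hl]
    congr 1
    ring
  have hpos : 0 < U (jetsPsi 1 L) 0 (τ * s / (τ + s)) (τ / (τ + s) * y) :=
    U_pos (posF_exp h 1) (τ * s / (τ + s)) (τ / (τ + s) * y)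
  have hexp : Real.exp (Lh τ L s y) =
      ∫ z, Real.exp (L (l * y + √s * √l * z)) ∂(gaussianReal 0 1) := by
    unfold Lh
    rw [jets_gstep]
    simp only [one_div, inv_one, one_mul]
    rw [Real.exp_log hpos]
    unfold U jetsPsi
    simp only [iteratedDeriv_zero, one_mul]
    rw [hsig, ← hl]
  rw [← hl, sub_eq_add_neg, Real.exp_add, hexp,
    integral_gaussianReal_eq_integral_smul one_ne_zero,
    integral_gaussianReal_eq_integral_smul one_ne_zero]
  -- change of variables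
  obtain ⟨G, hG⟩ : ∃ G : ℝ → ℝ, G = fun z => gaussianPDFReal 0 1 z •
    Real.exp (L (y + √s * z) - (y + √s * z) ^ 2 / (2 * τ)) := ⟨_, rfl⟩
  have h1 : ∫ w, G (√l * w - y * √s / (τ + s)) = (√l)⁻¹ * ∫ z, G z := by
    have h2 := integral_sub_right_eq_self (μ := volume) G (y * √s / (τ + s))
    have h3 := MeasureTheory.Measure.integral_comp_mul_left
      (fun z => G (z - y * √s / (τ + s))) (√l)
    rw [h3, h2, smul_eq_mul, abs_of_pos (inv_pos.2 hsl0)]
  have h2 : ∀ w, G (√l * w - y * √s / (τ + s)) =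
      gaussianPDFReal 0 1 w • Real.exp (L (l * y + √s * √l * w)) *
        Real.exp (-(y ^ 2 / (2 * (τ + s)))) := by
    intro w
    rw [hG]
    have h3 : y + √s * (√l * w - y * √s / (τ + s)) = l * y + √s * √l * w := by
      have h4 : √s * (y * √s / (τ + s)) = y * s / (τ + s) := by
        rw [← hss, Real.sqrt_sq (Real.sqrt_nonneg s)]
        ring
      have h5 : y - y * s / (τ + s) = l * y := by
        rw [hl]
        field_simp
        ring
      rw [mul_sub, h4]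
      linarith
    simp only [h3, smul_eq_mul]
    unfold gaussianPDFReal
    simp only [NNReal.coe_one, mul_one, sub_zero]
    suffices hkey : -(√l * w - y * √s / (τ + s)) ^ 2 / 2 +
        (L (l * y + √s * √l * w) - (l * y + √s * √l * w) ^ 2 / (2 * τ)) =
        -w ^ 2 / 2 + L (l * y + √s * √l * w) + -(y ^ 2 / (2 * (τ + s))) by
      rw [mul_assoc, ← Real.exp_add, hkey, Real.exp_add, Real.exp_add]
      ring
    have h6 : (√l * w - y * √s / (τ + s)) ^ 2 =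
        l * w ^ 2 - 2 * (√s * √l * w) * y / (τ + s) + y ^ 2 * s / (τ + s) ^ 2 := by
      have h7 : (√l * w - y * √s / (τ + s)) ^ 2 = √l ^ 2 * w ^ 2 -
        2 * (√s * √l * w) * y / (τ + s) + y ^ 2 * √s ^ 2 / (τ + s) ^ 2 := by
        field_simp
        ring
      rw [h7, hsl, hss]
    have h8 : (l * y + √s * √l * w) ^ 2 =
        l ^ 2 * y ^ 2 + 2 * l * y * (√s * √l * w) + s * l * w ^ 2 := by
      have h9 : (l * y + √s * √l * w) ^ 2 =
        l ^ 2 * y ^ 2 + 2 * l * y * (√s * √l * w) + √s ^ 2 * √l ^ 2 * w ^ 2 := by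
        ring
      rw [h9, hsl, hss]
    rw [h6, h8, hl]
    obtain ⟨q, hq⟩ : ∃ q, q = √s * √(τ / (τ + s)) * w := ⟨_, rfl⟩
    rw [← hq]
    field_simp
    ring
  simp only [h2] at h1
  rw [integral_mul_const] at h1
  have h3 : ∫ z, G z = √l * ((∫ w, gaussianPDFReal 0 1 w • Real.exp (L (l * y + √s * √l * w))) *
      Real.exp (-(y ^ 2 / (2 * (τ + s))))) := by
    rw [h1, ← mul_assoc, mul_inv_cancel₀ hsl0.ne', one_mul]
  rw [hG] at h3
  exact h3

end LH

end Vale.Agent.P367.Cl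
end

section

/-!
# P367, classical half: maximum principles with a drift of linear growth
-/

open Set Filter Topology

namespace Vale.Agent.P367.Cl

open Vale.Agent.P146.Gap

/-- the maximum principle on a rectangle for the original equation, with a barrier. -/
theorem maxw_mid {T B lo hi ε : ℝ} {w ws wx wxx b c : ℝ → ℝ → ℝ} (hB0 : 0 ≤ B) (hε : 0 < ε)
    (hw : ContinuousOn (fun p : ℝ × ℝ => w p.1 p.2) (Icc 0 T ×ˢ Icc lo hi))
    (hs : ∀ s ∈ Ioc 0 T, ∀ x ∈ Ioo lo hi, HasDerivAt (fun s => w s x) (ws s x) s)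
    (hx : ∀ s ∈ Ioc 0 T, ∀ x ∈ Ioo lo hi, HasDerivAt (w s) (wx s x) x)
    (hxx : ∀ s ∈ Ioc 0 T, ∀ x ∈ Ioo lo hi, HasDerivAt (wx s) (wxx s x) x)
    (hb : ∀ s ∈ Ioc 0 T, ∀ x ∈ Ioo lo hi, b s x * (2 * x) ≤ B * (1 + x ^ 2))
    (hc : ∀ s ∈ Ioc 0 T, ∀ x ∈ Ioo lo hi, c s x ≤ B)
    (hpde : ∀ s ∈ Ioc 0 T, ∀ x ∈ Ioo lo hi,
      1 / 2 * wxx s x + b s x * wx s x + c s x * w s x ≤ ws s x)
    (h0 : ∀ x ∈ Icc lo hi, 0 ≤ w 0 x)
    (hlo : ∀ s ∈ Icc 0 T, 0 ≤ Real.exp (-(B + 1) * s) * w s lo +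
      ε * Real.exp ((2 * B + 10) * s) * (1 + lo ^ 2))
    (hhi : ∀ s ∈ Icc 0 T, 0 ≤ Real.exp (-(B + 1) * s) * w s hi +
      ε * Real.exp ((2 * B + 10) * s) * (1 + hi ^ 2)) :
    ∀ s ∈ Icc 0 T, ∀ x ∈ Icc lo hi, 0 ≤ Real.exp (-(B + 1) * s) * w s x +
      ε * Real.exp ((2 * B + 10) * s) * (1 + x ^ 2) := by
  refine maxp_rect
    (v := fun s x => Real.exp (-(B + 1) * s) * w s x +
      ε * Real.exp ((2 * B + 10) * s) * (1 + x ^ 2))
    (vs := fun s x => Real.exp (-(B + 1) * s) * (-(B + 1)) * w s x +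
      Real.exp (-(B + 1) * s) * ws s x +
      ε * (Real.exp ((2 * B + 10) * s) * (2 * B + 10)) * (1 + x ^ 2))
    (vx := fun s x => Real.exp (-(B + 1) * s) * wx s x +
      ε * Real.exp ((2 * B + 10) * s) * (2 * x))
    (vxx := fun s x => Real.exp (-(B + 1) * s) * wxx s x +
      ε * Real.exp ((2 * B + 10) * s) * 2)
    (b := b) (c := fun s x => c s x - (B + 1)) ?_ ?_ ?_ ?_ ?_ ?_ ?_ hlo hhi
  · refine ContinuousOn.add (ContinuousOn.mul ?_ hw) ?_
    · exact (Real.continuous_exp.comp (continuous_const.mul continuous_fst)).continuousOn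
    · exact ((continuous_const.mul
        (Real.continuous_exp.comp (continuous_const.mul continuous_fst))).mul
        (continuous_const.add (continuous_snd.pow 2))).continuousOn
  · intro s hsT x hxI
    have e1 : HasDerivAt (fun s => Real.exp (-(B + 1) * s))
        (Real.exp (-(B + 1) * s) * (-(B + 1))) s := by
      have := ((hasDerivAt_id s).const_mul (-(B + 1))).exp
      simpa using this
    have e2 : HasDerivAt (fun s => Real.exp ((2 * B + 10) * s))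
        (Real.exp ((2 * B + 10) * s) * (2 * B + 10)) s := by
      have := ((hasDerivAt_id s).const_mul (2 * B + 10)).exp
      simpa using this
    exact (e1.mul (hs s hsT x hxI)).add ((e2.const_mul ε).mul_const (1 + x ^ 2))
  · intro s hsT x hxI
    have e1 : HasDerivAt (fun x : ℝ => 1 + x ^ 2) (2 * x) x := by
      have := (hasDerivAt_pow 2 x).const_add 1
      simpa using this
    exact ((hx s hsT x hxI).const_mul _).add (e1.const_mul _)
  · intro s hsT x hxI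
    have e1 : HasDerivAt (fun x : ℝ => 2 * x) 2 x := by
      have := (hasDerivAt_id x).const_mul 2
      simpa using this
    exact ((hxx s hsT x hxI).const_mul _).add (e1.const_mul _)
  · intro s hsT x hxI
    have := hc s hsT x hxI
    linarith
  · intro s hsT x hxI
    have h1 := hb s hsT x hxI
    have h2 := hc s hsT x hxI
    have h3 := hpde s hsT x hxI
    have E1 : 0 < Real.exp (-(B + 1) * s) := Real.exp_pos _
    have E2 : 0 < ε * Real.exp ((2 * B + 10) * s) := mul_pos hε (Real.exp_pos _)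
    have h4 : 0 < (2 * B + 10) * (1 + x ^ 2) - 1 - b s x * (2 * x) -
        (c s x - (B + 1)) * (1 + x ^ 2) := by
      have h5 : b s x * (2 * x) ≤ B * (1 + x ^ 2) := h1
      have h8 : (c s x - (B + 1)) * (1 + x ^ 2) ≤ 0 := by
        apply mul_nonpos_of_nonpos_of_nonneg <;> nlinarith [sq_nonneg x]
      nlinarith [sq_nonneg x, mul_nonneg hB0 (sq_nonneg x)]
    have h9 := mul_pos E2 h4
    have h10 := mul_le_mul_of_nonneg_left h3 E1.le
    nlinarith [h9, h10]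
  · intro x hxI
    have h1 := h0 x hxI
    have h2 : 0 ≤ ε * Real.exp ((2 * B + 10) * 0) * (1 + x ^ 2) := by positivity
    have h3 : 0 ≤ Real.exp (-(B + 1) * 0) * w 0 x := mul_nonneg (Real.exp_pos _).le h1
    linarith

theorem maxw_line {S B : ℝ} {w ws wx wxx b c : ℝ → ℝ → ℝ} (hS : 0 < S)
    (hw : ContinuousOn (fun p : ℝ × ℝ => w p.1 p.2) (Icc 0 S ×ˢ univ))
    (hB : ∀ s ∈ Icc 0 S, ∀ x, |w s x| ≤ B)
    (hs : ∀ s ∈ Ioo 0 S, ∀ x, HasDerivAt (fun s => w s x) (ws s x) s)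
    (hx : ∀ s ∈ Ioo 0 S, ∀ x, HasDerivAt (w s) (wx s x) x)
    (hxx : ∀ s ∈ Ioo 0 S, ∀ x, HasDerivAt (wx s) (wxx s x) x)
    (hb : ∀ s ∈ Ioo 0 S, ∀ x, b s x * (2 * x) ≤ B * (1 + x ^ 2)) (hc : ∀ s ∈ Ioo 0 S, ∀ x, c s x ≤ B)
    (hpde : ∀ s ∈ Ioo 0 S, ∀ x, 1 / 2 * wxx s x + b s x * wx s x + c s x * w s x ≤ ws s x)
    (h0 : ∀ x, 0 ≤ w 0 x) : ∀ s ∈ Icc 0 S, ∀ x, 0 ≤ w s x := by
  have hB0 : 0 ≤ B := (abs_nonneg _).trans (hB 0 (left_mem_Icc.2 hS.le) 0)
  have key : ∀ T, 0 ≤ T → T < S → ∀ x, 0 ≤ w T x := by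
    intro T hT0 hTS x
    refine maxp_limit (Real.exp_pos (-(B + 1) * T))
      (N := Real.exp ((2 * B + 10) * T) * (1 + x ^ 2)) fun ε hε => ?_
    rw [← mul_assoc]
    have hsub : ∀ s, s ∈ Ioc 0 T → s ∈ Ioo 0 S := fun s hs => ⟨hs.1, lt_of_le_of_lt hs.2 hTS⟩
    set R := |x| + B / ε + 1 with hR
    have hBe : 0 ≤ B / ε := div_nonneg hB0 hε.le
    have hR1 : B / ε ≤ R ^ 2 := by nlinarith [abs_nonneg x]
    have hR2 : B / ε ≤ (-R) ^ 2 := by rw [neg_sq]; exact hR1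
    refine maxw_mid (lo := -R) (hi := R) hB0 hε (hw.mono ?_)
      (fun s h y _ => hs s (hsub s h) y) (fun s h y _ => hx s (hsub s h) y)
      (fun s h y _ => hxx s (hsub s h) y) (fun s h y _ => hb s (hsub s h) y)
      (fun s h y _ => hc s (hsub s h) y) (fun s h y _ => hpde s (hsub s h) y)
      (fun y _ => h0 y) (fun s h => ?_) (fun s h => ?_) T (right_mem_Icc.2 hT0) x ?_
    · exact prod_mono (Icc_subset_Icc le_rfl hTS.le) (subset_univ _)
    · exact maxp_far hB0 h.1 hε (hB s ⟨h.1, h.2.trans hTS.le⟩ _) hR2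
    · exact maxp_far hB0 h.1 hε (hB s ⟨h.1, h.2.trans hTS.le⟩ _) hR1
    · constructor
      · have := neg_abs_le x
        linarith
      · have := le_abs_self x
        linarith
  intro s hsS x
  rcases eq_or_lt_of_le hsS.2 with h | h
  · rw [h]
    refine maxp_final (f := fun s => w s x) hS ?_ fun t ht ht' => key t ht ht' x
    exact hw.comp (f := fun s => (s, x)) (by fun_prop) fun t ht => ⟨ht, mem_univ _⟩
  · exact key s hsS.1 h x

theorem maxw_half {S B a : ℝ} {w ws wx wxx b c : ℝ → ℝ → ℝ} (hS : 0 < S)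
    (hw : ContinuousOn (fun p : ℝ × ℝ => w p.1 p.2) (Icc 0 S ×ˢ Ici a))
    (hB : ∀ s ∈ Icc 0 S, ∀ x, a ≤ x → |w s x| ≤ B)
    (hs : ∀ s ∈ Ioo 0 S, ∀ x, a < x → HasDerivAt (fun s => w s x) (ws s x) s)
    (hx : ∀ s ∈ Ioo 0 S, ∀ x, a < x → HasDerivAt (w s) (wx s x) x)
    (hxx : ∀ s ∈ Ioo 0 S, ∀ x, a < x → HasDerivAt (wx s) (wxx s x) x)
    (hb : ∀ s ∈ Ioo 0 S, ∀ x, a < x → b s x * (2 * x) ≤ B * (1 + x ^ 2))
    (hc : ∀ s ∈ Ioo 0 S, ∀ x, a < x → c s x ≤ B)
    (hpde : ∀ s ∈ Ioo 0 S, ∀ x, a < x →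
      1 / 2 * wxx s x + b s x * wx s x + c s x * w s x ≤ ws s x)
    (h0 : ∀ x, a ≤ x → 0 ≤ w 0 x) (ha : ∀ s ∈ Icc 0 S, 0 ≤ w s a) :
    ∀ s ∈ Icc 0 S, ∀ x, a ≤ x → 0 ≤ w s x := by
  have hB0 : 0 ≤ B := (abs_nonneg _).trans (hB 0 (left_mem_Icc.2 hS.le) a le_rfl)
  have key : ∀ T, 0 ≤ T → T < S → ∀ x, a ≤ x → 0 ≤ w T x := by
    intro T hT0 hTS x hax
    refine maxp_limit (Real.exp_pos (-(B + 1) * T))
      (N := Real.exp ((2 * B + 10) * T) * (1 + x ^ 2)) fun ε hε => ?_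
    rw [← mul_assoc]
    have hsub : ∀ s, s ∈ Ioc 0 T → s ∈ Ioo 0 S := fun s hs => ⟨hs.1, lt_of_le_of_lt hs.2 hTS⟩
    set R := |x| + B / ε + 1 with hR
    have hBe : 0 ≤ B / ε := div_nonneg hB0 hε.le
    have hR1 : B / ε ≤ R ^ 2 := by nlinarith [abs_nonneg x]
    have hxR : x ≤ R := by
      have := le_abs_self x
      linarith
    refine maxw_mid (lo := a) (hi := R) hB0 hε (hw.mono ?_)
      (fun s h y hy => hs s (hsub s h) y hy.1) (fun s h y hy => hx s (hsub s h) y hy.1)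
      (fun s h y hy => hxx s (hsub s h) y hy.1) (fun s h y hy => hb s (hsub s h) y hy.1)
      (fun s h y hy => hc s (hsub s h) y hy.1) (fun s h y hy => hpde s (hsub s h) y hy.1)
      (fun y hy => h0 y hy.1) (fun s h => ?_) (fun s h => ?_) T (right_mem_Icc.2 hT0) x
      ⟨hax, hxR⟩
    · exact prod_mono (Icc_subset_Icc le_rfl hTS.le) Icc_subset_Ici_self
    · have h1 := ha s ⟨h.1, h.2.trans hTS.le⟩
      positivity
    · exact maxp_far hB0 h.1 hε (hB s ⟨h.1, h.2.trans hTS.le⟩ _ (hax.trans hxR)) hR1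
  intro s hsS x hax
  rcases eq_or_lt_of_le hsS.2 with h | h
  · rw [h]
    refine maxp_final (f := fun s => w s x) hS ?_ fun t ht ht' => key t ht ht' x hax
    exact hw.comp (f := fun s => (s, x)) (by fun_prop) fun t ht => ⟨ht, hax⟩
  · exact key s hsS.1 h x hax

end Vale.Agent.P367.Cl
end

section

/-!
# P367, classical half: the class `Fw` is preserved by the flow
-/

open MeasureTheory ProbabilityTheory Filter Topology Set

namespace Vale.Agent.P367.Cl

open Vale.Agent.P157.Par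
open Vale.Agent.P146.Gap
open Vale.Agent.P146.Pw2

section FWD

variable {g C τ v δ : ℝ} {L F : ℝ → ℝ}

/-! ### The three invariants -/

lemma fwd_cont_div (hτ : 0 < τ) (v : ℝ) (k : ℝ → ℝ) (hk : Continuous k) :
    ContinuousOn (fun p : ℝ × ℝ => k p.2 / (τ + p.1)) (Icc 0 v ×ˢ univ) := by
  refine ContinuousOn.div (hk.comp continuous_snd).continuousOn
    (continuous_const.add continuous_fst).continuousOn fun p hp => ?_
  have := hp.1.1
  positivity

lemma fwd_inv_le (hτ : 0 < τ) {s : ℝ} (hs : 0 ≤ s) : 1 / (τ + s) ≤ 1 / τ :=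
  one_div_le_one_div_of_le hτ (by linarith)

/-- a bound for the drift `-W` -/
lemma fwd_drift {C1 s x w : ℝ} (hτ : 0 < τ) (hs : 0 ≤ s) (hw : |w| ≤ C1) :
    -(x / (τ + s) - w) * (2 * x) ≤ C1 * (1 + x ^ 2) := by
  have h1 : -(x / (τ + s) - w) * (2 * x) = 2 * x * w - 2 * x ^ 2 / (τ + s) := by
    have : τ + s ≠ 0 := by positivity
    field_simp
    ring
  have h2 : 0 ≤ 2 * x ^ 2 / (τ + s) := by positivity
  have h3 : 2 * x * w ≤ |2 * x| * |w| := by
    rw [← abs_mul]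
    exact le_abs_self _
  have h4 : |2 * x| ≤ 1 + x ^ 2 := by
    rw [abs_le]
    constructor <;> nlinarith [sq_nonneg (x - 1), sq_nonneg (x + 1)]
  have h5 : |2 * x| * |w| ≤ (1 + x ^ 2) * C1 :=
    mul_le_mul h4 hw (abs_nonneg _) (by positivity)
  rw [h1]
  linarith

theorem fw_K0 (hL : SmB L) (hτ : 0 < τ) (hv : 0 < v) (h0 : ∀ x, 0 ≤ 1 / τ - iteratedDeriv 2 L x) :
    ∀ s ∈ Icc 0 v, ∀ x, 0 ≤ 1 / (τ + s) - iteratedDeriv 2 (Lh τ L s) x := by
  obtain ⟨C1, hC1⟩ := lh_bd hL hτ v 0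
  obtain ⟨C2, hC2⟩ := lh_bd hL hτ v 1
  have hC1' : 0 ≤ C1 := (abs_nonneg _).trans (hC1 0 ⟨le_rfl, hv.le⟩ 0)
  have hC2' : 0 ≤ C2 := (abs_nonneg _).trans (hC2 0 ⟨le_rfl, hv.le⟩ 0)
  have hbd : ∀ s ∈ Icc 0 v, ∀ x, |1 / (τ + s) - iteratedDeriv 2 (Lh τ L s) x| ≤ 1 / τ + C2 := by
    intro s hs x
    refine (abs_sub _ _).trans (add_le_add ?_ (hC2 s hs x))
    have : 0 ≤ s := hs.1
    rw [abs_of_nonneg (by positivity)]
    exact fwd_inv_le hτ hs.1
  have hB : 0 ≤ 1 / τ := by positivity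
  refine maxw_line (B := 1 / τ + C1 + C2) hv
    (w := fun s x => 1 / (τ + s) - iteratedDeriv 2 (Lh τ L s) x)
    (ws := fun s x => 1 / 2 * -iteratedDeriv 4 (Lh τ L s) x
        - (1 / (τ + s) - iteratedDeriv 2 (Lh τ L s) x) ^ 2
        - (x / (τ + s) - iteratedDeriv 1 (Lh τ L s) x) * -iteratedDeriv 3 (Lh τ L s) x)
    (wx := fun s x => -iteratedDeriv 3 (Lh τ L s) x)
    (wxx := fun s x => -iteratedDeriv 4 (Lh τ L s) x)
    (b := fun s x => -(x / (τ + s) - iteratedDeriv 1 (Lh τ L s) x))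
    (c := fun s x => -(1 / (τ + s) - iteratedDeriv 2 (Lh τ L s) x))
    ?_ ?_ ?_ ?_ ?_ ?_ ?_ ?_ ?_
  · exact (fwd_cont_div hτ v (fun _ => 1) continuous_const).sub (lh_cont hL hτ v 2)
  · intro s hs x
    have := hbd s hs x
    linarith
  · intro s hs x
    exact lh_s2 hL hτ hs.1 x
  · intro s hs x
    exact (lh_x hL hτ hs.1.le 2 x).const_sub _
  · intro s hs x
    exact (lh_x hL hτ hs.1.le 3 x).neg
  · intro s hs x
    have h1 := fwd_drift (x := x) hτ hs.1.le (hC1 s ⟨hs.1.le, hs.2.le⟩ x)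
    refine h1.trans (mul_le_mul_of_nonneg_right (by linarith) (by positivity))
  · intro s hs x
    have := (abs_le.1 (hbd s ⟨hs.1.le, hs.2.le⟩ x)).1
    linarith
  · intro s hs x
    refine le_of_eq ?_
    ring
  · intro x
    simp only [lh_zero hτ, add_zero]
    exact h0 x

theorem fw_K1 (hL : SmB L) (he : ∀ x, L (-x) = L x) (hτ : 0 < τ) (hv : 0 < v)
    (h0 : ∀ x, 0 ≤ x → 0 ≤ iteratedDeriv 3 L x)
    (hK : ∀ s ∈ Icc 0 v, ∀ x, 0 ≤ 1 / (τ + s) - iteratedDeriv 2 (Lh τ L s) x) :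
    ∀ s ∈ Icc 0 v, ∀ x, 0 ≤ x → 0 ≤ iteratedDeriv 3 (Lh τ L s) x := by
  obtain ⟨C1, hC1⟩ := lh_bd hL hτ v 0
  obtain ⟨C3, hC3⟩ := lh_bd hL hτ v 2
  have hC1' : 0 ≤ C1 := (abs_nonneg _).trans (hC1 0 ⟨le_rfl, hv.le⟩ 0)
  have hC3' : 0 ≤ C3 := (abs_nonneg _).trans (hC3 0 ⟨le_rfl, hv.le⟩ 0)
  refine maxw_half (B := C1 + C3) (a := 0) hv
    (w := fun s x => iteratedDeriv 3 (Lh τ L s) x)
    (ws := fun s x => -(1 / 2 * -iteratedDeriv 5 (Lh τ L s) x
        - 3 * (1 / (τ + s) - iteratedDeriv 2 (Lh τ L s) x) * -iteratedDeriv 3 (Lh τ L s) x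
        - (x / (τ + s) - iteratedDeriv 1 (Lh τ L s) x) * -iteratedDeriv 4 (Lh τ L s) x))
    (wx := fun s x => iteratedDeriv 4 (Lh τ L s) x)
    (wxx := fun s x => iteratedDeriv 5 (Lh τ L s) x)
    (b := fun s x => -(x / (τ + s) - iteratedDeriv 1 (Lh τ L s) x))
    (c := fun s x => -(3 * (1 / (τ + s) - iteratedDeriv 2 (Lh τ L s) x)))
    ?_ ?_ ?_ ?_ ?_ ?_ ?_ ?_ ?_ ?_
  · exact (lh_cont hL hτ v 3).mono (prod_mono le_rfl (subset_univ _))
  · intro s hs x _
    have := hC3 s hs x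
    linarith
  · intro s hs x _
    have h1 := (lh_s3 hL hτ hs.1 x).neg
    have h2 : (-fun s => -iteratedDeriv 3 (Lh τ L s) x) =
        fun s => iteratedDeriv 3 (Lh τ L s) x := by
      funext s
      simp
    rw [h2] at h1
    exact h1
  · intro s hs x _
    exact lh_x hL hτ hs.1.le 3 x
  · intro s hs x _
    exact lh_x hL hτ hs.1.le 4 x
  · intro s hs x _
    have h1 := fwd_drift (x := x) hτ hs.1.le (hC1 s ⟨hs.1.le, hs.2.le⟩ x)
    refine h1.trans (mul_le_mul_of_nonneg_right (by linarith) (by positivity))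
  · intro s hs x _
    have := hK s ⟨hs.1.le, hs.2.le⟩ x
    linarith
  · intro s hs x _
    refine le_of_eq ?_
    ring
  · intro x hx
    simp only [lh_zero hτ]
    exact h0 x hx
  · intro s hs
    rw [fwd_odd3 (lh_even he τ s)]

/-- the algebra of the third invariant -/
lemma fwd_alg {g V1 V2 V3 V4 V5 G1 G2 G3 G4 G5 : ℝ} (h2 : G2 ≠ 0) :
    ((1 / 2 * V5 - 3 * V2 * V3 - V1 * V4) * G2
        + V3 * -(1 / 2 * G4 + g * (G2 ^ 2 + G1 * G3)))
      - ((1 / 2 * V4 - V2 ^ 2 - V1 * V3) * G3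
        + V2 * -(1 / 2 * G5 + g * (3 * G2 * G3 + G1 * G4)))
      - (1 / 2 * (V5 * G2 + V4 * G3 - (V3 * G4 + V2 * G5))
        + (-(G3 / G2) - V1) * (V4 * G2 - V2 * G4)
        + (-(G3 / G2) * (g * G1 - V1) - g * G2 - 2 * V2) * (V3 * G2 - V2 * G3)) =
    G2 * V2 * ((2 * (g * G2) + ((G3 / G2) ^ 2 - G4 / G2 - 2 * g * G2))
          * ((-(G3 / G2) - g * G1) + V1)
        + -(G3 / G2) * (2 * (g * G2) + ((G3 / G2) ^ 2 - G4 / G2 - 2 * g * G2) + V2)
        - (-(G5 / G2) + 3 * (G3 * G4) / G2 ^ 2 - 2 * (G3 / G2) ^ 3 - 2 * g * G3) - V3) := by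
  field_simp
  ring

lemma fwd_pde {g V1 V2 V3 V4 V5 G1 G2 G3 G4 G5 : ℝ} (hg : 0 < g) (h2 : 0 < G2) (h3 : G3 ≤ 0)
    (hbet : 0 ≤ (G3 / G2) ^ 2 - G4 / G2 - 2 * g * G2) (hY : 0 ≤ -(G3 / G2) - g * G1)
    (hbp : -(G5 / G2) + 3 * (G3 * G4) / G2 ^ 2 - 2 * (G3 / G2) ^ 3 - 2 * g * G3 ≤
      (-(G3 / G2) - g * G1) * ((G3 / G2) ^ 2 - G4 / G2 - 2 * g * G2))
    (hW : 0 ≤ V1) (hK : 0 ≤ V2) (hK3 : V3 ≤ 0) :
    1 / 2 * (V5 * G2 + V4 * G3 - (V3 * G4 + V2 * G5))
        + (-(G3 / G2) - V1) * (V4 * G2 - V2 * G4)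
        + (-(G3 / G2) * (g * G1 - V1) - g * G2 - 2 * V2) * (V3 * G2 - V2 * G3) ≤
    ((1 / 2 * V5 - 3 * V2 * V3 - V1 * V4) * G2
        + V3 * -(1 / 2 * G4 + g * (G2 ^ 2 + G1 * G3)))
      - ((1 / 2 * V4 - V2 ^ 2 - V1 * V3) * G3
        + V2 * -(1 / 2 * G5 + g * (3 * G2 * G3 + G1 * G4))) := by
  have halg := fwd_alg (g := g) (V1 := V1) (V2 := V2) (V3 := V3) (V4 := V4) (V5 := V5)
    (G1 := G1) (G3 := G3) (G4 := G4) (G5 := G5) h2.ne'
  have hz : 0 ≤ -(G3 / G2) := by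
    rw [neg_nonneg]
    exact div_nonpos_of_nonpos_of_nonneg h3 h2.le
  set z := -(G3 / G2) with hzd
  set be := (G3 / G2) ^ 2 - G4 / G2 - 2 * g * G2 with hbed
  set bp := -(G5 / G2) + 3 * (G3 * G4) / G2 ^ 2 - 2 * (G3 / G2) ^ 3 - 2 * g * G3 with hbpd
  have hQ : 0 ≤ (2 * (g * G2) + be) * ((z - g * G1) + V1)
      + z * (2 * (g * G2) + be + V2) - bp - V3 := by
    have q1 : 0 ≤ 2 * (g * G2) * ((z - g * G1) + V1) := by positivity
    have q2 : 0 ≤ be * V1 := mul_nonneg hbet hW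
    have q3 : 0 ≤ z * (2 * (g * G2) + be + V2) := by positivity
    nlinarith [q1, q2, q3, hbp, hK3]
  have hpos : 0 ≤ G2 * V2 * ((2 * (g * G2) + be) * ((z - g * G1) + V1)
      + z * (2 * (g * G2) + be + V2) - bp - V3) := mul_nonneg (mul_nonneg h2.le hK) hQ
  rw [← halg] at hpos
  linarith

theorem fw_R1 (hF : Good g C F) (hg : 0 < g) (hg1 : g ≤ 1) (hL : SmB L)
    (he : ∀ x, L (-x) = L x) (hτ : 0 < τ) (hv : 0 < v)
    (h0 : ∀ x, 0 ≤ x → 0 ≤ -iteratedDeriv 3 L x * iteratedDeriv 2 (gstep g v F) x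
      - (1 / τ - iteratedDeriv 2 L x) * iteratedDeriv 3 (gstep g v F) x)
    (hK : ∀ s ∈ Icc 0 v, ∀ x, 0 ≤ 1 / (τ + s) - iteratedDeriv 2 (Lh τ L s) x)
    (hK1 : ∀ s ∈ Icc 0 v, ∀ x, 0 ≤ x → 0 ≤ iteratedDeriv 3 (Lh τ L s) x) :
    ∀ s ∈ Icc 0 v, ∀ x, 0 ≤ x →
      0 ≤ -iteratedDeriv 3 (Lh τ L s) x * iteratedDeriv 2 (gstep g (v - s) F) x
      - (1 / (τ + s) - iteratedDeriv 2 (Lh τ L s) x) *
        iteratedDeriv 3 (gstep g (v - s) F) x := by
  obtain ⟨C1, hC1⟩ := lh_bd hL hτ v 0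
  obtain ⟨C2, hC2⟩ := lh_bd hL hτ v 1
  obtain ⟨C3, hC3⟩ := lh_bd hL hτ v 2
  obtain ⟨D1, hD1⟩ := fj_bd hF.adm.smb hg 0
  obtain ⟨D2, hD2⟩ := fj_bd hF.adm.smb hg 1
  obtain ⟨D3, hD3⟩ := fj_bd hF.adm.smb hg 2
  have hC1' : 0 ≤ C1 := (abs_nonneg _).trans (hC1 0 ⟨le_rfl, hv.le⟩ 0)
  have hC2' : 0 ≤ C2 := (abs_nonneg _).trans (hC2 0 ⟨le_rfl, hv.le⟩ 0)
  have hC3' : 0 ≤ C3 := (abs_nonneg _).trans (hC3 0 ⟨le_rfl, hv.le⟩ 0)
  have hD1' : 0 ≤ D1 := (abs_nonneg _).trans (hD1 0 0)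
  have hD2' : 0 ≤ D2 := (abs_nonneg _).trans (hD2 0 0)
  have hD3' : 0 ≤ D3 := (abs_nonneg _).trans (hD3 0 0)
  have hτ' : 0 ≤ 1 / τ := by positivity
  -- the class along the block
  have hgood : ∀ s ∈ Icc 0 v, Good g (C * Real.exp (2 * g * (v - s))) (gstep g (v - s) F) :=
    fun s hs => hF.step hg le_rfl hg1 (by linarith [hs.2])
  have hC0 := hF.adm.C_nonneg
  set Z : ℝ := C * Real.exp (2 * g * v) with hZ
  have hZ0 : 0 ≤ Z := mul_nonneg hC0 (Real.exp_pos _).le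
  have hCs : ∀ s ∈ Icc 0 v, C * Real.exp (2 * g * (v - s)) ≤ Z := by
    intro s hs
    refine mul_le_mul_of_nonneg_left (Real.exp_le_exp.2 ?_) hC0
    have := hs.1
    nlinarith
  -- abbreviations
  let G : ℕ → ℝ → ℝ → ℝ := fun j s x => iteratedDeriv j (gstep g (v - s) F) x
  have hGfj : ∀ j s x, G j s x = fj g F j (v - s) x := fun j s x => rfl
  have hzbd : ∀ s ∈ Icc 0 v, ∀ x, |G 3 s x / G 2 s x| ≤ Z := by
    intro s hs x
    have h1 := (hgood s hs).adm.r3 x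
    have h2 := (hgood s hs).adm.pos x
    rw [abs_div, abs_of_pos h2, div_le_iff₀ h2]
    exact h1.trans (mul_le_mul_of_nonneg_right (hCs s hs) h2.le)
  have hKbd : ∀ s ∈ Icc 0 v, ∀ x, |1 / (τ + s) - iteratedDeriv 2 (Lh τ L s) x| ≤ 1 / τ + C2 := by
    intro s hs x
    refine (abs_sub _ _).trans (add_le_add ?_ (hC2 s hs x))
    have : 0 ≤ s := hs.1
    rw [abs_of_nonneg (by positivity)]
    exact fwd_inv_le hτ hs.1
  have hGs : ∀ s ∈ Ioo 0 v, ∀ (j : ℕ) (x d : ℝ), HasDerivAt (fun u => fj g F j u x) d (v - s) →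
      HasDerivAt (fun s => G j s x) (-d) s := by
    intro s hs j x d h
    have h1 : HasDerivAt (fun s : ℝ => v - s) (-1) s := by
      simpa using (hasDerivAt_id s).const_sub v
    have h2 := HasDerivAt.comp s h h1
    exact h2.congr_deriv (by ring)
  have hGx : ∀ s (j : ℕ) (x : ℝ), HasDerivAt (fun x => G j s x) (G (j + 1) s x) x := by
    intro s j x
    exact fj_x hF.adm.smb hg j (v - s) x
  have hGc : ∀ j, Continuous (fun p : ℝ × ℝ => G j p.1 p.2) := by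
    intro j
    have h1 : Continuous (fun p : ℝ × ℝ => fj g F j (v - p.1) p.2) :=
      (fj_cont hF.adm.smb hg j).comp ((continuous_const.sub continuous_fst).prodMk continuous_snd)
    exact h1
  refine maxw_half (a := 0)
    (B := 2 * Z + C1 + g * (Z * D1) + (C3 * D2 + (1 / τ + C2) * D3)) hv
    (w := fun s x => -iteratedDeriv 3 (Lh τ L s) x * G 2 s x
      - (1 / (τ + s) - iteratedDeriv 2 (Lh τ L s) x) * G 3 s x)
    (ws := fun s x => ((1 / 2 * -iteratedDeriv 5 (Lh τ L s) x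
        - 3 * (1 / (τ + s) - iteratedDeriv 2 (Lh τ L s) x) * -iteratedDeriv 3 (Lh τ L s) x
        - (x / (τ + s) - iteratedDeriv 1 (Lh τ L s) x) * -iteratedDeriv 4 (Lh τ L s) x) * G 2 s x
      + -iteratedDeriv 3 (Lh τ L s) x *
        -(1 / 2 * G 4 s x + g * (G 2 s x ^ 2 + G 1 s x * G 3 s x)))
      - ((1 / 2 * -iteratedDeriv 4 (Lh τ L s) x
        - (1 / (τ + s) - iteratedDeriv 2 (Lh τ L s) x) ^ 2
        - (x / (τ + s) - iteratedDeriv 1 (Lh τ L s) x) * -iteratedDeriv 3 (Lh τ L s) x) * G 3 s x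
      + (1 / (τ + s) - iteratedDeriv 2 (Lh τ L s) x) *
        -(1 / 2 * G 5 s x + g * (3 * G 2 s x * G 3 s x + G 1 s x * G 4 s x))))
    (wx := fun s x => -iteratedDeriv 4 (Lh τ L s) x * G 2 s x
      - (1 / (τ + s) - iteratedDeriv 2 (Lh τ L s) x) * G 4 s x)
    (wxx := fun s x => -iteratedDeriv 5 (Lh τ L s) x * G 2 s x
      + -iteratedDeriv 4 (Lh τ L s) x * G 3 s x
      - (-iteratedDeriv 3 (Lh τ L s) x * G 4 s x
        + (1 / (τ + s) - iteratedDeriv 2 (Lh τ L s) x) * G 5 s x))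
    (b := fun s x => -(G 3 s x / G 2 s x) - (x / (τ + s) - iteratedDeriv 1 (Lh τ L s) x))
    (c := fun s x => -(G 3 s x / G 2 s x) *
        (g * G 1 s x - (x / (τ + s) - iteratedDeriv 1 (Lh τ L s) x)) - g * G 2 s x
        - 2 * (1 / (τ + s) - iteratedDeriv 2 (Lh τ L s) x))
    ?_ ?_ ?_ ?_ ?_ ?_ ?_ ?_ ?_ ?_
  · refine ContinuousOn.mono ?_ (prod_mono le_rfl (subset_univ _))
    exact ((lh_cont hL hτ v 3).neg.mul (hGc 2).continuousOn).sub
      (((fwd_cont_div hτ v (fun _ => 1) continuous_const).sub (lh_cont hL hτ v 2)).mul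
        (hGc 3).continuousOn)
  · intro s hs x _
    refine (abs_sub _ _).trans ?_
    rw [abs_mul, abs_mul, abs_neg]
    have h1 : |iteratedDeriv 3 (Lh τ L s) x| * |G 2 s x| ≤ C3 * D2 :=
      mul_le_mul (hC3 s hs x) (hD2 (v - s) x) (abs_nonneg _) hC3'
    have h2 : |1 / (τ + s) - iteratedDeriv 2 (Lh τ L s) x| * |G 3 s x| ≤ (1 / τ + C2) * D3 :=
      mul_le_mul (hKbd s hs x) (hD3 (v - s) x) (abs_nonneg _) (by positivity)
    have h3 : 0 ≤ g * (Z * D1) := by positivity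
    linarith
  · intro s hs x _
    have hs' : s ∈ Icc 0 v := ⟨hs.1.le, hs.2.le⟩
    have hvs : 0 < v - s := by linarith [hs.2]
    exact ((lh_s3 hL hτ hs.1 x).mul (hGs s hs 2 x _ (fj_s2 hF.adm.smb hg hvs x))).sub
      ((lh_s2 hL hτ hs.1 x).mul (hGs s hs 3 x _ (fj_s3 hF.adm.smb hg hvs x)))
  · intro s hs x _
    have h1 := ((lh_x hL hτ hs.1.le 3 x).neg.mul (hGx s 2 x)).sub
      (((lh_x hL hτ hs.1.le 2 x).const_sub (1 / (τ + s))).mul (hGx s 3 x))
    refine h1.congr_deriv ?_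
    simp only [Pi.neg_apply, Nat.reduceAdd]
    ring
  · intro s hs x _
    have h1 := ((lh_x hL hτ hs.1.le 4 x).neg.mul (hGx s 2 x)).sub
      (((lh_x hL hτ hs.1.le 2 x).const_sub (1 / (τ + s))).mul (hGx s 4 x))
    exact h1.congr_deriv (by simp only [Pi.neg_apply, Nat.reduceAdd])
  · intro s hs x hx
    have hs' : s ∈ Icc 0 v := ⟨hs.1.le, hs.2.le⟩
    have h1 := fwd_drift (x := x) hτ hs.1.le (hC1 s hs' x)
    have h2 := (abs_le.1 (hzbd s hs' x)).1
    have h3 : -(G 3 s x / G 2 s x) * (2 * x) ≤ Z * (1 + x ^ 2) := by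
      have h4 : -(G 3 s x / G 2 s x) * (2 * x) ≤ Z * (2 * x) :=
        mul_le_mul_of_nonneg_right (by linarith) (by linarith)
      refine h4.trans (mul_le_mul_of_nonneg_left ?_ hZ0)
      nlinarith [sq_nonneg (x - 1)]
    have h5 : (-(G 3 s x / G 2 s x) - (x / (τ + s) - iteratedDeriv 1 (Lh τ L s) x)) * (2 * x)
        ≤ (Z + C1) * (1 + x ^ 2) := by
      have : (-(G 3 s x / G 2 s x) - (x / (τ + s) - iteratedDeriv 1 (Lh τ L s) x)) * (2 * x) =
        -(G 3 s x / G 2 s x) * (2 * x) +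
          -(x / (τ + s) - iteratedDeriv 1 (Lh τ L s) x) * (2 * x) := by ring
      rw [this]
      linarith
    refine h5.trans (mul_le_mul_of_nonneg_right ?_ (by positivity))
    have h6 : 0 ≤ g * (Z * D1) := by positivity
    have h7 : 0 ≤ C3 * D2 + (1 / τ + C2) * D3 := by positivity
    linarith
  · intro s hs x hx
    have hs' : s ∈ Icc 0 v := ⟨hs.1.le, hs.2.le⟩
    have hG := hgood s hs'
    have h2 : 0 < G 2 s x := hG.adm.pos x
    have h3 : G 3 s x ≤ 0 := hG.d3_nonpos hg hx.le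
    have hz : 0 ≤ -(G 3 s x / G 2 s x) := by
      rw [neg_nonneg]
      exact div_nonpos_of_nonpos_of_nonneg h3 h2.le
    have hz2 : -(G 3 s x / G 2 s x) ≤ Z := by linarith [(abs_le.1 (hzbd s hs' x)).1]
    have hW : 0 ≤ x / (τ + s) - iteratedDeriv 1 (Lh τ L s) x := by
      have hmono : Monotone (fun y => y / (τ + s) - iteratedDeriv 1 (Lh τ L s) y) := by
        have hd : ∀ y, HasDerivAt (fun y => y / (τ + s) - iteratedDeriv 1 (Lh τ L s) y)
            (1 / (τ + s) - iteratedDeriv 2 (Lh τ L s) y) y := fun y =>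
          ((hasDerivAt_id y).div_const (τ + s)).sub (lh_x hL hτ hs.1.le 1 y)
        refine monotone_of_deriv_nonneg (fun y => (hd y).differentiableAt) fun y => ?_
        rw [(hd y).deriv]
        exact hK s hs' y
      have h1 := hmono hx.le
      simp only [zero_div, fwd_odd1 (lh_even he τ s), sub_zero] at h1
      exact h1
    have hK' := hK s hs' x
    have h4 : -(G 3 s x / G 2 s x) * (g * G 1 s x) ≤ g * (Z * D1) := by
      have h5 : G 1 s x ≤ D1 := (le_abs_self _).trans (hD1 (v - s) x)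
      have h6 : g * G 1 s x ≤ g * D1 := mul_le_mul_of_nonneg_left h5 hg.le
      calc -(G 3 s x / G 2 s x) * (g * G 1 s x) ≤ -(G 3 s x / G 2 s x) * (g * D1) :=
            mul_le_mul_of_nonneg_left h6 hz
        _ ≤ Z * (g * D1) := mul_le_mul_of_nonneg_right hz2 (by positivity)
        _ = g * (Z * D1) := by ring
    have h7 : 0 ≤ -(G 3 s x / G 2 s x) * (x / (τ + s) - iteratedDeriv 1 (Lh τ L s) x) :=
      mul_nonneg hz hW
    have h8 : 0 ≤ g * G 2 s x := by positivity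
    have h9 : 0 ≤ C3 * D2 + (1 / τ + C2) * D3 := by positivity
    nlinarith [h4, h7, h8, h9, hK', hZ0, hC1']
  · intro s hs x hx
    have hs' : s ∈ Icc 0 v := ⟨hs.1.le, hs.2.le⟩
    have hG := hgood s hs'
    have h2 : 0 < G 2 s x := hG.adm.pos x
    have h3 : G 3 s x ≤ 0 := hG.d3_nonpos hg hx.le
    have hz : 0 ≤ -(G 3 s x / G 2 s x) := by
      rw [neg_nonneg]
      exact div_nonpos_of_nonpos_of_nonneg h3 h2.le
    have hbet : 0 ≤ bet g (gstep g (v - s) F) x := hG.bet_nonneg x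
    have hY : 0 ≤ Yf g (gstep g (v - s) F) x := hG.Yf_nonneg hg hx.le
    have hbp := hG.betp_le x hx.le
    have hW : 0 ≤ x / (τ + s) - iteratedDeriv 1 (Lh τ L s) x := by
      have hmono : Monotone (fun y => y / (τ + s) - iteratedDeriv 1 (Lh τ L s) y) := by
        have hd : ∀ y, HasDerivAt (fun y => y / (τ + s) - iteratedDeriv 1 (Lh τ L s) y)
            (1 / (τ + s) - iteratedDeriv 2 (Lh τ L s) y) y := fun y =>
          ((hasDerivAt_id y).div_const (τ + s)).sub (lh_x hL hτ hs.1.le 1 y)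
        refine monotone_of_deriv_nonneg (fun y => (hd y).differentiableAt) fun y => ?_
        rw [(hd y).deriv]
        exact hK s hs' y
      have h1 := hmono hx.le
      simp only [zero_div, fwd_odd1 (lh_even he τ s), sub_zero] at h1
      exact h1
    have hK' := hK s hs' x
    have hK3 := hK1 s hs' x hx.le
    exact fwd_pde hg h2 h3 hbet hY hbp hW hK' (neg_nonpos.2 hK3)
  · intro x hx
    have h1 := h0 x hx
    simp only [G, lh_zero hτ, add_zero, sub_zero]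
    exact h1
  · intro s hs
    have hG := hgood s hs
    have h3 : G 3 s 0 = 0 := fwd_odd3 hG.adm.even
    rw [fwd_odd3 (lh_even he τ s), h3]
    simp

theorem fw_step (hF : Good g C F) (hg : 0 < g) (hg1 : g ≤ 1) (hv : 0 ≤ v)
    (h : Fw τ L (gstep g v F)) :
    ∀ s ∈ Icc 0 v, Fw (τ + s) (Lh τ L s) (gstep g (v - s) F) := by
  intro s hs
  rcases eq_or_lt_of_le hv with hv0 | hv0
  · have hs0 : s = 0 := le_antisymm (by linarith [hs.2]) hs.1
    subst hs0
    rw [lh_zero h.tau, add_zero, sub_zero]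
    exact h
  · have hK := fw_K0 h.smb h.tau hv0 h.K0
    have hK1 := fw_K1 h.smb h.even h.tau hv0 h.K1 hK
    have hR := fw_R1 hF hg hg1 h.smb h.even h.tau hv0 h.R1 hK hK1
    exact ⟨by linarith [h.tau, hs.1], lh_smb h.smb h.tau hs.1, lh_even h.even τ s, hK s hs,
      hK1 s hs, hR s hs⟩

end FWD

end Vale.Agent.P367.Cl
end

section

/-!
# P367, classical half: the integrated certificate on a general block
-/

open MeasureTheory ProbabilityTheory Filter Topology Set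

namespace Vale.Agent.P367.Cl

open Vale.Agent.P157.Par
open Vale.Agent.P146.Gap
open Vale.Agent.P146.Pw2

section CINT

theorem cg_rho_deriv {e K1 B x : ℝ} {P D W A K bb : ℝ → ℝ} (he : 0 < e) (hb : 0 ≤ bb x)
    (hP : HasDerivAt P (A x) x) (hD : HasDerivAt D (bb x / 2) x) (hW : HasDerivAt W (K x) x)
    (hK : HasDerivAt K K1 x)
    (hA : HasDerivAt A (-2 * (P x + D x) * A x) x) (hbb : HasDerivAt bb B x) :
    HasDerivAt (fun y => rho e (P y) (D y) (W y) (A y) (K y) (bb y))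
      (rhop e (P x) (D x) (W x) (A x) (K x) (bb x) B - 9 / 10 * P x * K1) x := by
  have hΔ : (D x ^ 2 + bb x / 4 + e) ≠ 0 := by positivity
  have h1 := (((hP.pow 3).const_mul (21 / 4 : ℝ)).add
    (((hP.pow 2).const_mul (68 / 5 : ℝ)).mul hD)).add
    ((hP.const_mul (153 / 10 : ℝ)).mul (hD.pow 2))
  have h2 := (((hP.pow 2).const_mul (47 / 20 : ℝ)).mul hW)
  have h3 := ((hP.const_mul (67 / 20 : ℝ)).mul hD).mul hW
  have h4 := (hP.const_mul (9 / 10 : ℝ)).mul hK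
  have h5 := (hA.const_mul (9 / 10 : ℝ)).mul hW
  have h6 := (hA.const_mul (173 / 20 : ℝ)).mul hD
  have h7 := (hA.const_mul (97 / 10 : ℝ)).mul hP
  have h8 := (hbb.const_mul (9 / 20 : ℝ)).mul hP
  have h9 := ((((hbb.pow 2).mul hD).div (((hD.pow 2).add (hbb.div_const 4)).add_const e)
    hΔ).const_mul (1 / 8 : ℝ))
  have h := ((((((((h1.sub h2).sub h3).sub h4).add h5).sub h6).sub h7).sub h8).sub h9)
  refine (h.congr_deriv ?_)
  unfold rhop
  simp only [Pi.pow_apply, Pi.mul_apply, Pi.add_apply]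
  generalize hΔd : (D x ^ 2 + bb x / 4 + e) = Δ at hΔ ⊢
  field_simp
  ring

section Comp

variable (g τ e : ℝ) (L F : ℝ → ℝ)

/-- `W`. -/
noncomputable def cgV (x : ℝ) : ℝ := x / τ - iteratedDeriv 1 L x

/-- `K`. -/
noncomputable def cgQ (x : ℝ) : ℝ := 1 / τ - iteratedDeriv 2 L x

/-- The weight. -/
noncomputable def cgW (x : ℝ) : ℝ := wgt τ g L F x * iteratedDeriv 2 F x ^ 2

/-- The primitive. -/
noncomputable def cgK (x : ℝ) : ℝ :=
  cgW g τ L F x * rho e (g * iteratedDeriv 1 F x) (cintD g F x) (cgV τ L x)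
    (g * iteratedDeriv 2 F x) (cgQ τ L x) (bet g F x)

end Comp

variable {g C τ e x : ℝ} {L F : ℝ → ℝ}

theorem cgV_deriv (hL : SmB L) (τ x : ℝ) : HasDerivAt (cgV τ L) (cgQ τ L x) x :=
  ((hasDerivAt_id x).div_const τ).sub (fwd_hd hL 1 x)

theorem cgQ_deriv (hL : SmB L) (τ x : ℝ) :
    HasDerivAt (cgQ τ L) (-iteratedDeriv 3 L x) x := by
  have h := (hasDerivAt_const x (1 / τ)).sub (fwd_hd hL 2 x)
  refine h.congr_deriv ?_
  ring

theorem cgW_deriv (hL : SmB L) (h : ContDiff ℝ (⊤ : ℕ∞) F) (h2 : iteratedDeriv 2 F x ≠ 0)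
    (hτ : 0 < τ) :
    HasDerivAt (cgW g τ L F) (-(3 * (g * iteratedDeriv 1 F x) + 4 * cintD g F x + cgV τ L x)
      * cgW g τ L F x) x := by
  have h0 : HasDerivAt F (iteratedDeriv 1 F x) x := by
    have := cint_hasDerivAt h 0 x
    rwa [iteratedDeriv_zero] at this
  have hL0 : HasDerivAt L (iteratedDeriv 1 L x) x := by
    have := cint_hasDerivAt hL.smooth 0 x
    rwa [iteratedDeriv_zero] at this
  have h' := (((hL0.sub (((hasDerivAt_id x).pow 2).div_const (2 * τ))).add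
    (h0.const_mul g)).exp).mul ((cint_hasDerivAt h 2 x).pow 2)
  refine h'.congr_deriv ?_
  unfold cgW cintD cgV wgt
  simp only [Pi.pow_apply, Pi.sub_apply, Pi.add_apply, id]
  norm_num
  field_simp
  ring

theorem cgK_deriv (hL : SmB L) (h : ContDiff ℝ (⊤ : ℕ∞) F) (h2 : iteratedDeriv 2 F x ≠ 0)
    (hτ : 0 < τ) (he : 0 < e) (hb : 0 ≤ bet g F x) :
    HasDerivAt (cgK g τ e L F) (cgW g τ L F x *
      (rhop e (g * iteratedDeriv 1 F x) (cintD g F x) (cgV τ L x)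
        (g * iteratedDeriv 2 F x) (cgQ τ L x) (bet g F x) (betp g F x)
      - 9 / 10 * (g * iteratedDeriv 1 F x) * (-iteratedDeriv 3 L x)
      - (3 * (g * iteratedDeriv 1 F x) + 4 * cintD g F x + cgV τ L x)
        * rho e (g * iteratedDeriv 1 F x) (cintD g F x) (cgV τ L x)
        (g * iteratedDeriv 2 F x) (cgQ τ L x) (bet g F x))) x := by
  have hA : HasDerivAt (fun y => g * iteratedDeriv 2 F y)
      (-2 * (g * iteratedDeriv 1 F x + cintD g F x) * (g * iteratedDeriv 2 F x)) x := by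
    rw [cint_PD h2]
    exact (cint_hasDerivAt h 2 x).const_mul g
  have h' := (cgW_deriv hL h h2 hτ (g := g)).mul (cg_rho_deriv
    (P := fun y => g * iteratedDeriv 1 F y) (A := fun y => g * iteratedDeriv 2 F y) he hb
    ((cint_hasDerivAt h 1 x).const_mul g) (cintD_deriv h h2) (cgV_deriv hL τ x)
    (cgQ_deriv hL τ x) hA (cint_bet_deriv h h2))
  refine h'.congr_deriv ?_
  ring

/-- The differential inequality on the half line. -/
theorem cg_ineq (hw : Fw τ L F) (h : Good g C F) (hg : 0 < g) (he : 0 < e) (hx : 0 ≤ x) :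
    0 ≤ cgW g τ L F x * (cintJ g F x + 3 * e * bet g F x) + cgW g τ L F x *
      (rhop e (g * iteratedDeriv 1 F x) (cintD g F x) (cgV τ L x)
        (g * iteratedDeriv 2 F x) (cgQ τ L x) (bet g F x) (betp g F x)
      - 9 / 10 * (g * iteratedDeriv 1 F x) * (-iteratedDeriv 3 L x)
      - (3 * (g * iteratedDeriv 1 F x) + 4 * cintD g F x + cgV τ L x)
        * rho e (g * iteratedDeriv 1 F x) (cintD g F x) (cgV τ L x)
        (g * iteratedDeriv 2 F x) (cgQ τ L x) (bet g F x)) := by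
  have h2 := h.adm.pos x
  have h1 := h.d1_nonneg hx
  have hD := h.D_nonneg hx
  have hW : 0 ≤ cgV τ L x := hw.W_nonneg hx
  have hAW := hw.AW_le h.adm hx
  have h3 : 0 ≤ 9 / 10 * (g * iteratedDeriv 1 F x) * iteratedDeriv 3 L x :=
    mul_nonneg (by positivity) (hw.K1 x hx)
  have hc := cert (e := e) (P := g * iteratedDeriv 1 F x) (D := cintD g F x) (W := cgV τ L x)
    (A := g * iteratedDeriv 2 F x) (K := cgQ τ L x) (b := bet g F x) (B := betp g F x) he
    (by positivity) hD hW (by positivity) (h.bet_nonneg x)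
    (by
      calc g * iteratedDeriv 2 F x * cgV τ L x
          = g * (iteratedDeriv 2 F x * (x / τ - iteratedDeriv 1 L x)) := by unfold cgV; ring
        _ ≤ g * ((1 / τ - iteratedDeriv 2 L x) * iteratedDeriv 1 F x) :=
            mul_le_mul_of_nonneg_left hAW hg.le
        _ = cgQ τ L x * (g * iteratedDeriv 1 F x) := by unfold cgQ; ring)
    (by
      refine (h.betp_le x hx).trans (le_of_eq ?_)
      unfold Yf cintD
      ring)
  have hw0 : 0 ≤ cgW g τ L F x := by unfold cgW wgt; positivity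
  rw [← mul_add]
  refine mul_nonneg hw0 ?_
  unfold cintJ
  linarith

/-- The integrand of the claim. -/
theorem cg_integrand (h2 : iteratedDeriv 2 F x ≠ 0) :
    cgW g τ L F x * cintJ g F x = wgt τ g L F x * m2i g F x := by
  unfold cgW cintJ cintD bet m2i
  rw [mul_assoc]
  congr 1
  field_simp
  ring

/-! ### Bounds -/

theorem cg_bdQ (hL : SmB L) (τ : ℝ) : CintBd (cgQ τ L) :=
  (CintBd.const (1 / τ)).sub (hL.bd 1)

theorem cg_V_le (hL : SmB L) (τ : ℝ) : ∃ M N : ℝ, 0 ≤ M ∧ 0 ≤ N ∧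
    ∀ x, |cgV τ L x| ≤ M + N * |x| := by
  obtain ⟨M, hM⟩ := hL.bd 0
  refine ⟨M, |1 / τ|, (abs_nonneg _).trans (hM 0), abs_nonneg _, fun x => ?_⟩
  unfold cgV
  have h1 := abs_sub (x / τ) (iteratedDeriv 1 L x)
  have h2 : |x / τ| = |1 / τ| * |x| := by rw [← abs_mul]; congr 1; ring
  have h3 := hM x
  rw [zero_add] at h3
  linarith

theorem cg_rho_bd (hL : SmB L) (h : Adm C F) (g τ : ℝ) {e : ℝ} (he : 0 < e)
    (hb0 : ∀ x, 0 ≤ bet g F x) :
    ∃ M N : ℝ, ∀ x, |rho e (g * iteratedDeriv 1 F x) (cintD g F x) (cgV τ L x)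
      (g * iteratedDeriv 2 F x) (cgQ τ L x) (bet g F x)| ≤ M + N * |x| := by
  have hP := (CintBd.const g).mul (cint_bd1 h)
  have hA := (CintBd.const g).mul (cint_bd2 h)
  have hD := cint_bdD h g
  have hb := cint_bdb h g
  have hQ := cg_bdQ hL τ
  have hq : CintBd (fun x => bet g F x / (cintD g F x ^ 2 + bet g F x / 4 + e)) := by
    refine ⟨4, fun x => ?_⟩
    have := hb0 x
    have hΔ : 0 < cintD g F x ^ 2 + bet g F x / 4 + e := by positivity
    rw [abs_of_nonneg (by positivity), div_le_iff₀ hΔ]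
    nlinarith [sq_nonneg (cintD g F x)]
  have h0 : CintBd (fun x => 21 / 4 * (g * iteratedDeriv 1 F x) ^ 3
      + 68 / 5 * (g * iteratedDeriv 1 F x) ^ 2 * cintD g F x
      + 153 / 10 * (g * iteratedDeriv 1 F x) * cintD g F x ^ 2
      - 9 / 10 * (g * iteratedDeriv 1 F x) * cgQ τ L x
      - 173 / 20 * (g * iteratedDeriv 2 F x) * cintD g F x
      - 97 / 10 * (g * iteratedDeriv 2 F x) * (g * iteratedDeriv 1 F x)
      - 9 / 20 * bet g F x * (g * iteratedDeriv 1 F x)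
      - 1 / 8 * (bet g F x * cintD g F x
        * (bet g F x / (cintD g F x ^ 2 + bet g F x / 4 + e)))) :=
    ((((((((CintBd.const _).mul (hP.pow 3)).add (((CintBd.const _).mul (hP.pow 2)).mul hD)).add
      (((CintBd.const _).mul hP).mul (hD.pow 2))).sub
      (((CintBd.const _).mul hP).mul hQ)).sub
      (((CintBd.const _).mul hA).mul hD)).sub
      (((CintBd.const _).mul hA).mul hP)).sub
      (((CintBd.const _).mul hb).mul hP)).sub
      ((CintBd.const _).mul ((hb.mul hD).mul hq))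
  have h1 : CintBd (fun x => (9 / 10 * (g * iteratedDeriv 2 F x)
      - 47 / 20 * (g * iteratedDeriv 1 F x) ^ 2
      - 67 / 20 * (g * iteratedDeriv 1 F x) * cintD g F x)) :=
    ((((CintBd.const _).mul hA).sub ((CintBd.const _).mul (hP.pow 2))).sub
      (((CintBd.const _).mul hP).mul hD))
  obtain ⟨M, hM⟩ := h0
  obtain ⟨N, hN⟩ := h1
  obtain ⟨M', N', hM', hN', hV⟩ := cg_V_le hL τ
  refine ⟨M + N * M', N * N', fun x => ?_⟩
  have h2 : rho e (g * iteratedDeriv 1 F x) (cintD g F x) (cgV τ L x)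
      (g * iteratedDeriv 2 F x) (cgQ τ L x) (bet g F x) =
      (21 / 4 * (g * iteratedDeriv 1 F x) ^ 3
      + 68 / 5 * (g * iteratedDeriv 1 F x) ^ 2 * cintD g F x
      + 153 / 10 * (g * iteratedDeriv 1 F x) * cintD g F x ^ 2
      - 9 / 10 * (g * iteratedDeriv 1 F x) * cgQ τ L x
      - 173 / 20 * (g * iteratedDeriv 2 F x) * cintD g F x
      - 97 / 10 * (g * iteratedDeriv 2 F x) * (g * iteratedDeriv 1 F x)
      - 9 / 20 * bet g F x * (g * iteratedDeriv 1 F x)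
      - 1 / 8 * (bet g F x * cintD g F x
        * (bet g F x / (cintD g F x ^ 2 + bet g F x / 4 + e))))
      + (9 / 10 * (g * iteratedDeriv 2 F x)
      - 47 / 20 * (g * iteratedDeriv 1 F x) ^ 2
      - 67 / 20 * (g * iteratedDeriv 1 F x) * cintD g F x) * cgV τ L x := by
    unfold rho
    ring
  rw [h2]
  have h3 : |(9 / 10 * (g * iteratedDeriv 2 F x)
      - 47 / 20 * (g * iteratedDeriv 1 F x) ^ 2
      - 67 / 20 * (g * iteratedDeriv 1 F x) * cintD g F x) * cgV τ L x|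
      ≤ N * (M' + N' * |x|) := by
    rw [abs_mul]
    exact mul_le_mul (hN x) (hV x) (abs_nonneg _) ((abs_nonneg _).trans (hN x))
  refine (abs_add_le _ _).trans ?_
  have h4 := hM x
  calc _ ≤ M + N * (M' + N' * |x|) := add_le_add h4 h3
    _ = _ := by ring

theorem cg_lip (hL : SmB L) : ∃ c : ℝ, 0 ≤ c ∧ ∀ x, |L x| ≤ |L 0| + c * |x| := by
  obtain ⟨c, hc⟩ := hL.bd 0
  refine ⟨c, (abs_nonneg _).trans (hc 0), fun x => ?_⟩
  have h2 := Convex.norm_image_sub_le_of_norm_hasDerivWithin_le (f := L)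
    (f' := iteratedDeriv 1 L) (s := univ) (C := c) (x := 0) (y := x)
    (fun y _ => (by
      have := cint_hasDerivAt hL.smooth 0 y
      rw [iteratedDeriv_zero] at this
      exact this.hasDerivWithinAt)) (fun y _ => by
        have := hc y
        rwa [zero_add] at this) convex_univ (mem_univ _) (mem_univ _)
  rw [Real.norm_eq_abs, Real.norm_eq_abs, sub_zero] at h2
  have h3 := abs_sub_abs_le_abs_sub (L x) (L 0)
  linarith

theorem cg_exp_le (hL : SmB L) (h : Adm C F) (hg : 0 < g) (hg1 : g ≤ 1) (hτ : 0 < τ) :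
    ∃ M : ℝ, 0 ≤ M ∧ ∀ x, wgt τ g L F x ≤ M * Real.exp (-(1 / (4 * τ)) * x ^ 2) := by
  obtain ⟨c, hc, hLc⟩ := cg_lip hL
  refine ⟨Real.exp (|L 0| + |F 0| + τ * (c + 1) ^ 2), (Real.exp_pos _).le, fun x => ?_⟩
  unfold wgt
  rw [← Real.exp_add]
  apply Real.exp_le_exp.mpr
  have h1 : g * F x ≤ |F 0| + |x| := by
    calc g * F x ≤ g * |F x| := mul_le_mul_of_nonneg_left (le_abs_self _) hg.le
      _ ≤ 1 * |F x| := mul_le_mul_of_nonneg_right hg1 (abs_nonneg _)
      _ ≤ |F 0| + |x| := by rw [one_mul]; exact cint_lip h x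
  have h0 : L x ≤ |L 0| + c * |x| := (le_abs_self _).trans (hLc x)
  have h2 : (c + 1) * |x| ≤ x ^ 2 / (4 * τ) + τ * (c + 1) ^ 2 := by
    have h3 : 0 ≤ (|x| - 2 * τ * (c + 1)) ^ 2 / (4 * τ) := by positivity
    have h4 : (|x| - 2 * τ * (c + 1)) ^ 2 / (4 * τ) =
        x ^ 2 / (4 * τ) + τ * (c + 1) ^ 2 - (c + 1) * |x| := by
      field_simp
      rw [← sq_abs x]
      ring
    linarith
  have h5 : x ^ 2 / (2 * τ) = 2 * (x ^ 2 / (4 * τ)) := by
    field_simp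
    norm_num
  have h6 : -(1 / (4 * τ)) * x ^ 2 = -(x ^ 2 / (4 * τ)) := by ring
  linarith

theorem cgW_le (hL : SmB L) (h : Adm C F) (hg : 0 < g) (hg1 : g ≤ 1) (hτ : 0 < τ) :
    ∃ M : ℝ, 0 ≤ M ∧ ∀ x, |cgW g τ L F x| ≤ M * Real.exp (-(1 / (4 * τ)) * x ^ 2) := by
  obtain ⟨M, hM0, hM⟩ := cg_exp_le hL h hg hg1 hτ
  refine ⟨M, hM0, fun x => ?_⟩
  have h2 := h.pos x
  have h1 : iteratedDeriv 2 F x ≤ 1 := by
    have := h.le1 x
    nlinarith [sq_nonneg (iteratedDeriv 1 F x)]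
  have h3 : iteratedDeriv 2 F x ^ 2 ≤ 1 := pow_le_one₀ h2.le h1
  have h4 : 0 ≤ wgt τ g L F x := (Real.exp_pos _).le
  unfold cgW
  rw [abs_of_nonneg (by positivity)]
  calc _ ≤ wgt τ g L F x * 1 := mul_le_mul_of_nonneg_left h3 h4
    _ ≤ _ := by rw [mul_one]; exact hM x

theorem cg_contL (hL : SmB L) (j : ℕ) : Continuous (iteratedDeriv j L) :=
  continuous_iff_continuousAt.mpr fun x => (fwd_hd hL j x).continuousAt

theorem wgt_cont (hL : SmB L) (h : Adm C F) (g τ : ℝ) : Continuous (wgt τ g L F) := by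
  have h0 := cint_cont h 0
  have hL0 := cg_contL hL 0
  rw [iteratedDeriv_zero] at h0 hL0
  exact ((hL0.sub ((continuous_pow 2).div_const _)).add (h0.const_mul g)).rexp

theorem cgW_cont (hL : SmB L) (h : Adm C F) : Continuous (cgW g τ L F) :=
  (wgt_cont hL h g τ).mul ((cint_cont h 2).pow 2)

theorem cg_integrable (hL : SmB L) (h : Adm C F) (hg : 0 < g) (hg1 : g ≤ 1) (hτ : 0 < τ)
    {f : ℝ → ℝ} (hf : Continuous f) (hb : CintBd f) :
    Integrable (fun x => cgW g τ L F x * f x) := by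
  obtain ⟨M, hM⟩ := hb
  obtain ⟨N, hN0, hN⟩ := cgW_le hL h hg hg1 hτ
  refine Integrable.mono' (g := fun x => N * Real.exp (-(1 / (4 * τ)) * x ^ 2) * M) ?_
    ((cgW_cont hL h).mul hf).aestronglyMeasurable (ae_of_all _ fun x => ?_)
  · exact ((integrable_exp_neg_mul_sq (by positivity)).const_mul _).mul_const _
  · rw [Real.norm_eq_abs, abs_mul]
    exact mul_le_mul (hN x) (hM x) (abs_nonneg _) (by positivity)

theorem cgK_tendsto (hL : SmB L) (h : Good g C F) (hg : 0 < g) (hg1 : g ≤ 1) (hτ : 0 < τ)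
    (he : 0 < e) : Tendsto (cgK g τ e L F) atTop (𝓝 0) := by
  obtain ⟨M, N, hMN⟩ := cg_rho_bd hL h.adm g τ he h.bet_nonneg
  obtain ⟨E, hE0, hE⟩ := cgW_le hL h.adm hg hg1 hτ
  have h1 := (tendsto_rpow_abs_mul_exp_neg_mul_sq_cocompact (a := 1 / (4 * τ))
    (by positivity) 0).mono_left atTop_le_cocompact
  have h2 := (tendsto_rpow_abs_mul_exp_neg_mul_sq_cocompact (a := 1 / (4 * τ))
    (by positivity) 1).mono_left atTop_le_cocompact
  have h3 := ((h1.const_mul (M * E)).add (h2.const_mul (N * E)))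
  rw [mul_zero, mul_zero, add_zero] at h3
  refine squeeze_zero_norm (fun x => ?_) h3
  unfold cgK
  rw [Real.norm_eq_abs, abs_mul, Real.rpow_zero, Real.rpow_one]
  calc _ ≤ (E * Real.exp (-(1 / (4 * τ)) * x ^ 2)) * (M + N * |x|) :=
        mul_le_mul (hE x) (hMN x) (abs_nonneg _) (by positivity)
    _ = _ := by ring

theorem cgK_zero (hw : Fw τ L F) (h : Adm C F) : cgK g τ e L F 0 = 0 := by
  obtain ⟨h1, h3⟩ := cint_odd_zero h
  have h4 := fwd_odd1 hw.even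
  unfold cgK rho cintD cgV
  rw [h1, h3, h4]
  norm_num

theorem cgW_even (hw : Fw τ L F) (h : Adm C F) (x : ℝ) : cgW g τ L F (-x) = cgW g τ L F x := by
  unfold cgW wgt
  rw [cint_parity h, h.even, hw.even]
  norm_num

theorem cg_half (hw : Fw τ L F) (h : Good g C F) (hg : 0 < g) (hg1 : g ≤ 1) (he : 0 < e) :
    0 ≤ ∫ x in Ioi (0 : ℝ), cgW g τ L F x * (cintJ g F x + 3 * e * bet g F x) := by
  have hτ := hw.tau
  have hb : CintBd (fun x => cintJ g F x + 3 * e * bet g F x) :=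
    (cint_bdJ h.adm g).add ((CintBd.const _).mul (cint_bdb h.adm g))
  have hc : Continuous (fun x => cintJ g F x + 3 * e * bet g F x) :=
    (cintJ_cont h.adm).add ((cintb_cont h.adm).const_mul _)
  have hint := cg_integrable hw.smb h.adm hg hg1 hτ hc hb
  have h1 := intervalIntegral_tendsto_integral_Ioi 0 hint.integrableOn tendsto_id
  have h2 : Tendsto (fun R => -cgK g τ e L F R) atTop (𝓝 0) := by
    simpa using (cgK_tendsto hw.smb h hg hg1 hτ he).neg
  refine le_of_tendsto_of_tendsto h2 h1 ?_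
  filter_upwards [eventually_ge_atTop 0] with R hR
  have hd : ∀ x, HasDerivAt (cgK g τ e L F) _ x := fun x =>
    cgK_deriv hw.smb h.adm.smb.smooth (h.adm.pos x).ne' hτ he (h.bet_nonneg x)
  have h3 := intervalIntegral.sub_le_integral_of_hasDeriv_right_of_le hR
    (g := fun x => -cgK g τ e L F x)
    (fun x _ => (hd x).continuousAt.neg.continuousWithinAt)
    (fun x _ => (hd x).neg.hasDerivWithinAt) hint.integrableOn
    (fun x hx => by
      have := cg_ineq hw h hg he (x := x) hx.1.le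
      linarith)
  rw [cgK_zero hw h.adm, neg_zero, sub_zero] at h3
  exact h3

theorem cg_full (hw : Fw τ L F) (h : Good g C F) (hg : 0 < g) (hg1 : g ≤ 1) :
    0 ≤ ∫ x, cgW g τ L F x * cintJ g F x := by
  have hτ := hw.tau
  have hintJ := cg_integrable hw.smb h.adm hg hg1 hτ (cintJ_cont h.adm) (cint_bdJ h.adm g)
  have hintb := cg_integrable hw.smb h.adm hg hg1 hτ (cintb_cont h.adm) (cint_bdb h.adm g)
  have key : ∀ e : ℝ, 0 < e →
      0 ≤ (∫ x, cgW g τ L F x * cintJ g F x) + 3 * e * ∫ x, cgW g τ L F x * bet g F x := by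
    intro e he
    have h1 := cg_half hw h hg hg1 he
    have h2 : (∫ x, cgW g τ L F x * (cintJ g F x + 3 * e * bet g F x)) =
        2 * ∫ x in Ioi (0 : ℝ), cgW g τ L F x * (cintJ g F x + 3 * e * bet g F x) := by
      rw [← integral_comp_abs (f := fun x => cgW g τ L F x * (cintJ g F x + 3 * e * bet g F x))]
      congr 1
      funext x
      rcases abs_choice x with hx | hx <;> rw [hx]
      rw [cgW_even hw h.adm, cintJ_even h.adm, cintb_even h.adm]
    have h3 : (∫ x, cgW g τ L F x * (cintJ g F x + 3 * e * bet g F x)) =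
        (∫ x, cgW g τ L F x * cintJ g F x) + 3 * e * ∫ x, cgW g τ L F x * bet g F x := by
      rw [← integral_const_mul, ← integral_add hintJ (hintb.const_mul _)]
      congr 1
      funext x
      ring
    rw [← h3, h2]
    positivity
  set I := ∫ x, cgW g τ L F x * cintJ g F x
  set B := ∫ x, cgW g τ L F x * bet g F x
  by_contra hneg
  push Not at hneg
  have h1 := key (-I / (6 * (|B| + 1))) (by
    have := abs_nonneg B
    exact div_pos (by linarith) (by positivity))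
  have h2 : 3 * (-I / (6 * (|B| + 1))) * B ≤ -I / 2 := by
    have h3 : B ≤ |B| + 1 := by linarith [le_abs_self B]
    have h4 : 0 < |B| + 1 := by positivity
    have h5 : 0 ≤ 3 * (-I / (6 * (|B| + 1))) := by
      have : 0 < -I := by linarith
      positivity
    calc 3 * (-I / (6 * (|B| + 1))) * B ≤ 3 * (-I / (6 * (|B| + 1))) * (|B| + 1) :=
          mul_le_mul_of_nonneg_left h3 h5
      _ = -I / 2 := by
        field_simp
        ring
  linarith

theorem cert_gen {g C τ : ℝ} {L F : ℝ → ℝ} (hF : Good g C F) (hg : 0 < g) (hg1 : g ≤ 1)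
    (h : Fw τ L F) : 0 ≤ ∫ x, wgt τ g L F x * m2i g F x := by
  have h1 := cg_full h hF hg hg1
  have h2 : (fun x => cgW g τ L F x * cintJ g F x) = fun x => wgt τ g L F x * m2i g F x := by
    funext x
    exact cg_integrand (hF.adm.pos x).ne'
  rwa [h2] at h1

end CINT

end Vale.Agent.P367.Cl
end

section

/-!
# P367, classical half, FRep: the averages as integrals against explicit densities
-/

open MeasureTheory ProbabilityTheory Filter Topology Set

set_option linter.unusedVariables false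

namespace Vale.Agent.P367.Cl

open Vale.Agent.P157.Par
open Vale.Agent.P146.Gap
open Vale.Agent.P146.Pw2

/-! ### Gaussian integrals against explicit weights -/

theorem rep_neg (h : ℝ → ℝ) :
    ∫ z, h (-z) ∂(gaussianReal 0 1) = ∫ z, h z ∂(gaussianReal 0 1) := by
  have h1 : (gaussianReal 0 1).map (fun z : ℝ => -z) = gaussianReal 0 1 := by
    rw [gaussianReal_map_neg, neg_zero]
  have h2 : MeasurableEmbedding (fun z : ℝ => -z) := (Homeomorph.neg ℝ).measurableEmbedding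
  conv_rhs => rw [← h1]
  rw [h2.integral_map]

theorem rep_dens {s : ℝ} (hs : 0 < s) (f : ℝ → ℝ) :
    ∫ z, f (√s * z) ∂(gaussianReal 0 1) =
      (√(2 * Real.pi * s))⁻¹ * ∫ x, f x * Real.exp (-(x ^ 2 / (2 * s))) := by
  have h0 : 0 < √s := Real.sqrt_pos.2 hs
  rw [integral_gaussianReal_eq_integral_smul one_ne_zero]
  have h1 := Measure.integral_comp_mul_left (fun y : ℝ =>
    gaussianPDFReal 0 1 (y / √s) * f y) (√s)
  have h2 : ∀ z : ℝ, √s * z / √s = z := fun z => by field_simp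
  simp only [h2] at h1
  simp only [smul_eq_mul]
  rw [h1, abs_of_pos (inv_pos.2 h0), smul_eq_mul, ← integral_const_mul, ← integral_const_mul]
  congr 1
  funext y
  unfold gaussianPDFReal
  have h3 : √(2 * Real.pi * s) = √(2 * Real.pi) * √s := Real.sqrt_mul (by positivity) s
  have h4 : (y / √s - 0) ^ 2 = y ^ 2 / s := by
    rw [sub_zero, div_pow, Real.sq_sqrt hs.le]
  rw [h3, h4]
  simp only [NNReal.coe_one, mul_one, mul_inv]
  have h5 : -(y ^ 2 / s) / 2 = -(y ^ 2 / (2 * s)) := by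
    field_simp
  rw [h5]
  ring

theorem rep_exp_bd {τ a b : ℝ} (hτ : 0 < τ) (x : ℝ) :
    Real.exp (a + b * |x| - x ^ 2 / (2 * τ)) ≤
      Real.exp (a + b ^ 2 * τ) * Real.exp (-(1 / (4 * τ)) * x ^ 2) := by
  rw [← Real.exp_add]
  apply Real.exp_le_exp.mpr
  have h3 : 0 ≤ (|x| - 2 * τ * b) ^ 2 / (4 * τ) := by positivity
  have h4 : (|x| - 2 * τ * b) ^ 2 / (4 * τ) = x ^ 2 / (4 * τ) + b ^ 2 * τ - b * |x| := by
    field_simp
    rw [← sq_abs x]
    ring
  have h5 : x ^ 2 / (2 * τ) = 2 * (x ^ 2 / (4 * τ)) := by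
    field_simp
    norm_num
  have h6 : -(1 / (4 * τ)) * x ^ 2 = -(x ^ 2 / (4 * τ)) := by ring
  linarith

theorem rep_exp_int {τ : ℝ} (hτ : 0 < τ) (a b : ℝ) :
    Integrable (fun x : ℝ => Real.exp (a + b * |x| - x ^ 2 / (2 * τ))) := by
  refine Integrable.mono' (g := fun x => Real.exp (a + b ^ 2 * τ)
    * Real.exp (-(1 / (4 * τ)) * x ^ 2)) ?_
    (by fun_prop : Continuous fun x : ℝ =>
      Real.exp (a + b * |x| - x ^ 2 / (2 * τ))).aestronglyMeasurable (ae_of_all _ fun x => ?_)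
  · exact (integrable_exp_neg_mul_sq (by positivity)).const_mul _
  · rw [Real.norm_eq_abs, abs_of_pos (Real.exp_pos _)]
    exact rep_exp_bd hτ x

theorem rep_gexp_abs (t : ℝ) :
    Integrable (fun z : ℝ => Real.exp (t * |z|)) (gaussianReal 0 1) := by
  have h1 : Integrable (fun z : ℝ => Real.exp (t * z) + Real.exp (-t * z)) (gaussianReal 0 1) :=
    (integrable_exp_mul_gaussianReal t).add (integrable_exp_mul_gaussianReal (-t))
  refine h1.mono' (by fun_prop : Continuous fun z : ℝ =>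
    Real.exp (t * |z|)).aestronglyMeasurable (ae_of_all _ fun z => ?_)
  rw [Real.norm_eq_abs, abs_of_pos (Real.exp_pos _)]
  rcases abs_cases z with ⟨h, -⟩ | ⟨h, -⟩
  · rw [h]
    exact le_add_of_nonneg_right (Real.exp_pos _).le
  · rw [h, mul_neg, ← neg_mul]
    exact le_add_of_nonneg_left (Real.exp_pos _).le

/-- Fubini. -/
theorem rep_fubini {τ a b c C : ℝ} (hτ : 0 < τ) (s : ℝ) {A B : ℝ → ℝ} (hA : Continuous A)
    (hB : Continuous B) (hA' : ∀ x, |A x| ≤ Real.exp (a + b * |x| - x ^ 2 / (2 * τ)))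
    (hc : 0 ≤ c) (hB' : ∀ x, |B x| ≤ C * Real.exp (c * |x|)) :
    ∫ x, A x * ∫ z, B (x + √s * z) ∂(gaussianReal 0 1) =
      ∫ y, B y * ∫ z, A (y + √s * z) ∂(gaussianReal 0 1) := by
  have hC : 0 ≤ C := by
    have := (abs_nonneg _).trans (hB' 0)
    rwa [abs_zero, mul_zero, Real.exp_zero, mul_one] at this
  -- the first integrability
  have i1 : Integrable (fun p : ℝ × ℝ => A p.2 * B (p.2 + √s * p.1))
      ((gaussianReal 0 1).prod volume) := by
    have h1 : Integrable (fun p : ℝ × ℝ => C * Real.exp (c * √s * |p.1|) *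
        Real.exp (a + (b + c) * |p.2| - p.2 ^ 2 / (2 * τ)))
        ((gaussianReal 0 1).prod volume) :=
      ((rep_gexp_abs (c * √s)).const_mul C).mul_prod (rep_exp_int hτ a (b + c))
    refine h1.mono' (by fun_prop : Continuous fun p : ℝ × ℝ =>
      A p.2 * B (p.2 + √s * p.1)).aestronglyMeasurable (ae_of_all _ fun p => ?_)
    rw [Real.norm_eq_abs, abs_mul]
    have h2 : Real.exp (c * |p.2 + √s * p.1|) ≤
        Real.exp (c * |p.2|) * Real.exp (c * √s * |p.1|) := by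
      rw [← Real.exp_add]
      apply Real.exp_le_exp.mpr
      have h3 := abs_add_le p.2 (√s * p.1)
      rw [abs_mul, abs_of_nonneg (Real.sqrt_nonneg s)] at h3
      nlinarith [mul_le_mul_of_nonneg_left h3 hc]
    calc |A p.2| * |B (p.2 + √s * p.1)|
        ≤ Real.exp (a + b * |p.2| - p.2 ^ 2 / (2 * τ)) *
          (C * (Real.exp (c * |p.2|) * Real.exp (c * √s * |p.1|))) :=
          mul_le_mul (hA' _) ((hB' _).trans (mul_le_mul_of_nonneg_left h2 hC)) (abs_nonneg _)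
            (Real.exp_pos _).le
      _ = C * Real.exp (c * √s * |p.1|) *
          (Real.exp (a + b * |p.2| - p.2 ^ 2 / (2 * τ)) * Real.exp (c * |p.2|)) := by ring
      _ = _ := by
          rw [← Real.exp_add]
          congr 2
          ring
  have i2 : Integrable (fun p : ℝ × ℝ => A (p.2 - √s * p.1) * B p.2)
      ((gaussianReal 0 1).prod volume) := by
    rw [integrable_prod_iff (by fun_prop : Continuous fun p : ℝ × ℝ =>
      A (p.2 - √s * p.1) * B p.2).aestronglyMeasurable]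
    obtain ⟨h1, h2⟩ := (integrable_prod_iff (by fun_prop : Continuous fun p : ℝ × ℝ =>
      A p.2 * B (p.2 + √s * p.1)).aestronglyMeasurable).1 i1
    have h3 : ∀ z y : ℝ, A (y - √s * z) * B y =
        A (y - √s * z) * B ((y - √s * z) + √s * z) := fun z y => by rw [sub_add_cancel]
    constructor
    · filter_upwards [h1] with z hz
      have h4 := hz.comp_sub_right (√s * z)
      refine h4.congr (ae_of_all _ fun y => ?_)
      simp only
      rw [sub_add_cancel]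
    · refine h2.congr (ae_of_all _ fun z => ?_)
      simp only
      have h4 := integral_sub_right_eq_self (μ := volume) (fun x : ℝ => ‖A x * B (x + √s * z)‖) (√s * z)
      rw [← h4]
      congr 1
      funext y
      rw [sub_add_cancel]
  have e1 : ∫ x, A x * ∫ z, B (x + √s * z) ∂(gaussianReal 0 1) =
      ∫ z, (∫ x, A x * B (x + √s * z)) ∂(gaussianReal 0 1) := by
    have h1 := integral_integral_swap (f := fun (z x : ℝ) => A x * B (x + √s * z)) i1
    rw [h1]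
    congr 1
    funext x
    rw [integral_const_mul]
  have e2 : ∀ z : ℝ, ∫ x, A x * B (x + √s * z) = ∫ y, A (y - √s * z) * B y := by
    intro z
    have h4 := integral_sub_right_eq_self (μ := volume) (fun x : ℝ => A x * B (x + √s * z)) (√s * z)
    rw [← h4]
    congr 1
    funext y
    rw [sub_add_cancel]
  rw [e1]
  simp only [e2]
  have h1 := integral_integral_swap (f := fun (z x : ℝ) => A (x - √s * z) * B x) i2
  rw [h1]
  congr 1
  funext y
  have h2 := rep_neg (fun z => A (y + √s * z))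
  rw [← h2, mul_comm, ← integral_mul_const]
  congr 1
  funext z
  rw [mul_neg, ← sub_eq_add_neg]


section REP

variable {g C τ s : ℝ} {L G ψ : ℝ → ℝ} {n l : ℕ} {m r : ℕ → ℝ}

theorem rep_smb_lip (hL : SmB L) : ∃ K : ℝ, 0 ≤ K ∧ ∀ x, |L x| ≤ |L 0| + K * |x| := by
  obtain ⟨K, hK⟩ := hL.bd 0
  refine ⟨K, (abs_nonneg _).trans (hK 0), fun x => ?_⟩
  have h2 := Convex.norm_image_sub_le_of_norm_hasDerivWithin_le (f := L)
    (f' := iteratedDeriv 1 L) (s := univ) (C := K) (x := 0) (y := x)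
    (fun y _ => (by
      have := cint_hasDerivAt hL.smooth 0 y
      rw [iteratedDeriv_zero] at this
      exact this.hasDerivWithinAt)) (fun y _ => hK y) convex_univ (mem_univ _) (mem_univ _)
  rw [Real.norm_eq_abs, Real.norm_eq_abs, sub_zero] at h2
  have h3 := abs_sub_abs_le_abs_sub (L x) (L 0)
  linarith

theorem wgt_integrable (hL : SmB L) (hG : Adm C G) (g : ℝ) (hτ : 0 < τ) (hψ : Sp7Cb ψ) :
    Integrable (fun x => wgt τ g L G x * ψ x) := by
  obtain ⟨K, -, hK⟩ := rep_smb_lip hL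
  obtain ⟨hc, M, hM⟩ := hψ
  have hLc : Continuous L := hL.smooth.continuous
  have hGc : Continuous G := hG.smb.smooth.continuous
  refine Integrable.mono' (g := fun x => Real.exp ((|L 0| + |g| * |G 0|) + (K + |g|) * |x|
    - x ^ 2 / (2 * τ)) * M) ((rep_exp_int hτ _ _).mul_const M)
    (by unfold wgt; fun_prop : Continuous fun x => wgt τ g L G x * ψ x).aestronglyMeasurable
    (ae_of_all _ fun x => ?_)
  rw [Real.norm_eq_abs, abs_mul]
  refine mul_le_mul ?_ (hM x) (abs_nonneg _) (Real.exp_pos _).le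
  unfold wgt
  rw [abs_of_pos (Real.exp_pos _)]
  apply Real.exp_le_exp.mpr
  have h1 := (le_abs_self _).trans (hK x)
  have h2 : g * G x ≤ |g| * (|G 0| + |x|) := by
    refine (le_abs_self _).trans ?_
    rw [abs_mul]
    exact mul_le_mul_of_nonneg_left (cint_lip hG x) (abs_nonneg g)
  linarith

/-- Fubini and `lh_heat`. -/
theorem rep_heat (hL : SmB L) (hG : Adm C G) (hg : 0 < g) (hτ : 0 < τ) (hs : 0 ≤ s)
    (hψ : Sp7Cb ψ) : ∫ x, wgt τ g L (gstep g s G) x * tlt g s G ψ x =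
      √(τ / (τ + s)) * ∫ x, wgt (τ + s) g (Lh τ L s) G x * ψ x := by
  obtain ⟨K, -, hK⟩ := rep_smb_lip hL
  obtain ⟨hc, M, hM⟩ := hψ
  have hLc : Continuous L := hL.smooth.continuous
  have hGc : Continuous G := hG.smb.smooth.continuous
  have h1 := rep_fubini (τ := τ) (a := |L 0|) (b := K) (c := g) (C := M * Real.exp (g * |G 0|)) hτ s
    (A := fun x => Real.exp (L x - x ^ 2 / (2 * τ))) (B := fun y => ψ y * Real.exp (g * G y))
    (by fun_prop) (by fun_prop) (fun x => by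
      rw [abs_of_pos (Real.exp_pos _)]
      apply Real.exp_le_exp.mpr
      have := (le_abs_self _).trans (hK x)
      linarith) hg.le (fun x => by
      rw [abs_mul, abs_of_pos (Real.exp_pos _), mul_assoc, ← Real.exp_add]
      refine mul_le_mul (hM x) (Real.exp_le_exp.mpr ?_) (Real.exp_pos _).le
        ((abs_nonneg _).trans (hM 0))
      have := mul_le_mul_of_nonneg_left ((le_abs_self _).trans (cint_lip hG x)) hg.le
      linarith)
  have e1 : ∀ x, wgt τ g L (gstep g s G) x * tlt g s G ψ x = Real.exp (L x - x ^ 2 / (2 * τ)) *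
      ∫ z, ψ (x + √s * z) * Real.exp (g * G (x + √s * z)) ∂(gaussianReal 0 1) := by
    intro x
    have h2 := (adm_ec hG).sm.int_exp_pos g s x
    unfold wgt gstep tlt
    rw [← mul_assoc, mul_one_div, div_self hg.ne', one_mul, Real.exp_add, Real.exp_log h2]
    field_simp
  have e2 : ∀ y, ψ y * Real.exp (g * G y) *
      ∫ z, Real.exp (L (y + √s * z) - (y + √s * z) ^ 2 / (2 * τ)) ∂(gaussianReal 0 1) =
      √(τ / (τ + s)) * (wgt (τ + s) g (Lh τ L s) G y * ψ y) := by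
    intro y
    rw [lh_heat hL hτ hs y]
    unfold wgt
    rw [Real.exp_add]
    ring
  simp only [e1]
  rw [h1]
  simp only [e2]
  rw [integral_const_mul]

theorem rep_start (hG : Adm C G) (hg : 0 < g) (hs : 0 < s) : ∃ c : ℝ, 0 < c ∧
    ∀ ψ, Sp7Cb ψ → tlt g s G ψ 0 = c * ∫ x, wgt s g (fun _ => 0) G x * ψ x := by
  have h2 := (adm_ec hG).sm.int_exp_pos g s 0
  refine ⟨(√(2 * Real.pi * s))⁻¹ / ∫ z, Real.exp (g * G (0 + √s * z)) ∂(gaussianReal 0 1),
    by positivity, fun ψ _ => ?_⟩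
  unfold tlt
  simp only [zero_add]
  rw [rep_dens hs (fun x => ψ x * Real.exp (g * G x)), div_mul_eq_mul_div]
  congr 2
  congr 1
  funext x
  unfold wgt
  rw [Real.exp_add, zero_sub]
  ring

theorem rep_tlt_zero (g : ℝ) (F ψ : ℝ → ℝ) : tlt g 0 F ψ = ψ := by
  funext x
  unfold tlt
  simp

theorem rep_r_zero (hr : Path n r) (h0 : r 0 = 0) (hl : l ≤ n) (hrl : r l = 0) {i : ℕ}
    (hi : i ≤ l) : r i = 0 :=
  le_antisymm (hrl ▸ gapn_path_le hr hi hl) (h0 ▸ gapn_path_le hr (Nat.zero_le i) (hi.trans hl))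

theorem rep_r_nonneg (hr : Path n r) (hl : l ≤ n) : 0 ≤ r l :=
  hr.1.trans (gapn_path_le hr (Nat.zero_le l) hl)

theorem rep_zero (hm : Exponents n m) (hr : Path n r) (h0 : r 0 = 0) (hl : l ≤ n) (hrl : r l = 0)
    (hψ : Sp7Cb ψ) : Ee n m r l ψ = ψ 0 := by
  clear hψ
  induction l generalizing ψ with
  | zero => exact ee_zero h0 ψ
  | succ l ih =>
    have h1 := rep_r_zero hr h0 hl hrl (Nat.le_succ l)
    rw [ee_succ hl, hrl, h1, sub_zero, rep_tlt_zero]
    exact ih (by omega) h1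

/-- the functions of the block `(l, l + 1)` -/
theorem rep_good (hm : Exponents n m) (hr : Path n r) (hl : l < n) :
    ∃ C, Good (m (l + 1)) C (Fl n m r (l + 1)) := by
  obtain ⟨C, hC⟩ := fl_good hm hr (l := l + 1) hl
  exact ⟨C, hC.lower (gapn_exp_pos hm (by omega) (by omega)) (hm.2.2 (l + 1) hl).le⟩

theorem rep_good_gb (hm : Exponents n m) (hr : Path n r) (hl : l < n) {t : ℝ}
    (ht : t ∈ Icc 0 (r (l + 1) - r l)) : ∃ C, Good (m (l + 1)) C (Gb n m r l t) := by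
  obtain ⟨C, hC⟩ := rep_good hm hr hl
  obtain ⟨g0, g1⟩ := sp7_exp_of hm l hl
  exact ⟨_, hC.step g0 le_rfl g1 (sub_nonneg.2 ht.2)⟩

theorem fw_ld (hm : Exponents n m) (hr : Path n r) (hl : l ≤ n) (hrl : 0 < r l)
    (h0 : r 0 = 0) : Fw (r l) (Ld n m r l) (Fl n m r l) := by
  induction l with
  | zero => exact absurd h0 hrl.ne'
  | succ l ih =>
    obtain ⟨C, hC⟩ := rep_good hm hr hl
    obtain ⟨g0, g1⟩ := sp7_exp_of hm l hl
    by_cases h : r l ≤ 0
    · have e : Ld n m r (l + 1) = fun _ => 0 := by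
        unfold Ld
        rw [if_pos h]
      rw [e]
      exact fw_base hC g0 hrl
    · push Not at h
      have hv : 0 ≤ r (l + 1) - r l := sub_nonneg.2 (hr.2 l hl)
      obtain ⟨C', hC'⟩ := fl_good hm hr (Nat.le_of_succ_le hl)
      have h1 := (ih (Nat.le_of_succ_le hl) h).level hC' g0
        (δ := m (l + 1) - m l) (sub_nonneg.2 (hm.2.2 l (Nat.le_of_succ_le hl)).le)
      rw [fl_succ hl] at h1
      have h2 := fw_step hC g0 g1 hv h1 _ (right_mem_Icc.2 hv)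
      rw [sub_self, gstep_zero g0.ne', add_sub_cancel, ← fl_succ hl] at h2
      have e : Ld n m r (l + 1) =
          Lh (r l) (fun x => Ld n m r l x - (m (l + 1) - m l) * Fl n m r l x)
            (r (l + 1) - r l) := by
        conv_lhs => unfold Ld
        rw [if_neg (not_le.2 h)]
      rw [e]
      exact h2

theorem rep_wgt_lu (x : ℝ) (τ : ℝ) (G : ℝ → ℝ) (h : G = Fl n m r l) :
    wgt τ (m l) (Ld n m r l) (Fl n m r l) x = wgt τ (m (l + 1)) (Lu n m r l) G x := by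
  unfold wgt Lu
  rw [h]
  congr 1
  ring

theorem rep (hm : Exponents n m) (hr : Path n r) (h0 : r 0 = 0) (hl : l ≤ n) (hrl : 0 < r l) :
    ∃ c : ℝ, 0 < c ∧ ∀ ψ, Sp7Cb ψ →
      Ee n m r l ψ = c * ∫ x, wgt (r l) (m l) (Ld n m r l) (Fl n m r l) x * ψ x := by
  induction l with
  | zero => exact absurd h0 hrl.ne'
  | succ l ih =>
    obtain ⟨C, hC⟩ := rep_good hm hr hl
    obtain ⟨g0, g1⟩ := sp7_exp_of hm l hl
    by_cases h : r l ≤ 0
    · have e : Ld n m r (l + 1) = fun _ => 0 := by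
        unfold Ld
        rw [if_pos h]
      have h1 : r l = 0 := le_antisymm h (rep_r_nonneg hr (Nat.le_of_succ_le hl))
      obtain ⟨c, hc, hcc⟩ := rep_start hC.adm g0 hrl
      refine ⟨c, hc, fun ψ hψ => ?_⟩
      rw [ee_succ hl, rep_zero hm hr h0 (Nat.le_of_succ_le hl) h1
        (sp7_cb_tlt (adm_ec hC.adm) hψ _ _), h1, sub_zero, e]
      exact hcc ψ hψ
    · push Not at h
      have hv : 0 ≤ r (l + 1) - r l := sub_nonneg.2 (hr.2 l hl)
      obtain ⟨c, hc, hcc⟩ := ih (Nat.le_of_succ_le hl) h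
      have e : Ld n m r (l + 1) =
          Lh (r l) (Lu n m r l) (r (l + 1) - r l) := by
        conv_lhs => unfold Ld
        rw [if_neg (not_le.2 h)]
        rfl
      have hL : SmB (Lu n m r l) := by
        obtain ⟨C', hC'⟩ := fl_good hm hr (Nat.le_of_succ_le hl)
        exact ((fw_ld hm hr (Nat.le_of_succ_le hl) h h0).level hC' g0
          (sub_nonneg.2 (hm.2.2 l (Nat.le_of_succ_le hl)).le)).smb
      refine ⟨c * √(r l / (r l + (r (l + 1) - r l))), mul_pos hc (Real.sqrt_pos.2 (by positivity)),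
        fun ψ hψ => ?_⟩
      rw [ee_succ hl, hcc _ (sp7_cb_tlt (adm_ec hC.adm) hψ _ _)]
      simp only [rep_wgt_lu (n := n) (m := m) (r := r) (l := l) _ (r l) _ (fl_succ hl).symm]
      rw [rep_heat hL hC.adm g0 h hv hψ, e, ← mul_assoc, add_sub_cancel]

theorem rep_block (hm : Exponents n m) (hr : Path n r) (h0 : r 0 = 0) (hl : l < n) {t : ℝ}
    (ht : t ∈ Icc 0 (r (l + 1) - r l)) (hrt : 0 < r l + t) :
    ∃ (L : ℝ → ℝ) (c : ℝ), 0 < c ∧ Fw (r l + t) L (Gb n m r l t) ∧ ∀ ψ, Sp7Cb ψ →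
      Bt n m r l t ψ = c * ∫ x, wgt (r l + t) (m (l + 1)) L (Gb n m r l t) x * ψ x := by
  obtain ⟨C, hC⟩ := rep_good hm hr hl
  obtain ⟨C₂, hC₂⟩ := rep_good_gb hm hr hl ht
  obtain ⟨g0, g1⟩ := sp7_exp_of hm l hl
  by_cases h : r l ≤ 0
  · have h1 : r l = 0 := le_antisymm h (rep_r_nonneg hr hl.le)
    rw [h1, zero_add] at hrt
    obtain ⟨c, hc, hcc⟩ := rep_start hC₂.adm g0 hrt
    refine ⟨fun _ => 0, c, hc, ?_, fun ψ hψ => ?_⟩
    · rw [h1, zero_add]
      exact fw_base hC₂ g0 hrt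
    · unfold Bt
      rw [rep_zero hm hr h0 hl.le h1 (sp7_cb_tlt (adm_ec hC₂.adm) hψ _ _), h1, zero_add]
      exact hcc ψ hψ
  · push Not at h
    have hv : 0 ≤ r (l + 1) - r l := sub_nonneg.2 (hr.2 l hl)
    obtain ⟨c, hc, hcc⟩ := rep hm hr h0 hl.le h
    obtain ⟨C', hC'⟩ := fl_good hm hr hl.le
    have hf : Fw (r l) (Lu n m r l) (Fl n m r l) :=
      (fw_ld hm hr hl.le h h0).level hC' g0 (sub_nonneg.2 (hm.2.2 l hl.le).le)
    have e1 : gstep (m (l + 1)) t (Gb n m r l t) = Fl n m r l := by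
      unfold Gb
      rw [gstep_add hC.adm g0 ht.1 (sub_nonneg.2 ht.2), fl_succ hl]
      congr 1
      ring
    refine ⟨Lh (r l) (Lu n m r l) t, c * √(r l / (r l + t)),
      mul_pos hc (Real.sqrt_pos.2 (div_pos h hrt)), ?_, fun ψ hψ => ?_⟩
    · have h2 := hf
      rw [fl_succ hl] at h2
      exact fw_step hC g0 g1 hv h2 t ht
    · unfold Bt
      rw [hcc _ (sp7_cb_tlt (adm_ec hC₂.adm) hψ _ _)]
      simp only [rep_wgt_lu (n := n) (m := m) (r := r) (l := l) _ (r l) _ e1]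
      rw [rep_heat hf.smb hC₂.adm g0 h ht.1 hψ, ← mul_assoc]

theorem M2b_nonneg (hm : Exponents n m) (hr : Path n r) (h0 : r 0 = 0) (hl : l < n) {t : ℝ}
    (ht : t ∈ Icc 0 (r (l + 1) - r l)) (hrt : 0 < r l + t) : 0 ≤ M2b n m r l t := by
  obtain ⟨L, c, hc, hf, hcc⟩ := rep_block hm hr h0 hl ht hrt
  obtain ⟨C, hC⟩ := rep_good_gb hm hr hl ht
  obtain ⟨g0, g1⟩ := sp7_exp_of hm l hl
  have hb : Sp7Cb (m2i (m (l + 1)) (Gb n m r l t)) := by
    have h2 : CintBd (iteratedDeriv 2 (Gb n m r l t)) := hC.adm.smb.bd 1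
    have h3 : CintBd (iteratedDeriv 3 (Gb n m r l t)) := hC.adm.smb.bd 2
    have h4 : CintBd (iteratedDeriv 4 (Gb n m r l t)) := hC.adm.smb.bd 3
    have c2 := cint_cont hC.adm 2
    have c3 := cint_cont hC.adm 3
    have c4 := cint_cont hC.adm 4
    refine ⟨?_, ?_⟩
    · unfold m2i
      fun_prop
    · exact (((h4.pow 2).sub ((((CintBd.const 12).mul (CintBd.const (m (l + 1)))).mul h2).mul
        (h3.pow 2))).add (((CintBd.const 6).mul ((CintBd.const (m (l + 1))).pow 2)).mul (h2.pow 4)))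
  unfold M2b
  rw [hcc _ hb]
  exact mul_nonneg hc.le (cert_gen hC g0 g1 hf)

end REP

end Vale.Agent.P367.Cl
end
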