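import Mathlib
import Vale.Agent.P146.Bd3.B1
import Vale.Agent.P146.Bdl.B19
import Vale.Agent.P146.Bdl.B37
import Vale.Agent.P146.Bd3.B2
import Vale.Agent.P146.Bdl.B42

set_option linter.all false

section

/-!
# P146, L1: LVup, moving the level `l ≥ d` up inside the block `(l, l + 1)`
-/

open MeasureTheory ProbabilityTheory Filter Topology Set

namespace Vale.Agent.P146.Lb

open Vale.Agent.P157.Par
open Vale.Agent.P146.Gap
open Vale.Agent.P146.Pw2
open Vale.Agent.P367.Cl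

/-- `var_up` for the minimiser over the paths which vanish below the level `e`: the competitor
changes only the level `l ≥ e`. -/
theorem var_upD {b : ℝ} (hb : 1 < b) : ∃ C : ℝ, 1 ≤ C ∧ ∀ (n d : ℕ) (r : ℕ → ℝ) (l : ℕ),
    IsMinD b n d r → 1 ≤ l → d ≤ l → l < n → ∀ t ∈ Icc 0 (r (l + 1) - r l),
      ∫ s in (0 : ℝ)..t, (Rb n (gm n) r l s - (r l + s) / b ^ 2) ≤ C / (n + 1) * t ^ 2 := by
  have hb0 : 0 < b := by linarith
  obtain ⟨K, hK0, hK⟩ := tlt_exp_lip (b ^ 2)
  refine ⟨1 + 2 * K, by linarith, ?_⟩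
  intro n e0 r l h hl1 hel hl t ht
  have hm := gm_exponents n
  have hpath := h.1.2.1
  have hg : 0 < gm n (l + 1) := gapn_exp_pos hm (by omega) (by omega)
  have hg1 : gm n (l + 1) ≤ 1 := gapn_exp_le_one hm (by omega)
  have hg' : 0 < gm n l := gapn_exp_pos hm hl1 (by omega)
  have hg'1 : gm n l ≤ 1 := gapn_exp_le_one hm (by omega)
  have hδ := gm_sub n l
  have ht0 : 0 ≤ t := ht.1
  have hrb := long_r_le h.1 (show l + 1 ≤ n by omega)
  have hr0 := long_r_nonneg h.1 hl.le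
  have htb : t ≤ b ^ 2 := by linarith only [ht.2, hr0, hrb]
  obtain ⟨C, hC⟩ := fl_good hm hpath (l := l + 1) (by omega)
  have hF := hC.adm
  have hmin := h.2.2 _ (up_path h.1 hl1 hl ht) (fun i hi => by
    rw [Function.update_of_ne (by omega)]
    exact h.2.1 i hi)
  unfold SKr at hmin
  rw [up_spin hm h.1 hl1 hl ht, minb_spin h.1.1, up_sum hl, fl_split (m := gm n) (r := r) hl.le]
    at hmin
  have eF1 : Fl n (gm n) r l = gstep (gm n (l + 1)) t (Gb n (gm n) r l t) := by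
    have := up_Gb hm hpath hl ht0 ht.2
    rw [sub_zero] at this
    rw [this, up_Gb_zero n _ r hl]
  have hVt : 0 ≤ r (l + 1) - r l - t := by linarith only [ht.2]
  have hGt := hF.step hg hg1 hVt
  have eGt : gstep (gm n (l + 1)) (r (l + 1) - r l - t) (Fl n (gm n) r (l + 1)) =
    Gb n (gm n) r l t := rfl
  rw [eGt] at hGt
  set g := gm n (l + 1) with hgd
  set g' := gm n l with hg'd
  set d : ℝ := 1 / ((n : ℝ) + 1) with hd
  have hd0 : 0 < d := by rw [hd]; positivity
  have hgg : g' ≤ g := by linarith only [hd0, hδ]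
  set G1 := gstep g' t (Gb n (gm n) r l t) with hG1
  set F1 := Fl n (gm n) r l with hF1
  have aG1 := hGt.step hg' hg'1 ht0
  rw [← hG1] at aG1
  have aF1 := hGt.step hg hg1 ht0
  rw [← eF1] at aF1
  have hE1 : Sp7Exp (gm n) l := fun i hi => ⟨long_gm_pos n i, long_gm_le (by omega)⟩
  have hη : ∀ x, |F1 x - G1 x| ≤ 1 / 2 * d * t := by
    intro x
    have h1 := gstep_exp_mono hGt hg' hgg hg1 ht0 x
    have h2 := gstep_exp_lip hGt hg' hgg hg1 ht0 x
    rw [← eF1, ← hG1] at h1 h2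
    rw [abs_le]
    rw [hδ] at h2
    constructor <;> nlinarith
  have hη' : ∀ x, |G1 x - F1 x| ≤ 1 / 2 * d * t := fun x => by rw [abs_sub_comm]; exact hη x
  -- convexity
  have hconv := casc_convex (m := gm n) (r := r) (l := l) aF1 aG1 h.1.1 hE1
    (fun i hi => hpath.2 i (by omega)) ⟨_, hη'⟩
  -- the averages
  set f' : ℝ → ℝ → ℝ := fun τ => tlt g' τ (Gb n (gm n) r l τ)
    (fun x => iteratedDeriv 1 (Gb n (gm n) r l τ) x ^ 2) with hf'
  set f : ℝ → ℝ → ℝ := fun τ => tlt g τ (Gb n (gm n) r l τ)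
    (fun x => iteratedDeriv 1 (Gb n (gm n) r l τ) x ^ 2) with hf
  have bf' : BcOn t f' := up_bc hF hg hg1 ht.2 g'
  have bf : BcOn t f := up_bc hF hg hg1 ht.2 g
  have hdiff : ∀ x, G1 x - F1 x = -(1 / 2 * d) * ∫ τ in (0 : ℝ)..t, f' τ x := by
    intro x
    have h1 := gstep_diff hGt hg hg1 hg' hg'1 ht0 x
    rw [← eF1, ← hG1] at h1
    rw [h1]
    have h2 : ∫ τ in (0 : ℝ)..t, tlt g' τ (gstep g (t - τ) (Gb n (gm n) r l t))
        (fun y => iteratedDeriv 1 (gstep g (t - τ) (Gb n (gm n) r l t)) y ^ 2) x =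
        ∫ τ in (0 : ℝ)..t, f' τ x := by
      refine intervalIntegral.integral_congr fun τ hτ => ?_
      rw [uIcc_of_le ht0] at hτ
      simp only [hf']
      rw [up_Gb hm hpath hl hτ.2 ht.2]
    rw [h2, ← hδ]
    ring
  -- change of the tilt
  have htilt : ∀ τ ∈ Icc 0 t, ∀ x, f τ x - 2 * K * d * τ ≤ f' τ x := by
    intro τ hτ x
    have aG := hF.step hg hg1 (show 0 ≤ r (l + 1) - r l - τ by linarith only [ht.2, hτ.2])
    have hE := adm_ec aG
    have h1 : Sp7Cb (fun x => iteratedDeriv 1 (Gb n (gm n) r l τ) x ^ 2) :=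
      sp7_cb_sq (sp7_cb_M hE)
    have h2 := hK (g := g) (g' := g') (s := τ) (L := 2) hE hg.le hg1 hg'.le hg'1 hτ.1
      (hτ.2.trans htb) (by norm_num) h1 (fun x y => by
        have a1 := hE.abs_M x
        have a2 := hE.abs_M y
        have a3 := convex_univ.norm_image_sub_le_of_norm_hasDerivWithin_le
          (f := iteratedDeriv 1 (Gb n (gm n) r l τ)) (s := Set.univ) (C := 1)
          (fun x _ => (hE.d2 x).hasDerivWithinAt) (fun x _ => hE.sm.bD x) (mem_univ y) (mem_univ x)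
        rw [Real.norm_eq_abs, Real.norm_eq_abs, one_mul] at a3
        have e : iteratedDeriv 1 (Gb n (gm n) r l τ) x ^ 2 -
            iteratedDeriv 1 (Gb n (gm n) r l τ) y ^ 2 =
            (iteratedDeriv 1 (Gb n (gm n) r l τ) x + iteratedDeriv 1 (Gb n (gm n) r l τ) y) *
            (iteratedDeriv 1 (Gb n (gm n) r l τ) x - iteratedDeriv 1 (Gb n (gm n) r l τ) y) := by
          ring
        rw [e, abs_mul]
        refine mul_le_mul ?_ a3 (abs_nonneg _) (by norm_num)
        exact (abs_add_le _ _).trans (by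
          have e1 : Gb n (gm n) r l τ = gstep g (r (l + 1) - r l - τ) (Fl n (gm n) r (l + 1)) := rfl
          rw [e1]
          linarith only [a2, a1])) x
    have h3 := (abs_le.1 h2).1
    have h4 : |g' - g| = d := by
      rw [abs_sub_comm, abs_of_nonneg (by linarith only [hd0, hδ])]
      exact hδ
    rw [h4] at h3
    have h5 : f' τ x - f τ x = tlt g' τ (gstep g (r (l + 1) - r l - τ) (Fl n (gm n) r (l + 1)))
      (fun x => iteratedDeriv 1 (Gb n (gm n) r l τ) x ^ 2) x -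
      tlt g τ (gstep g (r (l + 1) - r l - τ) (Fl n (gm n) r (l + 1)))
      (fun x => iteratedDeriv 1 (Gb n (gm n) r l τ) x ^ 2) x := rfl
    rw [← h5] at h3
    linarith only [h3]
  -- integrated
  have cI := var0_cb_int ht0 bf
  have cI' := var0_cb_int ht0 bf'
  have hΦ : ∀ x, (∫ τ in (0 : ℝ)..t, f τ x) + -(K * d * t ^ 2) ≤ ∫ τ in (0 : ℝ)..t, f' τ x := by
    intro x
    have i1 : IntervalIntegrable (fun τ => f τ x) volume 0 t :=
      (bf.time x).intervalIntegrable_of_Icc ht0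
    have i2 : IntervalIntegrable (fun τ => f' τ x) volume 0 t :=
      (bf'.time x).intervalIntegrable_of_Icc ht0
    have i3 : IntervalIntegrable (fun τ : ℝ => 2 * K * d * τ) volume 0 t :=
      (by fun_prop : Continuous fun τ : ℝ => 2 * K * d * τ).intervalIntegrable _ _
    have h1 := intervalIntegral.integral_mono_on ht0 (i1.sub i3) i2 (fun τ hτ => htilt τ hτ x)
    rw [intervalIntegral.integral_sub i1 i3, intervalIntegral.integral_const_mul, integral_id] at h1
    have e : 2 * K * d * ((t ^ 2 - 0 ^ 2) / 2) = K * d * t ^ 2 := by ring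
    rw [e] at h1
    linarith only [h1]
  have hΦ0 : ∀ x, 0 ≤ ∫ τ in (0 : ℝ)..t, f τ x := fun x =>
    intervalIntegral.integral_nonneg ht0 fun τ _ => (ex_tlt_mem hF hg hg1 _ τ x).1
  have hΦ1 : ∀ x, ∫ τ in (0 : ℝ)..t, f τ x ≤ t := by
    intro x
    have i0 : IntervalIntegrable (fun _ : ℝ => (1 : ℝ)) volume 0 t := intervalIntegrable_const
    have h1 := intervalIntegral.integral_mono_on ht0
      ((bf.time x).intervalIntegrable_of_Icc ht0) i0
      (fun τ _ => (ex_tlt_mem hF hg hg1 _ τ x).2)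
    rw [intervalIntegral.integral_const, smul_eq_mul, mul_one, sub_zero] at h1
    exact h1
  have hcI := var0_chn_integral (r := r) ht0 l hE1 bf (adm_ec aF1)
  have hEG := adm_ec aG1
  have hEF := adm_ec aF1
  -- the lower bound of the average
  have h1 : chn (gm n) r l G1 (fun x => G1 x - F1 x) =
      -(1 / 2 * d) * chn (gm n) r l G1 (fun x => ∫ τ in (0 : ℝ)..t, f' τ x) := by
    rw [← long_chn_smul]
    congr 1
    exact funext hdiff
  have h2 : chn (gm n) r l G1 (fun x => ∫ τ in (0 : ℝ)..t, f τ x) + -(K * d * t ^ 2) ≤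
      chn (gm n) r l G1 (fun x => ∫ τ in (0 : ℝ)..t, f' τ x) := by
    have := sp7_chn_mono (gm n) r l hE1 hEG (sp7_cb_add cI (sp7_cb_const (-(K * d * t ^ 2)))) cI' hΦ
    rwa [sp7_chn_add (gm n) r l hE1 hEG cI (sp7_cb_const _), sp7_chn_const (gm n) r l hE1 hEG]
      at this
  have h3 : chn (gm n) r l F1 (fun x => ∫ τ in (0 : ℝ)..t, f τ x) - 2 * (1 / 2 * d * t) * t ≤
      chn (gm n) r l G1 (fun x => ∫ τ in (0 : ℝ)..t, f τ x) :=
    chn_change_sub hm.1 hE1 (fun i hi => (hm.2.2 i (by omega)).le) hg'.le hg'1 hEF hEG cI hΦ0 hΦ1 hη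
  have h4 : chn (gm n) r l F1 (fun x => ∫ τ in (0 : ℝ)..t, f τ x) =
      ∫ τ in (0 : ℝ)..t, Rb n (gm n) r l τ := hcI.2
  have hRi : IntervalIntegrable (Rb n (gm n) r l) volume 0 t :=
    hcI.1.intervalIntegrable_of_Icc ht0
  have i4 : IntervalIntegrable (fun s : ℝ => (r l + s) / b ^ 2) volume 0 t :=
    (by fun_prop : Continuous fun s : ℝ => (r l + s) / b ^ 2).intervalIntegrable _ _
  rw [intervalIntegral.integral_sub hRi i4]
  have h5 : ∫ s in (0 : ℝ)..t, (r l + s) / b ^ 2 = ((r l + t) ^ 2 - r l ^ 2) / (2 * b ^ 2) := by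
    have j1 : IntervalIntegrable (fun _ : ℝ => r l) volume 0 t := intervalIntegrable_const
    have j2 : IntervalIntegrable (fun s : ℝ => s) volume 0 t := intervalIntegral.intervalIntegrable_id
    have j3 := intervalIntegral.integral_add j1 j2
    rw [intervalIntegral.integral_const, integral_id, smul_eq_mul] at j3
    rw [intervalIntegral.integral_div, j3]
    field_simp
    ring
  rw [h5]
  -- minimality
  rw [hδ, add_div] at hmin
  have h6 : (1 / 2 * d) * chn (gm n) r l G1 (fun x => ∫ τ in (0 : ℝ)..t, f' τ x) ≤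
      d * ((r l + t) ^ 2 - r l ^ 2) / (4 * b ^ 2) := by
    rw [h1] at hconv
    linarith only [hconv, hmin]
  have h7 : d * ((r l + t) ^ 2 - r l ^ 2) / (4 * b ^ 2) =
      (1 / 2 * d) * (((r l + t) ^ 2 - r l ^ 2) / (2 * b ^ 2)) := by
    field_simp
    ring
  rw [h7] at h6
  have h8 := le_of_mul_le_mul_left h6 (by (clear * -; positivity))
  have e9 : (1 + 2 * K) / ((n : ℝ) + 1) * t ^ 2 = d * t ^ 2 + 2 * K * d * t ^ 2 := by
    rw [hd]
    ring
  rw [e9]
  have h10 : 0 ≤ K * d * t ^ 2 := by (clear * - hK0; positivity)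
  rw [← h4]
  have e11 : 2 * (1 / 2 * d * t) * t = d * t ^ 2 := by ring
  linarith only [h10, h8, h3, h2]

end Vale.Agent.P146.Lb
end

section

/-!
# P146, L1: real analysis on the first block
-/

open MeasureTheory Set

namespace Vale.Agent.P146.Lb

theorem lreal_le {T a : ℝ} {f f' : ℝ → ℝ} {s : ℝ} (hsT : s ≤ T)
    (hc : ContinuousOn f (Icc s T)) (hd : ∀ t ∈ Ioo s T, HasDerivAt f (f' t) t)
    (h : ∀ t ∈ Ioo s T, f' t ≤ a) : f T ≤ f s + a * (T - s) := by
  have h1 := Convex.image_sub_le_mul_sub_of_deriv_le (convex_Icc s T) hc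
    (fun t ht => by
      rw [interior_Icc] at ht
      exact (hd t ht).differentiableAt.differentiableWithinAt)
    (C := a) (fun t ht => by
      rw [interior_Icc] at ht
      rw [(hd t ht).deriv]
      exact h t ht) s (left_mem_Icc.2 hsT) T (right_mem_Icc.2 hsT) hsT
  linarith

theorem lreal_ge {T a : ℝ} {f f' : ℝ → ℝ} {s : ℝ} (hsT : s ≤ T)
    (hc : ContinuousOn f (Icc s T)) (hd : ∀ t ∈ Ioo s T, HasDerivAt f (f' t) t)
    (h : ∀ t ∈ Ioo s T, a ≤ f' t) : f s + a * (T - s) ≤ f T := by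
  have h1 := Convex.mul_sub_le_image_sub_of_le_deriv (convex_Icc s T) hc
    (fun t ht => by
      rw [interior_Icc] at ht
      exact (hd t ht).differentiableAt.differentiableWithinAt)
    (C := a) (fun t ht => by
      rw [interior_Icc] at ht
      rw [(hd t ht).deriv]
      exact h t ht) s (left_mem_Icc.2 hsT) T (right_mem_Icc.2 hsT) hsT
  linarith

/-- A linear bound of `k = f'` gives a quadratic bound of `f`. -/
theorem lreal_quad {T p q : ℝ} {f k : ℝ → ℝ} (hc : ContinuousOn f (Icc 0 T))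
    (hd : ∀ t ∈ Ioo 0 T, HasDerivAt f (k t) t) (h0 : f 0 = 0)
    (h : ∀ t ∈ Ioo 0 T, k t ≤ p - q * t) {t : ℝ} (ht : t ∈ Icc 0 T) :
    f t ≤ p * t - q * t ^ 2 / 2 := by
  have h1 := lreal_le (f := fun t => f t - (p * t - q * t ^ 2 / 2))
    (f' := fun t => k t - (p - q * t)) (a := 0) ht.1
    ((hc.mono (Icc_subset_Icc_right ht.2)).sub (by fun_prop))
    (fun s hs => ((hd s ⟨hs.1, hs.2.trans_le ht.2⟩).sub (by
      have e1 : HasDerivAt (fun t : ℝ => p * t) p s := by
        simpa using (hasDerivAt_id s).const_mul p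
      have e2 : HasDerivAt (fun t : ℝ => q * t ^ 2 / 2) (q * s) s := by
        have := ((hasDerivAt_pow 2 s).const_mul q).div_const 2
        refine this.congr_deriv ?_
        norm_num
        ring
      exact e1.sub e2)))
    (fun s hs => by
      have := h s ⟨hs.1, hs.2.trans_le ht.2⟩
      linarith)
  simp only [h0] at h1
  linarith

theorem lreal_quad' {T p q : ℝ} {f k : ℝ → ℝ} (hc : ContinuousOn f (Icc 0 T))
    (hd : ∀ t ∈ Ioo 0 T, HasDerivAt f (k t) t) (h0 : f 0 = 0)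
    (h : ∀ t ∈ Ioo 0 T, p - q * t ≤ k t) {t : ℝ} (ht : t ∈ Icc 0 T) :
    p * t - q * t ^ 2 / 2 ≤ f t := by
  have h1 := lreal_quad (f := fun t => -f t) (k := fun t => -k t) (p := -p) (q := -q) hc.neg
    (fun s hs => (hd s hs).neg) (by simp [h0]) (fun s hs => by linarith [h s hs]) ht
  linarith only [h1]

/-- Step 4: the derivative at `0` of the excess is at least `α x²`. -/
theorem lreal_first {V x c κ h : ℝ} {f k k1 k2 : ℝ → ℝ} (hx : 0 < x) (hc : 0 < c) (hκ : 0 < κ)
    (hκV : κ * x ≤ V) (hf : ContinuousOn f (Icc 0 V)) (hk : ContinuousOn k (Icc 0 V))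
    (h1 : ∀ t ∈ Ioo 0 V, HasDerivAt f (k t) t) (h2 : ∀ t ∈ Ioo 0 V, HasDerivAt k (k1 t) t)
    (h3 : ∀ t ∈ Ioo 0 V, HasDerivAt k1 (k2 t) t) (h4 : ∀ t ∈ Ioo 0 V, 0 ≤ k2 t)
    (h5 : ∀ t ∈ Ioo 0 V, t ≤ κ * x → k1 t ≤ -(c * x)) (hf0 : f 0 = 0) (hfV : f V = 0)
    (h6 : ∀ t ∈ Icc 0 V, -(h * (V - t) ^ 2) ≤ ∫ s in t..V, f s) (hh : 0 ≤ h)
    (h7 : h * V ^ 2 < c * κ ^ 3 * x ^ 4 / 32) : c * κ / 8 * x ^ 2 ≤ k 0 := by
  by_contra hcon
  push Not at hcon
  have hκx : 0 < κ * x := by positivity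
  have hV : 0 < V := hκx.trans_le hκV
  have hsub : Icc 0 (κ * x) ⊆ Icc 0 V := Icc_subset_Icc_right hκV
  -- k below a line
  have hkl : ∀ t ∈ Icc 0 (κ * x), k t ≤ c * κ / 8 * x ^ 2 - c * x * t := fun t ht => by
    have := lreal_le (f := k) (f' := k1) (a := -(c * x)) ht.1
      (hk.mono (Icc_subset_Icc_right (ht.2.trans hκV)))
      (fun s hs => h2 s ⟨hs.1, hs.2.trans_le (ht.2.trans hκV)⟩)
      (fun s hs => h5 s ⟨hs.1, hs.2.trans_le (ht.2.trans hκV)⟩ (hs.2.le.trans ht.2))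
    linarith only [this, hcon]
  have hfl : ∀ t ∈ Icc 0 (κ * x), f t ≤ c * κ / 8 * x ^ 2 * t - c * x * t ^ 2 / 2 := fun t ht =>
    lreal_quad (hf.mono hsub) (fun s hs => h1 s ⟨hs.1, hs.2.trans_le hκV⟩) hf0
      (fun s hs => hkl s ⟨hs.1.le, hs.2.le⟩) ht
  -- convexity
  have hconv : ConvexOn ℝ (Icc 0 V) k := by
    refine convexOn_of_deriv2_nonneg (convex_Icc 0 V) hk ?_ ?_ ?_
    · rw [interior_Icc]
      exact fun t ht => (h2 t ht).differentiableAt.differentiableWithinAt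
    · rw [interior_Icc]
      intro t ht
      have e : deriv k =ᶠ[nhds t] k1 := by
        filter_upwards [isOpen_Ioo.mem_nhds ht] with s hs
        exact (h2 s hs).deriv
      exact ((h3 t ht).differentiableAt.congr_of_eventuallyEq e).differentiableWithinAt
    · rw [interior_Icc]
      intro t ht
      have e : deriv k =ᶠ[nhds t] k1 := by
        filter_upwards [isOpen_Ioo.mem_nhds ht] with s hs
        exact (h2 s hs).deriv
      show 0 ≤ deriv (deriv k) t
      rw [e.deriv_eq, (h3 t ht).deriv]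
      exact h4 t ht
  -- f is negative at κ x, hence nonpositive above
  have hft0 : f (κ * x) < 0 := by
    have := hfl (κ * x) ⟨hκx.le, le_rfl⟩
    have e : c * κ / 8 * x ^ 2 * (κ * x) - c * x * (κ * x) ^ 2 / 2 =
        -(3 / 8 * (c * κ ^ 2 * x ^ 3)) := by ring
    rw [e] at this
    have : 0 < c * κ ^ 2 * x ^ 3 := by positivity
    linarith
  have hkt0 : k (κ * x) < 0 := by
    have := hkl (κ * x) ⟨hκx.le, le_rfl⟩
    have e : c * κ / 8 * x ^ 2 - c * x * (κ * x) = -(7 / 8 * (c * κ * x ^ 2)) := by ring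
    rw [e] at this
    have : 0 < c * κ * x ^ 2 := by positivity
    linarith
  have hneg : ∀ t ∈ Icc (κ * x) V, f t ≤ 0 := by
    intro t2 ht2
    by_contra hpos
    push Not at hpos
    have ht2' : κ * x < t2 := by
      rcases ht2.1.lt_or_eq with h' | h'
      · exact h'
      · rw [← h'] at hpos
        linarith only [hpos, hft0]
    have ht2V : t2 < V := by
      rcases ht2.2.lt_or_eq with h' | h'
      · exact h'
      · rw [h', hfV] at hpos
        exact absurd hpos (lt_irrefl _)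
    obtain ⟨t3, ht3, e3⟩ := exists_hasDerivAt_eq_slope f k ht2'
      (hf.mono (Icc_subset_Icc hκx.le ht2.2))
      (fun s hs => h1 s ⟨hκx.trans hs.1, hs.2.trans_le ht2.2⟩)
    obtain ⟨t4, ht4, e4⟩ := exists_hasDerivAt_eq_slope f k ht2V
      (hf.mono (Icc_subset_Icc (hκx.le.trans ht2.1) le_rfl))
      (fun s hs => h1 s ⟨(hκx.trans ht2').trans hs.1, hs.2⟩)
    have k3 : 0 < k t3 := by
      rw [e3]
      exact div_pos (by linarith only [hpos, hft0]) (by linarith)
    have k4 : k t4 < 0 := by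
      rw [e4, hfV]
      exact div_neg_of_neg_of_pos (by linarith only [hpos]) (by linarith only [ht2V])
    have hmem : t3 ∈ segment ℝ (κ * x) t4 := by
      rw [segment_eq_Icc (by linarith only [ht4.1, ht3.2, ht3.1])]
      exact ⟨ht3.1.le, by linarith only [ht4.1, ht3.2]⟩
    have := hconv.le_on_segment (x := κ * x) (y := t4) ⟨hκx.le, hκV⟩
      ⟨by linarith only [ht4.1, ht2', hκx], ht4.2.le⟩ hmem
    have h9 : max (k (κ * x)) (k t4) < 0 := max_lt hkt0 k4
    linarith only [h9, this, k3]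
  -- the integral
  have hm : κ * x / 2 ∈ Icc 0 V := ⟨by positivity, by linarith only [hV, hκV]⟩
  have i1 := h6 _ hm
  have hint : IntervalIntegrable f volume (κ * x / 2) (κ * x) :=
    ContinuousOn.intervalIntegrable (by
      rw [uIcc_of_le (by linarith only [hκx])]
      exact hf.mono (Icc_subset_Icc hm.1 hκV))
  have hint2 : IntervalIntegrable f volume (κ * x) V :=
    ContinuousOn.intervalIntegrable (by
      rw [uIcc_of_le hκV]
      exact hf.mono (Icc_subset_Icc hκx.le le_rfl))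
  rw [← intervalIntegral.integral_add_adjacent_intervals hint hint2] at i1
  have i2 : ∫ s in (κ * x)..V, f s ≤ 0 := by
    have := intervalIntegral.integral_mono_on hκV hint2 intervalIntegrable_const hneg
    simpa using this
  have i3 : ∫ s in (κ * x / 2)..(κ * x), f s ≤ (κ * x / 2) * -(c * κ ^ 2 * x ^ 3 / 16) := by
    have h10 : ∀ t ∈ Icc (κ * x / 2) (κ * x), f t ≤ -(c * κ ^ 2 * x ^ 3 / 16) := fun t ht => by
      have e1 := hfl t ⟨hm.1.trans ht.1, ht.2⟩
      have e2 : c * κ / 8 * x ^ 2 * t - c * x * t ^ 2 / 2 =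
          c * x * t * (κ * x / 8 - t / 2) := by ring
      have e3 : κ * x / 8 - t / 2 ≤ -(κ * x / 8) := by linarith only [ht.1]
      have e4 : 0 ≤ c * x * t := mul_nonneg (by positivity) (hm.1.trans ht.1)
      have e5 : c * x * t * (κ * x / 8 - t / 2) ≤ c * x * t * -(κ * x / 8) :=
        mul_le_mul_of_nonneg_left e3 e4
      have e6 : c * x * (κ * x / 2) * (κ * x / 8) ≤ c * x * t * (κ * x / 8) :=
        mul_le_mul_of_nonneg_right (mul_le_mul_of_nonneg_left ht.1 (by positivity)) (by positivity)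
      have e7 : c * x * (κ * x / 2) * (κ * x / 8) = c * κ ^ 2 * x ^ 3 / 16 := by ring
      linarith only [e6, e5, e1]
    have := intervalIntegral.integral_mono_on (by linarith only [hκx] : κ * x / 2 ≤ κ * x) hint
      intervalIntegrable_const h10
    rw [intervalIntegral.integral_const, smul_eq_mul] at this
    refine this.trans (le_of_eq ?_)
    ring
  have i4 : h * (V - κ * x / 2) ^ 2 ≤ h * V ^ 2 := by
    refine mul_le_mul_of_nonneg_left ?_ hh
    refine pow_le_pow_left₀ ?_ ?_ 2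
    · linarith only [hV, hκV]
    · linarith only [hκx]
  have i5 : (κ * x / 2) * -(c * κ ^ 2 * x ^ 3 / 16) = -(c * κ ^ 3 * x ^ 4 / 32) := by ring
  linarith only [i4, i3, i2, i1, h7]

/-- Step 4, the integral. -/
theorem lreal_gain {V x A a : ℝ} {f k : ℝ → ℝ} (hx : 0 < x) (ha : 0 < a) (haA : 2 * a ≤ A)
    (haV : a * x ≤ V) (hf : ContinuousOn f (Icc 0 V)) (hk0 : A * x ^ 2 ≤ k 0)
    (hk : ContinuousOn k (Icc 0 V)) {k1 : ℝ → ℝ}
    (h1 : ∀ t ∈ Ioo 0 V, HasDerivAt f (k t) t) (h2 : ∀ t ∈ Ioo 0 V, HasDerivAt k (k1 t) t)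
    (h5 : ∀ t ∈ Ioo 0 V, -(2 * x) ≤ k1 t) (hf0 : f 0 = 0) :
    A * a ^ 2 / 3 * x ^ 4 ≤ ∫ s in (0 : ℝ)..(a * x), f s := by
  have hax : 0 < a * x := by positivity
  have hkl : ∀ t ∈ Icc 0 (a * x), A * x ^ 2 - 2 * x * t ≤ k t := fun t ht => by
    have := lreal_ge (f := k) (f' := k1) (a := -(2 * x)) ht.1
      (hk.mono (Icc_subset_Icc_right (ht.2.trans haV)))
      (fun s hs => h2 s ⟨hs.1, hs.2.trans_le (ht.2.trans haV)⟩)
      (fun s hs => h5 s ⟨hs.1, hs.2.trans_le (ht.2.trans haV)⟩)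
    linarith
  have hfl : ∀ t ∈ Icc 0 (a * x), A * x ^ 2 * t - 2 * x * t ^ 2 / 2 ≤ f t := fun t ht =>
    lreal_quad' (hf.mono (Icc_subset_Icc_right haV)) (fun s hs => h1 s ⟨hs.1, hs.2.trans_le haV⟩)
      hf0 (fun s hs => hkl s ⟨hs.1.le, hs.2.le⟩) ht
  have hint : IntervalIntegrable f volume 0 (a * x) :=
    ContinuousOn.intervalIntegrable (by
      rw [uIcc_of_le hax.le]
      exact hf.mono (Icc_subset_Icc_right haV))
  have hm := intervalIntegral.integral_mono_on hax.le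
    (Continuous.intervalIntegrable (by fun_prop) _ _ :
      IntervalIntegrable (fun t : ℝ => A * x ^ 2 * t - 2 * x * t ^ 2 / 2) volume 0 (a * x))
    hint hfl
  refine le_trans ?_ hm
  have e : ∫ t in (0 : ℝ)..(a * x), (A * x ^ 2 * t - 2 * x * t ^ 2 / 2) =
      A * x ^ 2 * ((a * x) ^ 2 / 2) - x * ((a * x) ^ 3 / 3) := by
    have e1 : ∀ t : ℝ, A * x ^ 2 * t - 2 * x * t ^ 2 / 2 = A * x ^ 2 * t - x * t ^ 2 :=
      fun t => by ring
    simp only [e1]
    rw [intervalIntegral.integral_sub (Continuous.intervalIntegrable (by fun_prop) _ _)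
      (Continuous.intervalIntegrable (by fun_prop) _ _), intervalIntegral.integral_const_mul,
      intervalIntegral.integral_const_mul, integral_id, integral_pow]
    norm_num
  rw [e]
  have e2 : A * x ^ 2 * ((a * x) ^ 2 / 2) - x * ((a * x) ^ 3 / 3) - A * a ^ 2 / 3 * x ^ 4 =
      x ^ 4 * a ^ 2 * (A / 6 - a / 3) := by ring
  have e3 : 0 ≤ x ^ 4 * a ^ 2 * (A / 6 - a / 3) := mul_nonneg (by positivity) (by linarith only [haA])
  linarith only [e3]

end Vale.Agent.P146.Lb
end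

section

set_option linter.all false

/-!
# P146, Lt: Prekopa-Leindler inequality for the standard Gaussian measure
-/

open MeasureTheory ProbabilityTheory Set
open scoped ENNReal NNReal Pointwise

namespace Vale.Agent.P146.Lt

/-! ### One-dimensional Prekopa-Leindler (copy of P227/PL.lean) -/

/-- One-dimensional Brunn-Minkowski, compact case. -/
theorem bm_one_compact {A B C : Set ℝ} {s t : ℝ} (hs : 0 < s) (ht : 0 < t)
    (hA : IsCompact A) (hB : IsCompact B)
    (nA : A.Nonempty) (nB : B.Nonempty) (h : ∀ a ∈ A, ∀ b ∈ B, s * a + t * b ∈ C) :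
    ENNReal.ofReal s * volume A + ENNReal.ofReal t * volume B ≤ volume C := by
  obtain ⟨a, haA, ha⟩ := hA.exists_isGreatest nA
  obtain ⟨b, hbB, hb⟩ := hB.exists_isLeast nB
  have h1 : (fun x => x + t * b) '' (s • A) ⊆ C := by
    rintro _ ⟨_, ⟨x, hx, rfl⟩, rfl⟩
    exact h x hx b hbB
  have h2 : (fun y => s * a + y) '' (t • B) ⊆ C := by
    rintro _ ⟨_, ⟨y, hy, rfl⟩, rfl⟩
    exact h a haA y hy
  have c1 : IsCompact ((fun x => x + t * b) '' (s • A)) := (hA.smul s).image (by fun_prop)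
  have c2 : IsCompact ((fun y => s * a + y) '' (t • B)) := (hB.smul t).image (by fun_prop)
  have hdis : AEDisjoint volume ((fun x => x + t * b) '' (s • A))
      ((fun y => s * a + y) '' (t • B)) := by
    have : ((fun x => x + t * b) '' (s • A)) ∩ ((fun y => s * a + y) '' (t • B)) ⊆
        {s * a + t * b} := by
      rintro _ ⟨⟨_, ⟨x, hx, rfl⟩, rfl⟩, ⟨_, ⟨y, hy, rfl⟩, hxy⟩⟩
      have hx' := ha hx
      have hy' := hb hy
      simp only [smul_eq_mul] at hxy
      simp only [mem_singleton_iff, smul_eq_mul]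
      have e1 : s * x ≤ s * a := by gcongr
      have e2 : t * b ≤ t * y := by gcongr
      linarith
    exact measure_mono_null this (by simp)
  have v1 : volume ((fun x => x + t * b) '' (s • A)) = ENNReal.ofReal s * volume A := by
    rw [image_add_right, measure_preimage_add_right, Measure.addHaar_smul]
    simp [abs_of_pos hs]
  have v2 : volume ((fun y => s * a + y) '' (t • B)) = ENNReal.ofReal t * volume B := by
    rw [image_add_left, measure_preimage_add, Measure.addHaar_smul]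
    simp [abs_of_pos ht]
  calc ENNReal.ofReal s * volume A + ENNReal.ofReal t * volume B
      = volume ((fun x => x + t * b) '' (s • A)) + volume ((fun y => s * a + y) '' (t • B)) := by
        rw [v1, v2]
    _ = volume (((fun x => x + t * b) '' (s • A)) ∪ ((fun y => s * a + y) '' (t • B))) := by
        rw [measure_union₀ c2.measurableSet.nullMeasurableSet hdis]
    _ ≤ volume C := measure_mono (union_subset h1 h2)

/-- One-dimensional Brunn-Minkowski. -/
theorem bm_one {A B C : Set ℝ} {s t : ℝ} (hs : 0 < s) (ht : 0 < t)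
    (hA : MeasurableSet A) (hB : MeasurableSet B)
    (nA : A.Nonempty) (nB : B.Nonempty) (h : ∀ a ∈ A, ∀ b ∈ B, s * a + t * b ∈ C) :
    ENNReal.ofReal s * volume A + ENNReal.ofReal t * volume B ≤ volume C := by
  have hs0 : ENNReal.ofReal s ≠ 0 := by simpa using hs
  have ht0 : ENNReal.ofReal t ≠ 0 := by simpa using ht
  have key : ∀ K L : Set ℝ, IsCompact K → IsCompact L → K ⊆ A → L ⊆ B →
      ENNReal.ofReal s * volume K + ENNReal.ofReal t * volume L ≤ volume C := by
    intro K L hK hL hKA hLB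
    obtain ⟨a0, ha0⟩ := nA
    obtain ⟨b0, hb0⟩ := nB
    have hK' : IsCompact (K ∪ {a0}) := hK.union isCompact_singleton
    have hL' : IsCompact (L ∪ {b0}) := hL.union isCompact_singleton
    have := bm_one_compact hs ht hK' hL' ⟨a0, by simp⟩ ⟨b0, by simp⟩ (C := C) (by
      intro a ha b hb
      apply h
      · rcases ha with ha | ha
        · exact hKA ha
        · rw [mem_singleton_iff.mp ha]; exact ha0
      · rcases hb with hb | hb
        · exact hLB hb
        · rw [mem_singleton_iff.mp hb]; exact hb0)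
    refine le_trans (add_le_add ?_ ?_) this
    · gcongr; exact subset_union_left
    · gcongr; exact subset_union_left
  have key1 : ∀ K : Set ℝ, IsCompact K → K ⊆ A →
      ENNReal.ofReal s * volume K + ENNReal.ofReal t * volume B ≤ volume C := by
    intro K hK hKA
    have : volume B = ⨆ (L) (_ : L ⊆ B) (_ : IsCompact L), volume L := hB.measure_eq_iSup_isCompact _
    rw [this]
    simp_rw [ENNReal.mul_iSup]
    by_cases htop : volume C = ∞
    · rw [htop]; exact le_top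
    have hKfin : ENNReal.ofReal s * volume K ≠ ∞ :=
      ENNReal.mul_ne_top ENNReal.ofReal_ne_top hK.measure_lt_top.ne
    have h0 : ENNReal.ofReal s * volume K ≤ volume C := by
      simpa using key K ∅ hK isCompact_empty hKA (empty_subset _)
    refine le_trans (add_le_add_right (?_ : _ ≤ volume C - ENNReal.ofReal s * volume K) _) ?_
    · refine iSup_le fun L => iSup_le fun hL => iSup_le fun hLc => ?_
      exact ENNReal.le_sub_of_add_le_left hKfin (key K L hK hLc hKA hL)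
    · rw [add_tsub_cancel_of_le h0]
  by_cases htop : volume C = ∞
  · rw [htop]; exact le_top
  have h0 : ENNReal.ofReal t * volume B ≤ volume C := by
    simpa using key1 ∅ isCompact_empty (empty_subset _)
  have hBfin : ENNReal.ofReal t * volume B ≠ ∞ := ne_top_of_le_ne_top htop h0
  have : volume A = ⨆ (L) (_ : L ⊆ A) (_ : IsCompact L), volume L := hA.measure_eq_iSup_isCompact _
  rw [this]
  simp_rw [ENNReal.mul_iSup]
  refine le_trans (add_le_add_left (?_ : _ ≤ volume C - ENNReal.ofReal t * volume B) _) ?_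
  · refine iSup_le fun L => iSup_le fun hL => iSup_le fun hLc => ?_
    exact ENNReal.le_sub_of_add_le_right hBfin (key1 L hLc hL)
  · rw [tsub_add_cancel_of_le h0]


/-- Normalised one-dimensional Prekopa-Leindler. -/
theorem pl_one_normalized {s t : ℝ} (hs : 0 < s) (ht : 0 < t) (hst : s + t = 1)
    (f g h : ℝ → ℝ≥0∞) (hf : Measurable f) (hg : Measurable g)
    (hh : Measurable h) (hf1 : ⨆ x, f x = 1) (hg1 : ⨆ x, g x = 1)
    (hfg : ∀ x y, f x ^ s * g y ^ t ≤ h (s * x + t * y)) :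
    ENNReal.ofReal s * (∫⁻ x, f x) + ENNReal.ofReal t * (∫⁻ x, g x) ≤ ∫⁻ x, h x := by
  have hfle : ∀ x, f x ≤ 1 := fun x => hf1 ▸ le_iSup f x
  have hgle : ∀ x, g x ≤ 1 := fun x => hg1 ▸ le_iSup g x
  set k : ℝ → ℝ≥0∞ := fun x => min (h x) 1 with hk
  have hkm : Measurable k := hh.min measurable_const
  have hk1 : ∀ x, k x ≤ 1 := fun x => min_le_right _ _
  have hfgk : ∀ x y, f x ^ s * g y ^ t ≤ k (s * x + t * y) := by
    intro x y
    have h1 : f x ^ s * g y ^ t ≤ 1 := by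
      calc f x ^ s * g y ^ t ≤ 1 * 1 :=
            mul_le_mul' (ENNReal.rpow_le_one (hfle x) hs.le) (ENNReal.rpow_le_one (hgle y) ht.le)
        _ = 1 := by simp
    simp only [hk]
    exact le_min (hfg x y) h1
  have hcake : ∀ u : ℝ → ℝ≥0∞, Measurable u → (∀ x, u x ≤ 1) →
      ∫⁻ x, u x = ∫⁻ r in Ioi (0 : ℝ), volume {x | r < (u x).toReal} := by
    intro u hu hu1
    rw [← lintegral_eq_lintegral_meas_lt volume (Filter.Eventually.of_forall fun x => by
      simp) hu.ennreal_toReal.aemeasurable]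
    apply lintegral_congr
    intro x
    rw [ENNReal.ofReal_toReal (ne_top_of_le_ne_top ENNReal.one_ne_top (hu1 x))]
  have hkh : ∫⁻ x, k x ≤ ∫⁻ x, h x := lintegral_mono fun x => min_le_left _ _
  refine le_trans ?_ hkh
  rw [hcake f hf hfle, hcake g hg hgle, hcake k hkm hk1]
  have hmeas : ∀ u : ℝ → ℝ≥0∞, Measurable (fun r : ℝ => volume {x | r < (u x).toReal}) := by
    intro u
    apply Antitone.measurable
    intro a b hab
    exact measure_mono fun x hx => lt_of_le_of_lt hab hx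
  rw [← lintegral_const_mul _ (hmeas f), ← lintegral_const_mul _ (hmeas g),
    ← lintegral_add_left ((hmeas f).const_mul _)]
  refine setLIntegral_mono' measurableSet_Ioi ?_
  intro r hr
  have hr0 : 0 < r := hr
  rcases lt_or_ge r 1 with hr1 | hr1
  · apply bm_one hs ht
    · exact measurableSet_lt measurable_const hf.ennreal_toReal
    · exact measurableSet_lt measurable_const hg.ennreal_toReal
    · have : ENNReal.ofReal r < ⨆ x, f x := by
        rw [hf1]
        rw [← ENNReal.ofReal_one]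
        exact (ENNReal.ofReal_lt_ofReal_iff one_pos).2 hr1
      obtain ⟨x, hx⟩ := lt_iSup_iff.1 this
      refine ⟨x, ?_⟩
      exact (ENNReal.ofReal_lt_iff_lt_toReal hr0.le
        (ne_top_of_le_ne_top ENNReal.one_ne_top (hfle x))).1 hx
    · have : ENNReal.ofReal r < ⨆ x, g x := by
        rw [hg1]
        rw [← ENNReal.ofReal_one]
        exact (ENNReal.ofReal_lt_ofReal_iff one_pos).2 hr1
      obtain ⟨x, hx⟩ := lt_iSup_iff.1 this
      refine ⟨x, ?_⟩
      exact (ENNReal.ofReal_lt_iff_lt_toReal hr0.le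
        (ne_top_of_le_ne_top ENNReal.one_ne_top (hgle x))).1 hx
    · intro a ha b hb
      simp only [mem_ofPred_eq] at ha hb ⊢
      have h3 := ENNReal.toReal_mono (ne_top_of_le_ne_top ENNReal.one_ne_top (hk1 _)) (hfgk a b)
      rw [ENNReal.toReal_mul, ← ENNReal.toReal_rpow, ← ENNReal.toReal_rpow] at h3
      have h4 : r < (k (s * a + t * b)).toReal := by
        calc r = r ^ s * r ^ t := by
              rw [← Real.rpow_add hr0, hst, Real.rpow_one]
          _ < (f a).toReal ^ s * (g b).toReal ^ t := by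
            apply mul_lt_mul''
            · exact Real.rpow_lt_rpow hr0.le ha hs
            · exact Real.rpow_lt_rpow hr0.le hb ht
            · positivity
            · positivity
          _ ≤ _ := h3
      exact h4
  · have e1 : {x | r < (f x).toReal} = ∅ := by
      ext x
      simp only [mem_ofPred_eq, mem_empty_iff_false, iff_false, not_lt]
      refine le_trans ?_ hr1
      have := ENNReal.toReal_mono ENNReal.one_ne_top (hfle x)
      simpa using this
    have e2 : {x | r < (g x).toReal} = ∅ := by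
      ext x
      simp only [mem_ofPred_eq, mem_empty_iff_false, iff_false, not_lt]
      refine le_trans ?_ hr1
      have := ENNReal.toReal_mono ENNReal.one_ne_top (hgle x)
      simpa using this
    rw [e1, e2]
    simp

theorem ennreal_amgm {s t : ℝ} (hs : 0 < s) (ht : 0 < t) (hst : s + t = 1) (x y : ℝ≥0∞) :
    x ^ s * y ^ t ≤ ENNReal.ofReal s * x + ENNReal.ofReal t * y := by
  have hs0 : ENNReal.ofReal s ≠ 0 := by simpa using hs
  have ht0 : ENNReal.ofReal t ≠ 0 := by simpa using ht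
  by_cases hx : x = ∞
  · subst hx; simp [ENNReal.mul_top hs0]
  by_cases hy : y = ∞
  · subst hy; simp [ENNReal.mul_top ht0]
  lift x to ℝ≥0 using hx
  lift y to ℝ≥0 using hy
  have := NNReal.geom_mean_le_arith_mean2_weighted s.toNNReal t.toNNReal x y (by
    rw [← Real.toNNReal_add hs.le ht.le, hst, Real.toNNReal_one])
  rw [Real.coe_toNNReal s hs.le, Real.coe_toNNReal t ht.le] at this
  rw [ENNReal.ofReal, ENNReal.ofReal, ← ENNReal.coe_rpow_of_nonneg _ hs.le,
    ← ENNReal.coe_rpow_of_nonneg _ ht.le]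
  exact_mod_cast this

theorem pl_one_bdd {s t : ℝ} (hs : 0 < s) (ht : 0 < t) (hst : s + t = 1)
    (f g h : ℝ → ℝ≥0∞) (hf : Measurable f) (hg : Measurable g)
    (hh : Measurable h) (hf1 : ⨆ x, f x ≠ ∞) (hg1 : ⨆ x, g x ≠ ∞)
    (hfg : ∀ x y, f x ^ s * g y ^ t ≤ h (s * x + t * y)) :
    (∫⁻ x, f x) ^ s * (∫⁻ x, g x) ^ t ≤ ∫⁻ x, h x := by
  by_cases hf0 : ⨆ x, f x = 0
  · have : f = fun _ => 0 := by
      funext x
      have := le_iSup f x
      rw [hf0] at this
      simpa using this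
    rw [this]
    simp [hs]
  by_cases hg0 : ⨆ x, g x = 0
  · have : g = fun _ => 0 := by
      funext x
      have := le_iSup g x
      rw [hg0] at this
      simpa using this
    rw [this]
    simp [ht]
  set a := ⨆ x, f x with ha
  set b := ⨆ x, g x with hb
  have has : a ^ s ≠ 0 := by simp [hf0, hf1, ENNReal.rpow_eq_zero_iff]
  have has' : a ^ s ≠ ∞ := ENNReal.rpow_ne_top_of_nonneg hs.le hf1
  have hbt : b ^ t ≠ 0 := by simp [hg0, hg1, ENNReal.rpow_eq_zero_iff]
  have hbt' : b ^ t ≠ ∞ := ENNReal.rpow_ne_top_of_nonneg ht.le hg1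
  set c := a ^ s * b ^ t with hc
  have hc0 : c ≠ 0 := mul_ne_zero has hbt
  have hc1 : c ≠ ∞ := ENNReal.mul_ne_top has' hbt'
  have key := pl_one_normalized hs ht hst (fun x => a⁻¹ * f x) (fun x => b⁻¹ * g x)
    (fun x => c⁻¹ * h x) (hf.const_mul _) (hg.const_mul _) (hh.const_mul _)
    (by rw [← ENNReal.mul_iSup, ← ha]; exact ENNReal.inv_mul_cancel hf0 hf1)
    (by rw [← ENNReal.mul_iSup, ← hb]; exact ENNReal.inv_mul_cancel hg0 hg1)
    (by
      intro x y
      rw [ENNReal.mul_rpow_of_nonneg _ _ hs.le, ENNReal.mul_rpow_of_nonneg _ _ ht.le,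
        ENNReal.inv_rpow, ENNReal.inv_rpow, hc, ENNReal.mul_inv (Or.inl has) (Or.inl has')]
      calc (a ^ s)⁻¹ * f x ^ s * ((b ^ t)⁻¹ * g y ^ t)
          = ((a ^ s)⁻¹ * (b ^ t)⁻¹) * (f x ^ s * g y ^ t) := by ring
        _ ≤ _ := by gcongr; exact hfg x y)
  rw [lintegral_const_mul _ hf, lintegral_const_mul _ hg, lintegral_const_mul _ hh] at key
  set F := ∫⁻ x, f x
  set G := ∫⁻ x, g x
  set H := ∫⁻ x, h x
  have h5 := le_trans (ennreal_amgm hs ht hst _ _) key
  rw [ENNReal.mul_rpow_of_nonneg _ _ hs.le, ENNReal.mul_rpow_of_nonneg _ _ ht.le,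
        ENNReal.inv_rpow, ENNReal.inv_rpow] at h5
  have h6 : c * ((a ^ s)⁻¹ * F ^ s * ((b ^ t)⁻¹ * G ^ t)) ≤ c * (c⁻¹ * H) := by gcongr
  have h7 : c * ((a ^ s)⁻¹ * F ^ s * ((b ^ t)⁻¹ * G ^ t)) = F ^ s * G ^ t := by
    rw [hc]
    calc a ^ s * b ^ t * ((a ^ s)⁻¹ * F ^ s * ((b ^ t)⁻¹ * G ^ t))
        = (a ^ s * (a ^ s)⁻¹) * (b ^ t * (b ^ t)⁻¹) * (F ^ s * G ^ t) := by ring
      _ = _ := by
        rw [ENNReal.mul_inv_cancel has has', ENNReal.mul_inv_cancel hbt hbt']; simp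
  rw [h7, ← mul_assoc, ENNReal.mul_inv_cancel hc0 hc1, one_mul] at h6
  exact h6

theorem pl_one {s t : ℝ} (hs : 0 < s) (ht : 0 < t) (hst : s + t = 1)
    (f g h : ℝ → ℝ≥0∞) (hf : Measurable f) (hg : Measurable g)
    (hh : Measurable h) (hfg : ∀ x y, f x ^ s * g y ^ t ≤ h (s * x + t * y)) :
    (∫⁻ x, f x) ^ s * (∫⁻ x, g x) ^ t ≤ ∫⁻ x, h x := by
  have hcut : ∀ u : ℝ → ℝ≥0∞, Measurable u →
      ∫⁻ x, u x = ⨆ n : ℕ, ∫⁻ x, min (u x) n := by
    intro u hu
    rw [← lintegral_iSup (fun n => hu.min measurable_const)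
      (fun m n hmn x => min_le_min_left _ (by exact_mod_cast hmn))]
    apply lintegral_congr
    intro x
    apply le_antisymm
    · by_cases hx : u x = ∞
      · rw [hx]
        simp only [top_le_iff, le_top, inf_of_le_right]
        exact ENNReal.iSup_natCast
      · obtain ⟨n, hn⟩ := ENNReal.exists_nat_gt hx
        refine le_trans ?_ (le_iSup _ n)
        rw [min_eq_left hn.le]
    · exact iSup_le fun n => min_le_left _ _
  have hsup : ∀ (u : ℝ → ℝ≥0∞) (n : ℕ), ⨆ x, min (u x) (n : ℝ≥0∞) ≠ ∞ := by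
    intro u n
    refine ne_top_of_le_ne_top (ENNReal.natCast_ne_top n) (iSup_le fun x => min_le_right _ _)
  have hpow : ∀ (r : ℝ) (_ : 0 < r) (u : ℕ → ℝ≥0∞), (⨆ n, u n) ^ r = ⨆ n, u n ^ r := by
    intro r hr u
    exact (ENNReal.orderIsoRpow r hr).map_iSup u
  rw [hcut f hf, hcut g hg, hpow s hs, hpow t ht, ENNReal.iSup_mul]
  refine iSup_le fun n => ?_
  rw [ENNReal.mul_iSup]
  refine iSup_le fun m => ?_
  refine pl_one_bdd hs ht hst _ _ h (hf.min measurable_const) (hg.min measurable_const) hh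
    (hsup f n) (hsup g m) ?_
  intro x y
  exact le_trans (mul_le_mul' (ENNReal.rpow_le_rpow (min_le_left _ _) hs.le)
    (ENNReal.rpow_le_rpow (min_le_left _ _) ht.le)) (hfg x y)

/-! ### The Gaussian measure -/

/-- the Gaussian measure of `ℝ` has the density `gaussianPDF 0 1` -/
lemma lintegral_gauss {u : ℝ → ℝ≥0∞} (hu : Measurable u) :
    ∫⁻ x, u x ∂(gaussianReal 0 1) = ∫⁻ x, u x * gaussianPDF 0 1 x := by
  rw [gaussianReal_of_var_ne_zero 0 one_ne_zero,
    lintegral_withDensity_eq_lintegral_mul _ (measurable_gaussianPDF 0 1) hu]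
  refine lintegral_congr fun x => ?_
  rw [Pi.mul_apply, mul_comm]

lemma pdf_mul {s t : ℝ} (hs : 0 < s) (ht : 0 < t) (hst : s + t = 1) (x y : ℝ) :
    gaussianPDF 0 1 x ^ s * gaussianPDF 0 1 y ^ t *
      ENNReal.ofReal (Real.exp (s * t / 2 * (x - y) ^ 2)) = gaussianPDF 0 1 (s * x + t * y) := by
  have hp : 0 < (√(2 * Real.pi * (1 : ℝ≥0)))⁻¹ := by
    have := Real.pi_pos
    positivity
  have e : ∀ z : ℝ, gaussianPDFReal 0 1 z =
      (√(2 * Real.pi * (1 : ℝ≥0)))⁻¹ * Real.exp (-z ^ 2 / 2) := by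
    intro z
    unfold gaussianPDFReal
    simp
  unfold gaussianPDF
  rw [e x, e y, e (s * x + t * y)]
  set p := (√(2 * Real.pi * (1 : ℝ≥0)))⁻¹ with hpd
  rw [ENNReal.ofReal_rpow_of_pos (by positivity), ENNReal.ofReal_rpow_of_pos (by positivity),
    ← ENNReal.ofReal_mul (by positivity), ← ENNReal.ofReal_mul (by positivity)]
  congr 1
  rw [Real.mul_rpow hp.le (Real.exp_pos _).le, Real.mul_rpow hp.le (Real.exp_pos _).le,
    ← Real.exp_mul, ← Real.exp_mul]
  have h1 : p ^ s * p ^ t = p := by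
    rw [← Real.rpow_add hp, hst, Real.rpow_one]
  have h2 : Real.exp (-x ^ 2 / 2 * s) * Real.exp (-y ^ 2 / 2 * t) *
      Real.exp (s * t / 2 * (x - y) ^ 2) = Real.exp (-(s * x + t * y) ^ 2 / 2) := by
    rw [← Real.exp_add, ← Real.exp_add]
    congr 1
    have : t = 1 - s := by linarith
    rw [this]
    ring
  calc p ^ s * Real.exp (-x ^ 2 / 2 * s) * (p ^ t * Real.exp (-y ^ 2 / 2 * t)) *
        Real.exp (s * t / 2 * (x - y) ^ 2)
      = (p ^ s * p ^ t) * (Real.exp (-x ^ 2 / 2 * s) * Real.exp (-y ^ 2 / 2 * t) *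
        Real.exp (s * t / 2 * (x - y) ^ 2)) := by ring
    _ = _ := by rw [h1, h2]

/-- one dimension -/
theorem gauss_one {s t : ℝ} (hs : 0 < s) (ht : 0 < t) (hst : s + t = 1)
    (u v w : ℝ → ℝ≥0∞) (hu : Measurable u) (hv : Measurable v) (hw : Measurable w)
    (h : ∀ x y, u x ^ s * v y ^ t ≤
      w (s * x + t * y) * ENNReal.ofReal (Real.exp (s * t / 2 * (x - y) ^ 2))) :
    (∫⁻ x, u x ∂(gaussianReal 0 1)) ^ s * (∫⁻ x, v x ∂(gaussianReal 0 1)) ^ t ≤
      ∫⁻ x, w x ∂(gaussianReal 0 1) := by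
  have hm := measurable_gaussianPDF 0 1
  rw [lintegral_gauss hu, lintegral_gauss hv, lintegral_gauss hw]
  refine pl_one hs ht hst _ _ _ (hu.mul hm) (hv.mul hm) (hw.mul hm) fun x y => ?_
  rw [ENNReal.mul_rpow_of_nonneg _ _ hs.le, ENNReal.mul_rpow_of_nonneg _ _ ht.le,
    ← pdf_mul hs ht hst x y]
  calc u x ^ s * gaussianPDF 0 1 x ^ s * (v y ^ t * gaussianPDF 0 1 y ^ t)
      = (u x ^ s * v y ^ t) * (gaussianPDF 0 1 x ^ s * gaussianPDF 0 1 y ^ t) := by ring
    _ ≤ (w (s * x + t * y) * ENNReal.ofReal (Real.exp (s * t / 2 * (x - y) ^ 2))) *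
        (gaussianPDF 0 1 x ^ s * gaussianPDF 0 1 y ^ t) := mul_le_mul' (h x y) le_rfl
    _ = _ := by ring

/-- Prekopa-Leindler inequality for the Gaussian measure on `Fin n → ℝ`. -/
theorem gauss_fin {s t : ℝ} (hs : 0 < s) (ht : 0 < t) (hst : s + t = 1) (n : ℕ) :
    ∀ (u v w : (Fin n → ℝ) → ℝ≥0∞), Measurable u → Measurable v → Measurable w →
    (∀ x y, u x ^ s * v y ^ t ≤
      w (s • x + t • y) * ENNReal.ofReal (Real.exp (s * t / 2 * ∑ i, (x i - y i) ^ 2))) →
    (∫⁻ x, u x ∂(gpi (Fin n))) ^ s * (∫⁻ x, v x ∂(gpi (Fin n))) ^ t ≤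
      ∫⁻ x, w x ∂(gpi (Fin n)) := by
  induction n with
  | zero =>
    intro u v w hu hv hw h
    have hone : (gpi (Fin 0)) univ = 1 := by
      unfold gpi
      simp
    rw [lintegral_unique, lintegral_unique, lintegral_unique, hone]
    simp only [mul_one]
    refine (h _ _).trans (le_of_eq ?_)
    rw [Finset.univ_eq_empty, Finset.sum_empty, mul_zero, Real.exp_zero, ENNReal.ofReal_one,
      mul_one]
    exact congrArg w (Subsingleton.elim _ _)
  | succ n ih =>
    intro u v w hu hv hw h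
    set e := MeasurableEquiv.piFinSuccAbove (fun _ : Fin (n + 1) => ℝ) 0 with he
    have hvp : MeasurePreserving e (gpi (Fin (n + 1)))
        ((gaussianReal 0 1).prod (gpi (Fin n))) :=
      measurePreserving_piFinSuccAbove (fun _ : Fin (n + 1) => gaussianReal 0 1) 0
    have hsplit : ∀ f : (Fin (n + 1) → ℝ) → ℝ≥0∞, Measurable f →
        ∫⁻ x, f x ∂(gpi (Fin (n + 1))) =
          ∫⁻ a : ℝ, ∫⁻ x : Fin n → ℝ, f (e.symm (a, x)) ∂(gpi (Fin n)) ∂(gaussianReal 0 1) := by
      intro f hf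
      rw [← hvp.symm.lintegral_comp hf]
      exact lintegral_prod _ (hf.comp e.symm.measurable).aemeasurable
    have hmid : ∀ (a b : ℝ) (x y : Fin n → ℝ),
        s • e.symm (a, x) + t • e.symm (b, y) = e.symm (s * a + t * b, s • x + t • y) := by
      intro a b x y
      funext i
      refine Fin.cases ?_ (fun j => ?_) i
      · simp [he, MeasurableEquiv.piFinSuccAbove]
      · simp [he, MeasurableEquiv.piFinSuccAbove]
    have hsum : ∀ (a b : ℝ) (x y : Fin n → ℝ),
        ∑ i, (e.symm (a, x) i - e.symm (b, y) i) ^ 2 = (a - b) ^ 2 + ∑ i, (x i - y i) ^ 2 := by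
      intro a b x y
      rw [Fin.sum_univ_succ]
      congr 1
    have hm2 : ∀ f : (Fin (n + 1) → ℝ) → ℝ≥0∞, Measurable f →
        Measurable fun a : ℝ => ∫⁻ x : Fin n → ℝ, f (e.symm (a, x)) ∂(gpi (Fin n)) := by
      intro f hf
      exact (hf.comp e.symm.measurable).lintegral_prod_right'
    rw [hsplit u hu, hsplit v hv, hsplit w hw]
    refine gauss_one hs ht hst _ _ _ (hm2 u hu) (hm2 v hv) (hm2 w hw) fun a b => ?_
    have hsec : ∀ (f : (Fin (n + 1) → ℝ) → ℝ≥0∞) (c : ℝ), Measurable f →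
        Measurable fun x : Fin n → ℝ => f (e.symm (c, x)) := by
      intro f c hf
      exact hf.comp (e.symm.measurable.comp measurable_prodMk_left)
    rw [← lintegral_mul_const _ (hsec w _ hw)]
    refine ih _ _ _ (hsec u a hu) (hsec v b hv) ((hsec w _ hw).mul_const _) fun x y => ?_
    have h1 := h (e.symm (a, x)) (e.symm (b, y))
    rw [hmid, hsum] at h1
    refine h1.trans (le_of_eq ?_)
    rw [mul_add, Real.exp_add, ENNReal.ofReal_mul (Real.exp_pos _).le, mul_assoc]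

variable {ι : Type} [Fintype ι]

/-- **Prekopa-Leindler for the Gaussian measure.** -/
theorem gauss_pl {s t : ℝ} (hs : 0 < s) (ht : 0 < t) (hst : s + t = 1)
    (u v w : (ι → ℝ) → ℝ≥0∞) (hu : Measurable u) (hv : Measurable v) (hw : Measurable w)
    (h : ∀ x y, u x ^ s * v y ^ t ≤
      w (s • x + t • y) * ENNReal.ofReal (Real.exp (s * t / 2 * ∑ i, (x i - y i) ^ 2))) :
    (∫⁻ x, u x ∂(gpi ι)) ^ s * (∫⁻ x, v x ∂(gpi ι)) ^ t ≤ ∫⁻ x, w x ∂(gpi ι) := by
  classical
  set σ : Fin (Fintype.card ι) ≃ ι := (Fintype.equivFin ι).symm with hσ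
  set e := MeasurableEquiv.piCongrLeft (fun _ : ι => ℝ) σ with he
  have mp : MeasurePreserving e (gpi (Fin (Fintype.card ι))) (gpi ι) :=
    measurePreserving_piCongrLeft (α := fun _ : ι => ℝ) (fun _ : ι => gaussianReal 0 1) σ
  have hea : ∀ (x : Fin (Fintype.card ι) → ℝ) (i : ι), e x i = x (σ.symm i) := by
    intro x i
    obtain ⟨j, rfl⟩ := σ.surjective i
    rw [Equiv.symm_apply_apply, he, MeasurableEquiv.coe_piCongrLeft]
    exact Equiv.piCongrLeft_apply_apply (fun _ : ι => ℝ) σ x j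
  rw [← mp.lintegral_comp hu, ← mp.lintegral_comp hv, ← mp.lintegral_comp hw]
  refine gauss_fin hs ht hst _ _ _ _ (hu.comp e.measurable) (hv.comp e.measurable)
    (hw.comp e.measurable) fun x y => ?_
  have h1 := h (e x) (e y)
  have h2 : s • e x + t • e y = e (s • x + t • y) := by
    funext i
    rw [Pi.add_apply, Pi.smul_apply, Pi.smul_apply, hea, hea, hea]
    rfl
  have h3 : ∑ i, (e x i - e y i) ^ 2 = ∑ i, (x i - y i) ^ 2 := by
    rw [← σ.sum_comp]
    refine Finset.sum_congr rfl fun j _ => ?_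
    rw [hea, hea, Equiv.symm_apply_apply]
  rw [h2, h3] at h1
  exact h1

end Vale.Agent.P146.Lt
end

section

/-!
# P146, Lt: exponential moments from Prekopa-Leindler (LtConv, over the statement of LtPL)
-/

open MeasureTheory ProbabilityTheory
open scoped ENNReal

namespace Vale.Agent.P146.Lt

open Vale.Agent.P146.Ub.Cv

variable {ι : Type} [Fintype ι]

/-- statement of `gauss_pl` -/
def GaussPL (ι : Type) [Fintype ι] : Prop := ∀ {s t : ℝ}, 0 < s → 0 < t → s + t = 1 →
    ∀ (u v w : (ι → ℝ) → ℝ≥0∞), Measurable u → Measurable v → Measurable w →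
    (∀ x y, u x ^ s * v y ^ t ≤
      w (s • x + t • y) * ENNReal.ofReal (Real.exp (s * t / 2 * ∑ i, (x i - y i) ^ 2))) →
    (∫⁻ x, u x ∂(gpi ι)) ^ s * (∫⁻ x, v x ∂(gpi ι)) ^ t ≤ ∫⁻ x, w x ∂(gpi ι)

/-- Jensen for the exponential, in `ℝ≥0∞` -/
theorem lt_jensen {α : Type*} [MeasurableSpace α] {μ : Measure α} [IsProbabilityMeasure μ]
    {g : α → ℝ} (hg : Integrable g μ) :
    ENNReal.ofReal (Real.exp (∫ x, g x ∂μ)) ≤ ∫⁻ x, ENNReal.ofReal (Real.exp (g x)) ∂μ := by
  set m := ∫ x, g x ∂μ with hm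
  have h1 : ∀ x, Real.exp m * (g x + (1 - m)) ≤ Real.exp (g x) := by
    intro x
    have h2 := Real.add_one_le_exp (g x - m)
    have h3 : Real.exp (g x) = Real.exp m * Real.exp (g x - m) := by
      rw [← Real.exp_add]; congr 1; ring
    rw [h3]
    refine mul_le_mul_of_nonneg_left ?_ (Real.exp_pos m).le
    linarith
  have hi : Integrable (fun x => Real.exp m * (g x + (1 - m))) μ :=
    (hg.add (integrable_const (1 - m))).const_mul _
  have h4 : ∫ x, Real.exp m * (g x + (1 - m)) ∂μ = Real.exp m := by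
    rw [integral_const_mul, integral_add hg (integrable_const (1 - m))]
    simp [← hm]
  have h5 : ∫ x, Real.exp m * (g x + (1 - m)) ∂μ ≤
      ∫ x, max (Real.exp m * (g x + (1 - m))) 0 ∂μ :=
    integral_mono hi hi.pos_part fun x => le_max_left _ _
  calc ENNReal.ofReal (Real.exp m) ≤
        ENNReal.ofReal (∫ x, max (Real.exp m * (g x + (1 - m))) 0 ∂μ) := by
        apply ENNReal.ofReal_le_ofReal
        linarith
    _ = ∫⁻ x, ENNReal.ofReal (max (Real.exp m * (g x + (1 - m))) 0) ∂μ :=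
        ofReal_integral_eq_lintegral_ofReal hi.pos_part
          (Filter.Eventually.of_forall fun x => le_max_right _ _)
    _ ≤ _ := lintegral_mono fun x => ENNReal.ofReal_le_ofReal
        (max_le (h1 x) (Real.exp_pos _).le)

theorem conv_exp0 (pl : GaussPL ι) {f Q : (ι → ℝ) → ℝ} (hf : Measurable f) (hQ : Measurable Q)
    (hfi : Integrable f (gpi ι)) (hQi : Integrable Q (gpi ι)) {a : ℝ}
    (h : ∀ x y, a * (f y - f x) ≤ a ^ 2 * Q y + (∑ i, (x i - y i) ^ 2) / 4) :
    ∫⁻ g, ENNReal.ofReal (Real.exp (-(a * f g))) ∂(gpi ι) ≤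
      ENNReal.ofReal (Real.exp (-(a * ∫ g, f g ∂(gpi ι)) + a ^ 2 * ∫ g, Q g ∂(gpi ι))) := by
  have hrp : ∀ z : ℝ, ENNReal.ofReal (Real.exp z) ^ (1 / 2 : ℝ) =
      ENNReal.ofReal (Real.exp (z / 2)) := by
    intro z
    rw [ENNReal.ofReal_rpow_of_pos (Real.exp_pos _), ← Real.exp_mul]
    congr 2
    ring
  set A := ∫⁻ g, ENNReal.ofReal (Real.exp (-(a * f g))) ∂(gpi ι) with hA
  set B := ∫⁻ g, ENNReal.ofReal (Real.exp (a * f g - a ^ 2 * Q g)) ∂(gpi ι) with hB
  have h1 : A ^ (1 / 2 : ℝ) * B ^ (1 / 2 : ℝ) ≤ 1 := by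
    have h2 := pl (s := 1 / 2) (t := 1 / 2) (by norm_num) (by norm_num) (by norm_num)
      (fun g => ENNReal.ofReal (Real.exp (-(a * f g))))
      (fun g => ENNReal.ofReal (Real.exp (a * f g - a ^ 2 * Q g))) (fun _ => 1)
      (by fun_prop) (by fun_prop) measurable_const (fun x y => by
        rw [hrp, hrp, ← ENNReal.ofReal_mul (Real.exp_pos _).le, ← Real.exp_add, one_mul]
        refine ENNReal.ofReal_le_ofReal (Real.exp_le_exp.2 ?_)
        have h3 := h x y
        have h4 : (1 / 2 * (1 / 2) / 2 : ℝ) * ∑ i, (x i - y i) ^ 2 =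
            (∑ i, (x i - y i) ^ 2) / 4 / 2 := by ring
        rw [h4]
        linarith only [h3])
    rw [lintegral_const, measure_univ, one_mul] at h2
    exact h2
  have h5 : A * B ≤ 1 := by
    have h6 : (A * B) ^ (1 / 2 : ℝ) ≤ 1 := by
      rw [ENNReal.mul_rpow_of_nonneg _ _ (by norm_num : (0 : ℝ) ≤ 1 / 2)]
      exact h1
    by_contra h7
    rw [not_le] at h7
    have h8 : (1 : ℝ≥0∞) ^ (1 / 2 : ℝ) < (A * B) ^ (1 / 2 : ℝ) :=
      ENNReal.rpow_lt_rpow h7 (by norm_num)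
    rw [ENNReal.one_rpow] at h8
    exact absurd h6 (not_le.2 h8)
  have hgi : Integrable (fun g => a * f g - a ^ 2 * Q g) (gpi ι) :=
    (hfi.const_mul a).sub (hQi.const_mul _)
  have h9 := lt_jensen hgi
  rw [integral_sub (hfi.const_mul a) (hQi.const_mul _), integral_const_mul, integral_const_mul,
    ← hB] at h9
  set m : ℝ := a * ∫ g, f g ∂(gpi ι) - a ^ 2 * ∫ g, Q g ∂(gpi ι) with hm
  have h10 : A * ENNReal.ofReal (Real.exp m) ≤ 1 := (mul_le_mul_right h9 A).trans h5
  have h11 : -(a * ∫ g, f g ∂(gpi ι)) + a ^ 2 * ∫ g, Q g ∂(gpi ι) = -m := by rw [hm]; ring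
  rw [h11, Real.exp_neg, ENNReal.ofReal_inv_of_pos (Real.exp_pos _)]
  exact ENNReal.le_inv_iff_mul_le.2 h10

/-- for `f` with the gradient bounded by `√M` (one-sided tangents) -/
theorem lip_exp0 (pl : GaussPL ι) {F : (ι → ℝ) → ℝ} {G : ι → (ι → ℝ) → ℝ} {M : ℝ} (hF : Lin F)
    (hconv : ∀ z w : ι → ℝ, F z + ∑ i, G i z * w i ≤ F (fun i => z i + w i))
    (hM : ∀ z, ∑ i, G i z ^ 2 ≤ M) {c s a : ℝ} (hcs : c ^ 2 + s ^ 2 = 1) (hs : 0 ≤ s)
    (ha : 0 ≤ a) (x : ι → ℝ) :
    ∫⁻ y, ENNReal.ofReal (Real.exp (-(a * F (mix c s x y)))) ∂(gpi ι) ≤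
      ENNReal.ofReal (Real.exp (-(a * ∫ y, F (mix c s x y) ∂(gpi ι)) + a ^ 2 * (s ^ 2 * M))) := by
  have hc1 : |c| ≤ 1 := abs_le_one_iff_mul_self_le_one.2 (by linarith only [sq_nonneg s, hcs])
  have hs1 : |s| ≤ 1 := abs_le_one_iff_mul_self_le_one.2 (by linarith only [sq_nonneg c, hcs])
  have hL := hF.fix hc1 hs1 x
  have h1 := conv_exp0 pl (f := fun y => F (mix c s x y)) (Q := fun _ => s ^ 2 * M)
    hL.dom.cont.measurable measurable_const hL.dom.integrable (integrable_const _) (a := a)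
    (fun y' y => by
      have h2 := hconv (mix c s x y) (fun i => s * (y' i - y i))
      have h3 : (fun i => mix c s x y i + s * (y' i - y i)) = mix c s x y' := by
        funext i
        unfold mix
        ring
      rw [h3] at h2
      have h4 : F (mix c s x y) - F (mix c s x y') ≤
          ∑ i, G i (mix c s x y) * (s * (y i - y' i)) := by
        have h5 : ∑ i, G i (mix c s x y) * (s * (y i - y' i)) =
            -∑ i, G i (mix c s x y) * (s * (y' i - y i)) := by
          rw [← Finset.sum_neg_distrib]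
          exact Finset.sum_congr rfl fun i _ => by ring
        rw [h5]
        linarith
      have h6 : a * ∑ i, G i (mix c s x y) * (s * (y i - y' i)) ≤
          ∑ i, (a ^ 2 * s ^ 2 * G i (mix c s x y) ^ 2 + (y' i - y i) ^ 2 / 4) := by
        rw [Finset.mul_sum]
        refine Finset.sum_le_sum fun i _ => ?_
        linarith only [sq_nonneg (a * s * G i (mix c s x y) - (y i - y' i) / 2)]
      rw [Finset.sum_add_distrib, ← Finset.mul_sum, ← Finset.sum_div] at h6
      have h7 : a ^ 2 * s ^ 2 * ∑ i, G i (mix c s x y) ^ 2 ≤ a ^ 2 * s ^ 2 * M :=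
        mul_le_mul_of_nonneg_left (hM _) (by positivity)
      have h8 := mul_le_mul_of_nonneg_left h4 ha
      calc a * (F (mix c s x y) - F (mix c s x y')) ≤ _ := h8
        _ ≤ _ := h6
        _ ≤ a ^ 2 * (s ^ 2 * M) + (∑ i, (y' i - y i) ^ 2) / 4 := by linarith only [h7])
  simpa using h1

end Vale.Agent.P146.Lt
end

section

/-!
# P146, Lt: exponential moments of convex functions from Prekopa-Leindler
-/

open MeasureTheory ProbabilityTheory
open scoped ENNReal

namespace Vale.Agent.P146.Lt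

open Vale.Agent.P146.Ub.Cv

variable {ι : Type} [Fintype ι]

theorem gaussPL : GaussPL ι := fun hs ht hst u v w hu hv hw h =>
  gauss_pl hs ht hst u v w hu hv hw h

theorem conv_exp {f Q : (ι → ℝ) → ℝ} (hf : Measurable f) (hQ : Measurable Q)
    (hfi : Integrable f (gpi ι)) (hQi : Integrable Q (gpi ι)) {a : ℝ}
    (h : ∀ x y, a * (f y - f x) ≤ a ^ 2 * Q y + (∑ i, (x i - y i) ^ 2) / 4) :
    ∫⁻ g, ENNReal.ofReal (Real.exp (-(a * f g))) ∂(gpi ι) ≤
      ENNReal.ofReal (Real.exp (-(a * ∫ g, f g ∂(gpi ι)) + a ^ 2 * ∫ g, Q g ∂(gpi ι))) :=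
  conv_exp0 gaussPL hf hQ hfi hQi h

/-- for `f` with the gradient bounded by `√M` (one-sided tangents) -/
theorem lip_exp {F : (ι → ℝ) → ℝ} {G : ι → (ι → ℝ) → ℝ} {M : ℝ} (hF : Lin F)
    (hconv : ∀ z w : ι → ℝ, F z + ∑ i, G i z * w i ≤ F (fun i => z i + w i))
    (hM : ∀ z, ∑ i, G i z ^ 2 ≤ M) {c s a : ℝ} (hcs : c ^ 2 + s ^ 2 = 1) (hs : 0 ≤ s)
    (ha : 0 ≤ a) (x : ι → ℝ) :
    ∫⁻ y, ENNReal.ofReal (Real.exp (-(a * F (mix c s x y)))) ∂(gpi ι) ≤
      ENNReal.ofReal (Real.exp (-(a * ∫ y, F (mix c s x y) ∂(gpi ι)) + a ^ 2 * (s ^ 2 * M))) :=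
  lip_exp0 gaussPL hF hconv hM hcs hs ha x

end Vale.Agent.P146.Lt
end

section

/-!
# P146, Lt: the Laplace transform of a convex function of a Gaussian vector on the negative side
-/

open MeasureTheory ProbabilityTheory
open scoped ENNReal

namespace Vale.Agent.P146.Lt

open Vale.Agent.P146.Ub.Cv

variable {ι : Type} [Fintype ι]

/-- the bound with the two scales -/
theorem low_two [DecidableEq ι] {F : (ι → ℝ) → ℝ} {G H : ι → (ι → ℝ) → ℝ} {B M V : ℝ}
    (h : Reg F G H B) (hF : Lin F) (hG : ∀ i, Lin (G i))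
    (hconv : ∀ z w : ι → ℝ, F z + ∑ i, G i z * w i ≤ F (fun i => z i + w i))
    (hM : ∀ z, ∑ i, G i z ^ 2 ≤ M)
    (hV : ∫ g, F g ^ 2 ∂(gpi ι) - (∫ g, F g ∂(gpi ι)) ^ 2 ≤ V) {c s : ℝ}
    (hcs : c ^ 2 + s ^ 2 = 1) (hs : 0 < s) {a : ℝ} (ha : 0 ≤ a) :
    ∫⁻ g, ENNReal.ofReal (Real.exp (-(a * F g))) ∂(gpi ι) ≤
      ENNReal.ofReal (Real.exp (-(a * ∫ g, F g ∂(gpi ι)) + a ^ 2 * (s ^ 2 * M + V / s ^ 2))) := by
  have hc1 : |c| ≤ 1 := by
    rw [← sq_le_one_iff_abs_le_one]; linarith only [sq_nonneg s, hcs]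
  have hs1 : |s| ≤ 1 := by
    rw [← sq_le_one_iff_abs_le_one]; linarith only [sq_nonneg c, hcs]
  have hmF : Measurable F := hF.cont.measurable
  have hmG : ∀ i, Measurable (G i) := fun i => (hG i).cont.measurable
  have hmix := mp_mix (ι := ι) hcs
  -- the smoothed function
  set Fc : (ι → ℝ) → ℝ := fun x => ∫ y, F (mix c s x y) ∂(gpi ι) with hFc
  set D : ι → (ι → ℝ) → ℝ := fun i x => c * ∫ y, G i (mix c s x y) ∂(gpi ι) with hD
  have sF : StronglyMeasurable (fun p : (ι → ℝ) × (ι → ℝ) => F (mix c s p.1 p.2)) :=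
    (hmF.comp (measurable_mix c s)).stronglyMeasurable
  have sG : ∀ i, StronglyMeasurable (fun p : (ι → ℝ) × (ι → ℝ) => G i (mix c s p.1 p.2)) :=
    fun i => ((hmG i).comp (measurable_mix c s)).stronglyMeasurable
  have mFc : Measurable Fc := (sF.integral_prod_right (ν := gpi ι)).measurable
  have mD : ∀ i, Measurable (D i) := fun i =>
    (((sG i).integral_prod_right (ν := gpi ι)).measurable).const_mul c
  have iFc : Integrable Fc (gpi ι) := (hF.mix2 hcs).1.integral_prod_left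
  have hint : ∫ x, Fc x ∂(gpi ι) = ∫ g, F g ∂(gpi ι) := by
    rw [hFc, ← integral_prod _ (hF.mix2 hcs).1]
    exact int_mix hcs hF.cont
  have iFx : ∀ x, Integrable (fun y => F (mix c s x y)) (gpi ι) := fun x =>
    (hF.fix hc1 hs1 x).dom.integrable
  have iGx : ∀ i x, Integrable (fun y => G i (mix c s x y)) (gpi ι) := fun i x =>
    ((hG i).fix hc1 hs1 x).dom.integrable
  have hDb : ∀ i x, |D i x| ≤ B := by
    intro i x
    have hb : |∫ y, G i (mix c s x y) ∂(gpi ι)| ≤ B := by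
      have h1 := norm_integral_le_of_norm_le_const (μ := gpi ι)
        (f := fun y => G i (mix c s x y)) (C := B)
        (Filter.Eventually.of_forall fun y => h.G_bd i _)
      simpa using h1
    rw [hD]
    simp only
    rw [abs_mul]
    calc |c| * |∫ y, G i (mix c s x y) ∂(gpi ι)| ≤ 1 * |∫ y, G i (mix c s x y) ∂(gpi ι)| :=
          mul_le_mul_of_nonneg_right hc1 (abs_nonneg _)
      _ ≤ B := by rw [one_mul]; exact hb
  set Q : (ι → ℝ) → ℝ := fun x => ∑ i, D i x ^ 2 with hQ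
  have mQ : Measurable Q := by
    rw [hQ]
    exact Finset.measurable_sum _ fun i _ => (mD i).pow_const 2
  have iQ : Integrable Q (gpi ι) := by
    rw [hQ]
    refine integrable_finset_sum _ fun i _ => ?_
    refine Integrable.of_bound ((mD i).pow_const 2).aestronglyMeasurable (B ^ 2)
      (Filter.Eventually.of_forall fun x => ?_)
    rw [Real.norm_eq_abs, abs_of_nonneg (sq_nonneg _), ← sq_abs]
    exact pow_le_pow_left₀ (abs_nonneg _) (hDb i x) 2
  -- tangents of the smoothed function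
  have tan : ∀ x y : ι → ℝ, Fc y + ∑ i, D i y * (x i - y i) ≤ Fc x := by
    intro x y
    have h1 : ∀ z, F (mix c s y z) + ∑ i, G i (mix c s y z) * (c * (x i - y i)) ≤
        F (mix c s x z) := by
      intro z
      have h2 := hconv (mix c s y z) (fun i => c * (x i - y i))
      have e : (fun i => mix c s y z i + c * (x i - y i)) = mix c s x z := by
        funext i; simp only [mix_apply]; ring
      rw [e] at h2
      exact h2
    have i1 : Integrable (fun z => ∑ i, G i (mix c s y z) * (c * (x i - y i))) (gpi ι) :=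
      integrable_finset_sum _ fun i _ => (iGx i y).mul_const _
    have h3 := integral_mono ((iFx y).add i1) (iFx x) h1
    simp only [Pi.add_apply] at h3
    rw [integral_add (iFx y) i1, integral_finset_sum _ fun i _ => (iGx i y).mul_const _] at h3
    refine le_trans (le_of_eq ?_) h3
    rw [hFc, hD]
    congr 1
    refine Finset.sum_congr rfl fun i _ => ?_
    rw [integral_mul_const]
    ring
  have hhyp : ∀ x y, a * (Fc y - Fc x) ≤ a ^ 2 * Q y + (∑ i, (x i - y i) ^ 2) / 4 := by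
    intro x y
    have h1 := mul_le_mul_of_nonneg_left (tan x y) ha
    have h2 : ∀ i, -(a * (D i y * (x i - y i))) ≤ a ^ 2 * D i y ^ 2 + (x i - y i) ^ 2 / 4 := by
      intro i
      linarith only [sq_nonneg (a * D i y + (x i - y i) / 2)]
    have h3 := Finset.sum_le_sum fun i (_ : i ∈ Finset.univ) => h2 i
    rw [Finset.sum_neg_distrib, ← Finset.mul_sum, Finset.sum_add_distrib, ← Finset.mul_sum,
      ← Finset.sum_div] at h3
    rw [hQ]
    simp only
    linarith only [h3, h1]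
  have k1 := conv_exp mFc mQ iFc iQ (a := a) hhyp
  -- the first step
  have k2 : ∫⁻ g, ENNReal.ofReal (Real.exp (-(a * F g))) ∂(gpi ι) =
      ∫⁻ x, ∫⁻ y, ENNReal.ofReal (Real.exp (-(a * F (mix c s x y)))) ∂(gpi ι) ∂(gpi ι) := by
    have m1 : Measurable (fun g => ENNReal.ofReal (Real.exp (-(a * F g)))) :=
      (Real.measurable_exp.comp (hmF.const_mul a).neg).ennreal_ofReal
    rw [← hmix.lintegral_comp m1]
    exact lintegral_prod _ (m1.comp hmix.measurable).aemeasurable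
  have k3 : ∀ x, ∫⁻ y, ENNReal.ofReal (Real.exp (-(a * F (mix c s x y)))) ∂(gpi ι) ≤
      ENNReal.ofReal (Real.exp (a ^ 2 * (s ^ 2 * M))) *
        ENNReal.ofReal (Real.exp (-(a * Fc x))) := by
    intro x
    refine (lip_exp hF hconv hM hcs hs.le ha x).trans (le_of_eq ?_)
    rw [← ENNReal.ofReal_mul (Real.exp_pos _).le, ← Real.exp_add]
    congr 2
    ring
  have k4 : ∫ x, Q x ∂(gpi ι) ≤ V / s ^ 2 := by
    refine (grad_le h hF hG hcs hs).trans ?_
    exact div_le_div_of_nonneg_right hV (by positivity)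
  rw [k2]
  refine (lintegral_mono k3).trans ?_
  have m2 : Measurable (fun x => ENNReal.ofReal (Real.exp (-(a * Fc x)))) :=
    (Real.measurable_exp.comp (mFc.const_mul a).neg).ennreal_ofReal
  rw [lintegral_const_mul _ m2]
  refine (mul_le_mul_right k1 _).trans ?_
  rw [← ENNReal.ofReal_mul (Real.exp_pos _).le, ← Real.exp_add, hint]
  refine ENNReal.ofReal_le_ofReal (Real.exp_le_exp.2 ?_)
  have := mul_le_mul_of_nonneg_left k4 (sq_nonneg a)
  linarith only [this]

theorem low_mgf [DecidableEq ι] {F : (ι → ℝ) → ℝ} {G H : ι → (ι → ℝ) → ℝ} {B M V : ℝ}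
    (h : Reg F G H B) (hF : Lin F) (hG : ∀ i, Lin (G i))
    (hconv : ∀ z w : ι → ℝ, F z + ∑ i, G i z * w i ≤ F (fun i => z i + w i))
    (hM : ∀ z, ∑ i, G i z ^ 2 ≤ M) (hM0 : 0 < M) (hV0 : 0 < V)
    (hV : ∫ g, F g ^ 2 ∂(gpi ι) - (∫ g, F g ∂(gpi ι)) ^ 2 ≤ V) {a : ℝ} (ha : 0 ≤ a) :
    ∫⁻ g, ENNReal.ofReal (Real.exp (-(a * F g))) ∂(gpi ι) ≤
      ENNReal.ofReal (Real.exp (-(a * ∫ g, F g ∂(gpi ι)) + 2 * a ^ 2 * √(V * M))) := by
  rcases le_or_gt V M with hVM | hVM
  · -- `s² = √(V / M)`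
    set r : ℝ := √V / √M with hr
    have hsM : 0 < √M := Real.sqrt_pos.2 hM0
    have hsV : 0 < √V := Real.sqrt_pos.2 hV0
    have hr0 : 0 < r := by positivity
    have hr1 : r ≤ 1 := by
      rw [hr, div_le_one hsM]
      exact Real.sqrt_le_sqrt hVM
    have hs2 : √r ^ 2 = r := Real.sq_sqrt hr0.le
    have hc2 : √(1 - r) ^ 2 = 1 - r := Real.sq_sqrt (by linarith)
    have k := low_two h hF hG hconv hM hV (c := √(1 - r)) (s := √r)
      (by rw [hs2, hc2]; ring) (Real.sqrt_pos.2 hr0) ha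
    refine k.trans (ENNReal.ofReal_le_ofReal (Real.exp_le_exp.2 (le_of_eq ?_)))
    rw [hs2]
    have e1 : r * M = √(V * M) := by
      rw [hr, Real.sqrt_mul hV0.le, div_mul_eq_mul_div, div_eq_iff hsM.ne', mul_assoc,
        Real.mul_self_sqrt hM0.le]
    have e2 : V / r = √(V * M) := by
      rw [hr, Real.sqrt_mul hV0.le, div_div_eq_mul_div, div_eq_iff hsV.ne']
      nth_rewrite 1 [← Real.mul_self_sqrt hV0.le]
      ring
    rw [e1, e2]
    ring
  · have k := lip_exp hF hconv hM (c := 0) (s := 1) (by norm_num) zero_le_one ha 0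
    have e : ∀ y : ι → ℝ, mix 0 1 (0 : ι → ℝ) y = y := by
      intro y; funext i; simp [mix_apply]
    simp only [e] at k
    refine k.trans (ENNReal.ofReal_le_ofReal (Real.exp_le_exp.2 ?_))
    have h1 : M ≤ √(V * M) := by
      refine Real.le_sqrt_of_sq_le ?_
      (by_contra nlg; linarith only [nlg, mul_pos (sub_pos.2 (not_le.1 nlg)) (sub_pos.2 hM0), mul_nonneg (sq_nonneg (M : ℝ)) (le_of_lt (sub_pos.2 hVM))])
    have h2 : a ^ 2 * M ≤ a ^ 2 * √(V * M) := mul_le_mul_of_nonneg_left h1 (sq_nonneg a)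
    have h3 : 0 ≤ a ^ 2 * √(V * M) := by positivity
    linarith only [h3, h2]

end Vale.Agent.P146.Lt
end

section

/-!
# P146, Lt: the lower tail of the free energy from a bound of its variance
-/

open MeasureTheory ProbabilityTheory
open scoped ENNReal

namespace Vale.Agent.P146.Lt

open Vale.Agent.P146.Ub.Cv

theorem lt_lin_grad (n : ℕ) (β : ℝ) (p : Pair n) : Lin (gradF n β p) :=
  Lin.of_bounded ((reg_freeEnergy n β).G_dom p).cont _ fun g => (reg_freeEnergy n β).G_bd p g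

/-- the Laplace transform on the negative side -/
theorem sk_mgf {β : ℝ} (hβ : 0 < β) {n : ℕ} (hn : 1 ≤ n) {V : ℝ} (hV0 : 0 < V)
    (hV : Var[freeEnergy n β; disorder n] ≤ V) {a : ℝ} (ha : 0 ≤ a) :
    ∫⁻ g, ENNReal.ofReal (Real.exp (-(a * freeEnergy n β g))) ∂(disorder n) ≤
      ENNReal.ofReal (Real.exp (-(a * ∫ g, freeEnergy n β g ∂(disorder n)) +
        2 * a ^ 2 * √(V * (β ^ 2 * n / 2)))) := by
  classical
  have hn0 : (0 : ℝ) < n := by exact_mod_cast hn
  have lF := lin_freeEnergy n β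
  have hmem : MemLp (freeEnergy n β) 2 (disorder n) := by
    rw [memLp_two_iff_integrable_sq lF.cont.aestronglyMeasurable]
    exact (lF.dom.pow 2).integrable
  have hprob : IsProbabilityMeasure (disorder n) := by unfold disorder; infer_instance
  have hvar : Var[freeEnergy n β; disorder n] =
      ∫ g, freeEnergy n β g ^ 2 ∂(disorder n) - (∫ g, freeEnergy n β g ∂(disorder n)) ^ 2 := by
    rw [variance_eq_sub hmem]
    rfl
  have h := low_mgf (reg_freeEnergy n β) lF (lt_lin_grad n β) (tangent_freeEnergy n β)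
    (sum_gradF_sq n β) (by positivity) hV0 (by rw [hvar] at hV; exact hV) ha
  exact h

/-- the lower tail -/
theorem sk_low {β : ℝ} (hβ : 0 < β) {n : ℕ} (hn : 1 ≤ n) {V : ℝ} (hV0 : 0 < V)
    (hV : Var[freeEnergy n β; disorder n] ≤ V) {t : ℝ} (ht : 0 ≤ t) :
    (disorder n).real {g | freeEnergy n β g ≤ ∫ g, freeEnergy n β g ∂(disorder n) - t} ≤
      Real.exp (-(t ^ 2 / (8 * √(V * (β ^ 2 * n / 2))))) := by
  have hn0 : (0 : ℝ) < n := by exact_mod_cast hn
  set R : ℝ := √(V * (β ^ 2 * n / 2)) with hR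
  have hR0 : 0 < R := Real.sqrt_pos.2 (by positivity)
  set E : ℝ := ∫ g, freeEnergy n β g ∂(disorder n) with hE
  set a : ℝ := t / (4 * R) with ha
  have ha0 : 0 ≤ a := by positivity
  have h1 := sk_mgf hβ hn hV0 hV ha0
  rw [← hE, ← hR] at h1
  have m1 : Measurable (fun g => ENNReal.ofReal (Real.exp (-(a * freeEnergy n β g)))) :=
    (Real.measurable_exp.comp ((lin_freeEnergy n β).cont.measurable.const_mul a).neg).ennreal_ofReal
  have h2 := mul_meas_ge_le_lintegral (μ := disorder n) m1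
    (ENNReal.ofReal (Real.exp (-(a * (E - t)))))
  have h3 : {g | freeEnergy n β g ≤ E - t} ⊆
      {g | ENNReal.ofReal (Real.exp (-(a * (E - t)))) ≤
        ENNReal.ofReal (Real.exp (-(a * freeEnergy n β g)))} := by
    intro g hg
    refine ENNReal.ofReal_le_ofReal (Real.exp_le_exp.2 ?_)
    have := mul_le_mul_of_nonneg_left (show freeEnergy n β g ≤ E - t from hg) ha0
    linarith only [this]
  have h4 : ENNReal.ofReal (Real.exp (-(a * (E - t)))) *
      (disorder n) {g | freeEnergy n β g ≤ E - t} ≤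
      ENNReal.ofReal (Real.exp (-(a * E) + 2 * a ^ 2 * R)) :=
    (mul_le_mul_right (measure_mono h3) _).trans (h2.trans h1)
  have h5 : (disorder n) {g | freeEnergy n β g ≤ E - t} ≤
      ENNReal.ofReal (Real.exp (-(t ^ 2 / (8 * R)))) := by
    have e1 : ENNReal.ofReal (Real.exp (-(a * E) + 2 * a ^ 2 * R)) =
        ENNReal.ofReal (Real.exp (-(a * (E - t)))) *
          ENNReal.ofReal (Real.exp (-(t ^ 2 / (8 * R)))) := by
      rw [← ENNReal.ofReal_mul (Real.exp_pos _).le, ← Real.exp_add]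
      congr 2
      rw [ha]
      field_simp
      ring
    rw [e1] at h4
    have hpos : ENNReal.ofReal (Real.exp (-(a * (E - t)))) ≠ 0 := by
      simp [Real.exp_pos]
    exact (ENNReal.mul_le_mul_iff_right hpos ENNReal.ofReal_ne_top).1 h4
  exact ENNReal.toReal_le_of_le_ofReal (Real.exp_pos _).le h5

end Vale.Agent.P146.Lt
end

section

set_option linter.all false

/-!
# P146, Ce: the conditional inequality under the tilt `exp (a F)`
-/

open MeasureTheory ProbabilityTheory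
open scoped ENNReal

namespace Vale.Agent.P146.Ce

open Vale.Agent.P146.Ub.Cv

variable {ι : Type} [Fintype ι]

/-- Jensen's inequality with a weight -/
lemma jensen_w {e h : (ι → ℝ) → ℝ} (de : Dom e) (lh : Lin h) (he : ∀ y, 0 < e y)
    (hN : 0 < ∫ y, e y ∂(gpi ι)) :
    (∫ y, e y ∂(gpi ι)) * Real.exp ((∫ y, e y * h y ∂(gpi ι)) / ∫ y, e y ∂(gpi ι)) ≤
      ∫ y, e y * Real.exp (h y) ∂(gpi ι) := by
  set N := ∫ y, e y ∂(gpi ι) with hNd
  set m := (∫ y, e y * h y ∂(gpi ι)) / N with hm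
  have h2 : ∫ y, e y * h y ∂(gpi ι) = m * N := by
    rw [hm, div_mul_cancel₀ _ hN.ne']
  have h1 : ∫ y, Real.exp m * (e y * h y + (1 - m) * e y) ∂(gpi ι) = N * Real.exp m := by
    rw [integral_const_mul, int_add (de.mul lh.dom) (de.const_mul _), integral_const_mul, ← hNd,
      h2]
    ring
  rw [← h1]
  refine integral_mono (((de.mul lh.dom).add (de.const_mul _)).const_mul _).integrable
    (de.mul lh.dom_exp).integrable fun y => ?_
  have h3 := Real.add_one_le_exp (h y - m)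
  have h4 : Real.exp (h y) = Real.exp m * Real.exp (h y - m) := by
    rw [← Real.exp_add]; congr 1; ring
  simp only
  rw [h4]
  have h5 := mul_le_mul_of_nonneg_left h3 (mul_pos (he y) (Real.exp_pos m)).le
  calc Real.exp m * (e y * h y + (1 - m) * e y) = e y * Real.exp m * (h y - m + 1) := by ring
    _ ≤ e y * Real.exp m * Real.exp (h y - m) := h5
    _ = e y * (Real.exp m * Real.exp (h y - m)) := by ring

variable [DecidableEq ι] {F : (ι → ℝ) → ℝ} {G H : ι → (ι → ℝ) → ℝ} {B : ℝ}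

/-- integration by parts under the tilt -/
lemma ibp_tilt (h : Reg F G H B) (hF : Lin F) (hG : ∀ i, Lin (G i)) {c s : ℝ} (hc : |c| ≤ 1)
    (hs : |s| ≤ 1) (a : ℝ) (z : ι → ℝ) (i : ι) :
    ∫ y, Real.exp (a * F (mix c s z y)) * y i ∂(gpi ι) =
      a * s * ∫ y, G i (mix c s z y) * Real.exp (a * F (mix c s z y)) ∂(gpi ι) := by
  have dE : Dom (fun y => Real.exp (a * F (mix c s z y))) := ((hF.fix hc hs z).const_mul a).dom_exp
  have dG : Dom (fun y => (a * s) * (G i (mix c s z y) * Real.exp (a * F (mix c s z y)))) :=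
    (((hG i).fix hc hs z).dom.mul dE).const_mul _
  have h1 := ibp i dE dG fun g t => by
    simp only [mix_upd_right]
    have d2 := comp_upd (f := F) (f' := G i) (i := i) (z := mix c s z g)
      (fun t => h.coord _ i t) (lin_deriv' s (c * z i) t)
    refine ((d2.const_mul a).exp).congr_deriv ?_
    ring
  rw [← integral_const_mul, ← h1]
  exact integral_congr_ae (Filter.Eventually.of_forall fun y => mul_comm _ _)

theorem tilt_cond (h : Reg F G H B) (hF : Lin F) (hG : ∀ i, Lin (G i))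
    (hconv : ∀ z w : ι → ℝ, F z + ∑ i, G i z * w i ≤ F (fun i => z i + w i))
    {c s a x : ℝ} (hc : |c| ≤ 1) (hs : |s| ≤ 1) (ha : 0 ≤ a) (hx : 0 ≤ x) (z : ι → ℝ) :
    (∫ y, Real.exp (a * F (mix c s z y)) ∂(gpi ι)) *
      Real.exp (x * ((∫ y, F (mix c s z y) * Real.exp (a * F (mix c s z y)) ∂(gpi ι)) /
          (∫ y, Real.exp (a * F (mix c s z y)) ∂(gpi ι))) +
        x ^ 2 * s ^ 2 / 2 * ∑ i, ((∫ y, G i (mix c s z y) *
          Real.exp (a * F (mix c s z y)) ∂(gpi ι)) /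
            (∫ y, Real.exp (a * F (mix c s z y)) ∂(gpi ι))) ^ 2) ≤
      ∫ y, Real.exp ((a + x) * F (mix c s z y)) ∂(gpi ι) := by
  set e : (ι → ℝ) → ℝ := fun y => Real.exp (a * F (mix c s z y)) with he
  set N := ∫ y, e y ∂(gpi ι) with hN
  set Γ : ι → ℝ := fun i => (∫ y, G i (mix c s z y) * e y ∂(gpi ι)) / N with hΓ
  set u : ι → ℝ := fun i => x * s * Γ i with hu
  have lF : Lin (fun y => F (mix c s z y)) := hF.fix hc hs z
  have lG : ∀ i, Lin (fun y => G i (mix c s z y)) := fun i => (hG i).fix hc hs z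
  have dE : Dom e := (lF.const_mul a).dom_exp
  have ep : ∀ y, 0 < e y := fun y => Real.exp_pos _
  have hNp : 0 < N := by
    rw [hN, integral_pos_iff_support_of_nonneg (fun y => (ep y).le) dE.integrable]
    have : Function.support e = Set.univ := Set.eq_univ_of_forall fun y => (ep y).ne'
    rw [this, measure_univ]
    exact one_pos
  have l1 : Lin (fun y : ι → ℝ => x * F (mix c s z y) +
      ∑ i, ((a + x) * s * u i) * G i (mix c s z y)) :=
    (lF.const_mul x).add (Lin.sum _ fun i _ => (lG i).const_mul _)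
  have l2 : Lin (fun y : ι → ℝ => ∑ i, (-u i) * y i + -((∑ i, u i ^ 2) / 2)) :=
    (Lin.sum _ fun i _ => (Lin.coord i).const_mul _).add (Lin.const _)
  have l3 := l1.add l2
  rw [int_shift u (fun y => Real.exp ((a + x) * F (mix c s z y)))]
  have j1 := jensen_w dE l3 ep hNp
  rw [← hN] at j1
  -- the mean of the exponent
  have e1 : (∫ y : ι → ℝ, e y * ((x * F (mix c s z y) +
      ∑ i, ((a + x) * s * u i) * G i (mix c s z y)) +
      (∑ i, (-u i) * y i + -((∑ i, u i ^ 2) / 2))) ∂(gpi ι)) / N =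
      x * ((∫ y, F (mix c s z y) * e y ∂(gpi ι)) / N) + x ^ 2 * s ^ 2 / 2 * ∑ i, Γ i ^ 2 := by
    have f1 : ∀ y : ι → ℝ, e y * ((x * F (mix c s z y) +
        ∑ i, ((a + x) * s * u i) * G i (mix c s z y)) +
        (∑ i, (-u i) * y i + -((∑ i, u i ^ 2) / 2))) =
        (x * (F (mix c s z y) * e y) +
        ∑ i, ((a + x) * s * u i) * (G i (mix c s z y) * e y)) +
        (∑ i, (-u i) * (e y * y i) + -((∑ i, u i ^ 2) / 2) * e y) := by
      intro y
      have g1 : ∑ i, ((a + x) * s * u i) * (G i (mix c s z y) * e y) =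
          (∑ i, ((a + x) * s * u i) * G i (mix c s z y)) * e y := by
        rw [Finset.sum_mul]
        exact Finset.sum_congr rfl fun i _ => by ring
      have g2 : ∑ i, (-u i) * (e y * y i) = (∑ i, (-u i) * y i) * e y := by
        rw [Finset.sum_mul]
        exact Finset.sum_congr rfl fun i _ => by ring
      rw [g1, g2]
      ring
    have d1 : Dom (fun y : ι → ℝ => F (mix c s z y) * e y) := lF.dom.mul dE
    have d2 : ∀ i, Dom (fun y : ι → ℝ => G i (mix c s z y) * e y) := fun i =>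
      (lG i).dom.mul dE
    have d3 : ∀ i : ι, Dom (fun y : ι → ℝ => e y * y i) := fun i => dE.mul (Dom.coord i)
    have f2 : ∫ y : ι → ℝ, ((x * (F (mix c s z y) * e y) +
        ∑ i, ((a + x) * s * u i) * (G i (mix c s z y) * e y)) +
        (∑ i, (-u i) * (e y * y i) + -((∑ i, u i ^ 2) / 2) * e y)) ∂(gpi ι) =
        (x * (∫ y, F (mix c s z y) * e y ∂(gpi ι)) +
        ∑ i, ((a + x) * s * u i) * (∫ y, G i (mix c s z y) * e y ∂(gpi ι))) +
        (∑ i, (-u i) * (a * s * ∫ y, G i (mix c s z y) * e y ∂(gpi ι)) +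
          -((∑ i, u i ^ 2) / 2) * N) := by
      rw [int_add ((d1.const_mul x).add (Dom.sum _ fun i _ => (d2 i).const_mul _))
        ((Dom.sum _ fun i _ => (d3 i).const_mul _).add (dE.const_mul _)),
        int_add (d1.const_mul x) (Dom.sum _ fun i _ => (d2 i).const_mul _),
        int_add (Dom.sum _ fun i _ => (d3 i).const_mul _) (dE.const_mul _),
        int_sum _ fun i _ => ((d2 i).const_mul _), int_sum _ fun i _ => ((d3 i).const_mul _)]
      simp_rw [integral_const_mul]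
      rw [← hN]
      congr 2
      refine Finset.sum_congr rfl fun i _ => ?_
      rw [← ibp_tilt h hF hG hc hs a z i]
    have f3 : ∀ i, ∫ y, G i (mix c s z y) * e y ∂(gpi ι) = Γ i * N := by
      intro i
      simp only [hΓ]
      rw [div_mul_cancel₀ _ hNp.ne']
    have f4 : ∑ i, ((a + x) * s * u i) * (Γ i * N) = (a + x) * s * N * ∑ i, u i * Γ i := by
      rw [Finset.mul_sum]
      exact Finset.sum_congr rfl fun i _ => by ring
    have f5 : ∑ i, (-u i) * (a * s * (Γ i * N)) = -(a * s * N) * ∑ i, u i * Γ i := by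
      rw [Finset.mul_sum]
      exact Finset.sum_congr rfl fun i _ => by ring
    have f6 : ∑ i, u i * Γ i = x * s * ∑ i, Γ i ^ 2 := by
      rw [Finset.mul_sum]
      exact Finset.sum_congr rfl fun i _ => by simp only [hu]; ring
    have f7 : ∑ i, u i ^ 2 = x ^ 2 * s ^ 2 * ∑ i, Γ i ^ 2 := by
      rw [Finset.mul_sum]
      exact Finset.sum_congr rfl fun i _ => by simp only [hu]; ring
    rw [integral_congr_ae (Filter.Eventually.of_forall f1), f2]
    simp_rw [f3]
    rw [f4, f5, f6, f7]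
    field_simp
    ring
  rw [e1] at j1
  refine j1.trans (integral_mono (dE.mul l3.dom_exp).integrable ?_ fun y => ?_)
  · have l4 : Lin (fun y : ι → ℝ => (a + x) * F (mix c s z (fun i => y i + u i)) +
        (∑ i, (-u i) * y i + -((∑ i, u i ^ 2) / 2))) :=
      ((hF.fix_shift hc hs z u).const_mul (a + x)).add l2
    refine (l4.dom_exp.integrable).congr (Filter.Eventually.of_forall fun y => ?_)
    simp only
    rw [← Real.exp_add]
    congr 1
    have e4 : ∑ i, -u i * y i = -∑ i, u i * y i := by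
      rw [← Finset.sum_neg_distrib]
      exact Finset.sum_congr rfl fun i _ => by ring
    rw [e4]
    ring
  · simp only [he]
    rw [← Real.exp_add, ← Real.exp_add]
    refine Real.exp_le_exp.2 ?_
    have h1 := hconv (mix c s z y) (fun i => s * u i)
    have e5 : (fun i => mix c s z y i + s * u i) = mix c s z (fun i => y i + u i) := by
      funext i
      simp only [mix_apply]
      ring
    rw [e5] at h1
    have h2 := mul_le_mul_of_nonneg_left h1 (add_nonneg ha hx)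
    have e6 : (a + x) * (F (mix c s z y) + ∑ i, G i (mix c s z y) * (s * u i)) =
        a * F (mix c s z y) + x * F (mix c s z y) +
          ∑ i, (a + x) * s * u i * G i (mix c s z y) := by
      rw [mul_add, Finset.mul_sum, add_mul]
      congr 1
      exact Finset.sum_congr rfl fun i _ => by ring
    have e4 : ∑ i, -u i * y i = -∑ i, u i * y i := by
      rw [← Finset.sum_neg_distrib]
      exact Finset.sum_congr rfl fun i _ => by ring
    rw [e6] at h2
    rw [e4]
    linarith only [h2]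

end Vale.Agent.P146.Ce
end

section

/-!
# P146, Ce: the total inequality of the tilted measure
-/

open MeasureTheory ProbabilityTheory

namespace Vale.Agent.P146.Ce

open Vale.Agent.P146.Ub.Cv

variable {ι : Type} [Fintype ι] [DecidableEq ι] {F : (ι → ℝ) → ℝ} {G H : ι → (ι → ℝ) → ℝ} {B : ℝ}

theorem tilt_total (h : Reg F G H B) (hF : Lin F) (hG : ∀ i, Lin (G i))
    (hconv : ∀ z w : ι → ℝ, F z + ∑ i, G i z * w i ≤ F (fun i => z i + w i))
    {c s a x L : ℝ} (hcs : c ^ 2 + s ^ 2 = 1) (ha : 0 ≤ a) (hx : 0 ≤ x) (_hL0 : 0 ≤ L)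
    (hL : ∫ g, Real.exp (2 * (a + x) * F g) ∂(gpi ι) ≤
      Real.exp (2 * (a + x) * (∫ g, F g ∂(gpi ι)) + L)) :
    x ^ 2 * s ^ 2 * ∑ i, ∫ z, (∫ y, G i (mix c s z y) *
      Real.exp (a * F (mix c s z y)) ∂(gpi ι)) ^ 2 ∂(gpi ι) ≤
      (∫ g, Real.exp (2 * a * F g) ∂(gpi ι)) * L := by
  have hc1 : |c| ≤ 1 := abs_le_one_iff_mul_self_le_one.2 (by linarith only [sq_nonneg s, hcs])
  have hs1 : |s| ≤ 1 := abs_le_one_iff_mul_self_le_one.2 (by linarith only [sq_nonneg c, hcs])
  exact tilt_total0 hF hG hcs ha hx (fun z => tilt_cond h hF hG hconv hc1 hs1 ha hx z) hL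

end Vale.Agent.P146.Ce
end

section

/-!
# P146, Ce: the upper tail at the scale of the bound of the variance
-/

open MeasureTheory ProbabilityTheory
open scoped ENNReal

namespace Vale.Agent.P146.Ce

open Vale.Agent.P146.Ub.Cv

section real

/-- `1 - v ≥ exp (-2 v)` on `[0, 1/2]` -/
theorem ce_exp {v : ℝ} (h0 : 0 ≤ v) (h1 : v ≤ 1 / 2) : Real.exp (-(2 * v)) ≤ 1 - v := by
  have h2 := Real.add_one_le_exp (2 * v)
  rw [Real.exp_neg, inv_le_comm₀ (Real.exp_pos _) (by linarith)]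
  refine le_trans ?_ h2
  rw [inv_eq_one_div, div_le_iff₀ (by linarith)]
  nlinarith

/-- the iteration -/
theorem ce_iter {ψ : ℝ → ℝ} {V K x : ℝ} (hV : 0 ≤ V)
    (hK : ∀ θ, 0 ≤ θ → θ ≤ x → ψ θ ≤ K * θ ^ 2)
    (hstep : ∀ a, 0 ≤ a → 2 * a ≤ x → ψ (2 * a) ≤ 2 * ψ a + 2 * a ^ 2 * V) {θ : ℝ}
    (h0 : 0 ≤ θ) (h1 : θ ≤ x) : ψ θ ≤ θ ^ 2 * V := by
  have key : ∀ k : ℕ, ψ θ ≤ 2 ^ k * ψ (θ / 2 ^ k) + θ ^ 2 * V * (1 - 1 / 2 ^ k) := by
    intro k
    induction k with
    | zero => simp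
    | succ k ih =>
      have e2 : (0 : ℝ) < 2 ^ (k + 1) := by positivity
      have h3 : 2 * (θ / 2 ^ (k + 1)) = θ / 2 ^ k := by
        rw [pow_succ]; field_simp
      have h4 : θ / 2 ^ k ≤ x := by
        refine le_trans (div_le_self h0 ?_) h1
        exact one_le_pow₀ (by norm_num)
      have h5 := hstep (θ / 2 ^ (k + 1)) (by positivity) (by rw [h3]; exact h4)
      rw [h3] at h5
      have h6 : (0 : ℝ) < 2 ^ k := by positivity
      have h7 := mul_le_mul_of_nonneg_left h5 h6.le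
      refine ih.trans ?_
      have e3 : (2 : ℝ) ^ k * (2 * ψ (θ / 2 ^ (k + 1)) + 2 * (θ / 2 ^ (k + 1)) ^ 2 * V) =
          2 ^ (k + 1) * ψ (θ / 2 ^ (k + 1)) + θ ^ 2 * V * (1 / 2 ^ (k + 1)) := by
        rw [pow_succ]; field_simp
      have e4 : (1 : ℝ) / 2 ^ (k + 1) = 1 / 2 ^ k / 2 := by
        rw [pow_succ]; field_simp
      rw [e3] at h7
      rw [e4] at h7 ⊢
      linarith only [h7]
  have lim : Filter.Tendsto (fun k : ℕ => K * θ ^ 2 * (1 / 2 ^ k) + θ ^ 2 * V) Filter.atTop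
      (nhds (K * θ ^ 2 * 0 + θ ^ 2 * V)) := by
    have h2 : Filter.Tendsto (fun k : ℕ => (1 / 2 : ℝ) ^ k) Filter.atTop (nhds 0) :=
      tendsto_pow_atTop_nhds_zero_of_lt_one (by norm_num) (by norm_num)
    have h3 : (fun k : ℕ => (1 : ℝ) / 2 ^ k) = fun k : ℕ => (1 / 2 : ℝ) ^ k := by
      funext k; rw [one_div_pow]
    rw [← h3] at h2
    exact (h2.const_mul _).add_const _
  rw [mul_zero, zero_add] at lim
  refine ge_of_tendsto lim (Filter.Eventually.of_forall fun k => ?_)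
  have h6 : (0 : ℝ) < 2 ^ k := by positivity
  have h61 : (1 : ℝ) ≤ 2 ^ k := one_le_pow₀ (by norm_num)
  have h2 := hK (θ / 2 ^ k) (by positivity) ((div_le_self h0 h61).trans h1)
  have h3 := mul_le_mul_of_nonneg_left h2 h6.le
  have e1 : (2 : ℝ) ^ k * (K * (θ / 2 ^ k) ^ 2) = K * θ ^ 2 * (1 / 2 ^ k) := by
    field_simp
  rw [e1] at h3
  have h4 := key k
  have h5 : 0 ≤ θ ^ 2 * V * (1 / 2 ^ k) := by positivity
  linarith only [h5, h4, h3]

/-- `exp v ≤ 1 + v + v² exp |v|` -/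
theorem ce_exp2 (v : ℝ) : Real.exp v ≤ 1 + v + v ^ 2 * Real.exp |v| := by
  have h1 := Real.abs_exp_sub_one_sub_id_le (x := v)
  rcases le_or_gt |v| 1 with h | h
  · have h2 := (abs_le.1 (h1 h)).2
    have h3 : v ^ 2 * 1 ≤ v ^ 2 * Real.exp |v| :=
      mul_le_mul_of_nonneg_left (Real.one_le_exp (abs_nonneg v)) (sq_nonneg v)
    linarith
  · rcases le_or_gt 0 v with h0 | h0
    · rw [abs_of_nonneg h0] at h ⊢
      have h3 : Real.exp v * 1 ≤ Real.exp v * v ^ 2 :=
        mul_le_mul_of_nonneg_left (one_le_pow₀ h.le) (Real.exp_pos v).le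
      linarith
    · rw [abs_of_neg h0] at h ⊢
      have h3 := Real.add_one_le_exp (-v)
      have h4 : Real.exp v ≤ 1 := Real.exp_le_one_iff.2 h0.le
      have h5 : v ^ 2 * (-v + 1) ≤ v ^ 2 * Real.exp (-v) :=
        mul_le_mul_of_nonneg_left h3 (sq_nonneg v)
      (by_contra nlg; linarith only [nlg, mul_nonneg (le_of_lt (sub_pos.2 h0)) (sub_nonneg.2 h5), mul_nonneg (le_of_lt (sub_pos.2 h0)) (sub_nonneg.2 h4), mul_pos (sub_pos.2 (not_le.1 nlg)) (sub_pos.2 h0), mul_nonneg (sq_nonneg (v : ℝ)) (le_of_lt (sub_pos.2 h)), mul_nonneg (sq_nonneg (v : ℝ)) (sq_nonneg (v : ℝ))])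
end real

variable {ι : Type} [Fintype ι]

variable [DecidableEq ι] {F : (ι → ℝ) → ℝ} {G H : ι → (ι → ℝ) → ℝ} {B : ℝ}

/-- the variance of `exp (a F)` -/
theorem exp_var (h : Reg F G H B) (hF : Lin F) (hG : ∀ i, Lin (G i))
    (hconv : ∀ z w : ι → ℝ, F z + ∑ i, G i z * w i ≤ F (fun i => z i + w i))
    {M x L u a : ℝ} (hM : ∀ g, ∑ i, G i g ^ 2 ≤ M) (hx : 0 < x) (hL0 : 0 ≤ L) (ha : 0 ≤ a)
    (hL : ∫ g, Real.exp (2 * (a + x) * F g) ∂(gpi ι) ≤
      Real.exp (2 * (a + x) * (∫ g, F g ∂(gpi ι)) + L)) (hu : 0 < u) (hu1 : u ≤ 1) :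
    ∫ g, Real.exp (2 * a * F g) ∂(gpi ι) - (∫ g, Real.exp (a * F g) ∂(gpi ι)) ^ 2 ≤
      a ^ 2 * (∫ g, Real.exp (2 * a * F g) ∂(gpi ι)) *
        (M * u + L / x ^ 2 * (-Real.log u)) := by
  have hR := regD_exp h hF a
  set W : ℝ := ∫ g, Real.exp (2 * a * F g) ∂(gpi ι) with hW
  have hsq : ∀ g, Real.exp (a * F g) ^ 2 = Real.exp (2 * a * F g) := by
    intro g
    rw [← Real.exp_nat_mul]
    congr 1
    push_cast
    ring
  have hA : ∀ θ, Real.sin θ ^ 2 * phi (fun i g => a * G i g * Real.exp (a * F g)) θ ≤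
      a ^ 2 * W * (L / x ^ 2) := by
    intro θ
    rw [phi_eq hR.G_dom]
    have h1 := tilt_total h hF hG hconv (c := Real.cos θ) (s := Real.sin θ)
      (by rw [add_comm]; exact Real.sin_sq_add_cos_sq θ) ha hx.le hL0 hL
    have e1 : ∑ i, ∫ z, (∫ y, a * G i (mix (Real.cos θ) (Real.sin θ) z y) *
        Real.exp (a * F (mix (Real.cos θ) (Real.sin θ) z y)) ∂(gpi ι)) ^ 2 ∂(gpi ι) =
        a ^ 2 * ∑ i, ∫ z, (∫ y, G i (mix (Real.cos θ) (Real.sin θ) z y) *
        Real.exp (a * F (mix (Real.cos θ) (Real.sin θ) z y)) ∂(gpi ι)) ^ 2 ∂(gpi ι) := by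
      rw [Finset.mul_sum]
      refine Finset.sum_congr rfl fun i _ => ?_
      rw [← integral_const_mul]
      refine integral_congr_ae (Filter.Eventually.of_forall fun z => ?_)
      simp only
      simp_rw [mul_assoc]
      rw [integral_const_mul]
      ring
    rw [e1]
    set S : ℝ := ∑ i, ∫ z, (∫ y, G i (mix (Real.cos θ) (Real.sin θ) z y) *
        Real.exp (a * F (mix (Real.cos θ) (Real.sin θ) z y)) ∂(gpi ι)) ^ 2 ∂(gpi ι) with hS
    have h2 : Real.sin θ ^ 2 * S ≤ W * L / x ^ 2 := by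
      rw [le_div_iff₀ (by positivity)]
      linarith
    have h3 := mul_le_mul_of_nonneg_left h2 (sq_nonneg a)
    calc Real.sin θ ^ 2 * (a ^ 2 * S) = a ^ 2 * (Real.sin θ ^ 2 * S) := by ring
      _ ≤ a ^ 2 * (W * L / x ^ 2) := h3
      _ = a ^ 2 * W * (L / x ^ 2) := by ring
  have hM' : ∀ θ, phi (fun i g => a * G i g * Real.exp (a * F g)) θ ≤ a ^ 2 * W * M := by
    intro θ
    refine (phi_le_sq hR.G_dom θ).trans ?_
    have h1 : ∫ g, ∑ i, (a * G i g * Real.exp (a * F g)) ^ 2 ∂(gpi ι) ≤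
        ∫ g, a ^ 2 * M * Real.exp (2 * a * F g) ∂(gpi ι) := by
      refine int_mono (Dom.sum _ fun i _ => (hR.G_dom i).pow 2)
        (((hF.const_mul (2 * a)).dom_exp).const_mul _) fun g => ?_
      have e : ∑ i, (a * G i g * Real.exp (a * F g)) ^ 2 =
          a ^ 2 * (∑ i, G i g ^ 2) * Real.exp (2 * a * F g) := by
        rw [Finset.mul_sum, Finset.sum_mul]
        refine Finset.sum_congr rfl fun i _ => ?_
        rw [← hsq]
        ring
      rw [e]
      exact mul_le_mul_of_nonneg_right (mul_le_mul_of_nonneg_left (hM g) (sq_nonneg a))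
        (Real.exp_pos _).le
    rw [integral_const_mul] at h1
    refine h1.trans (le_of_eq ?_)
    rw [hW]; ring
  have h1 := var_le_phi hR hA hM' hu hu1
  simp_rw [hsq] at h1
  refine h1.trans (le_of_eq ?_)
  ring

theorem up_exp (h : Reg F G H B) (hF : Lin F) (hG : ∀ i, Lin (G i))
    (hconv : ∀ z w : ι → ℝ, F z + ∑ i, G i z * w i ≤ F (fun i => z i + w i))
    {M x L u V : ℝ} (hM : ∀ g, ∑ i, G i g ^ 2 ≤ M) (hx : 0 < x) (hL0 : 0 ≤ L)
    (hL : ∀ a, 0 ≤ a → 2 * a ≤ x → ∫ g, Real.exp (2 * (a + x) * F g) ∂(gpi ι) ≤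
      Real.exp (2 * (a + x) * (∫ g, F g ∂(gpi ι)) + L)) (hu : 0 < u) (hu1 : u ≤ 1)
    (hV : M * u + L / x ^ 2 * (-Real.log u) ≤ V) (hV0 : 0 < V) (hVx : 1 ≤ V * x ^ 2)
    {t : ℝ} (ht : 0 ≤ t) :
    (gpi ι).real {g | ∫ g, F g ∂(gpi ι) + t * √V ≤ F g} ≤ Real.exp (1 - t) := by
  set E : ℝ := ∫ g, F g ∂(gpi ι) with hE
  -- the logarithmic Laplace transform
  have lX : Lin (fun g => F g + -E) := hF.add (Lin.const _)
  set P : ℝ → ℝ := fun θ => ∫ g, Real.exp (θ * (F g + -E)) ∂(gpi ι) with hP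
  have hPpos : ∀ θ, 0 < P θ := fun θ =>
    mgf_pos (μ := gpi ι) (X := fun g => F g + -E) (lX.const_mul θ).dom_exp.integrable
  have hPeq : ∀ θ, ∫ g, Real.exp (θ * F g) ∂(gpi ι) = Real.exp (θ * E) * P θ := by
    intro θ
    rw [hP]
    simp only
    rw [← integral_const_mul]
    refine integral_congr_ae (Filter.Eventually.of_forall fun g => ?_)
    simp only
    rw [← Real.exp_add]
    congr 1
    ring
  set ψ : ℝ → ℝ := fun θ => Real.log (P θ) with hψ
  -- the size at zero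
  obtain ⟨K, hK⟩ : ∃ K : ℝ, ∀ θ, 0 ≤ θ → θ ≤ x → ψ θ ≤ K * θ ^ 2 := by
    have dX2 : Dom (fun g => (F g + -E) ^ 2 * Real.exp (x * |F g + -E|)) := by
      have l2 : Lin (fun g => |F g + -E|) := by
        obtain ⟨a, b, ha, hb, h1⟩ := lX.bound
        exact ⟨lX.cont.abs, a, b, ha, hb, fun g => by rw [abs_abs]; exact h1 g⟩
      exact (lX.dom.pow 2).mul (l2.const_mul x).dom_exp
    refine ⟨∫ g, (F g + -E) ^ 2 * Real.exp (x * |F g + -E|) ∂(gpi ι), fun θ h0 h1 => ?_⟩
    have h2 : P θ ≤ ∫ g, (1 + θ * (F g + -E) +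
        θ ^ 2 * ((F g + -E) ^ 2 * Real.exp (x * |F g + -E|))) ∂(gpi ι) := by
      refine int_mono ((lX.const_mul θ).dom_exp)
        (((Lin.const 1).add (lX.const_mul θ)).dom.add (dX2.const_mul _)) fun g => ?_
      refine (ce_exp2 _).trans ?_
      have h3 : |θ * (F g + -E)| ≤ x * |F g + -E| := by
        rw [abs_mul, abs_of_nonneg h0]
        exact mul_le_mul_of_nonneg_right h1 (abs_nonneg _)
      have h4 : (θ * (F g + -E)) ^ 2 * Real.exp |θ * (F g + -E)| ≤
          (θ * (F g + -E)) ^ 2 * Real.exp (x * |F g + -E|) :=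
        mul_le_mul_of_nonneg_left (Real.exp_le_exp.2 h3) (sq_nonneg _)
      have e : (θ * (F g + -E)) ^ 2 * Real.exp (x * |F g + -E|) =
          θ ^ 2 * ((F g + -E) ^ 2 * Real.exp (x * |F g + -E|)) := by ring
      rw [e] at h4
      linarith
    have e1 : ∫ g, (1 + θ * (F g + -E) + θ ^ 2 * ((F g + -E) ^ 2 *
        Real.exp (x * |F g + -E|))) ∂(gpi ι) =
        1 + θ ^ 2 * ∫ g, (F g + -E) ^ 2 * Real.exp (x * |F g + -E|) ∂(gpi ι) := by
      rw [int_add ((Lin.const 1).add (lX.const_mul θ)).dom (dX2.const_mul _),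
        int_add (Lin.const 1).dom (lX.const_mul θ).dom, integral_const_mul, integral_const_mul,
        int_add hF.dom (Lin.const (-E)).dom, ← hE]
      simp
    rw [e1] at h2
    have h3 := Real.log_le_sub_one_of_pos (hPpos θ)
    rw [hψ]
    simp only
    linarith
  -- the step
  have hstep : ∀ a, 0 ≤ a → 2 * a ≤ 1 / √V → ψ (2 * a) ≤ 2 * ψ a + 2 * a ^ 2 * V := by
    intro a ha hax
    have hsV : 0 < √V := Real.sqrt_pos.2 hV0
    have hVx' : 1 / √V ≤ x := by
      rw [div_le_iff₀ hsV]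
      have h1 : 1 ≤ (x * √V) ^ 2 := by
        rw [mul_pow, Real.sq_sqrt hV0.le]; linarith
      exact (one_le_sq_iff₀ (by positivity)).1 h1
    have haV : a ^ 2 * V ≤ 1 / 2 := by
      have h1 : 2 * a * √V ≤ 1 := by
        rwa [le_div_iff₀ hsV] at hax
      have h2 : (2 * a * √V) ^ 2 ≤ 1 := pow_le_one₀ (by (clear * - ha hV0; positivity)) h1
      have h3 : (2 * a * √V) ^ 2 = 4 * (a ^ 2 * V) := by
        rw [mul_pow, mul_pow, Real.sq_sqrt hV0.le]; ring
      linarith only [h3, h2]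
    have k := exp_var h hF hG hconv hM hx hL0 ha (hL a ha (hax.trans hVx')) hu hu1
    have hW : 0 < ∫ g, Real.exp (2 * a * F g) ∂(gpi ι) := by
      rw [hPeq]; exact mul_pos (Real.exp_pos _) (hPpos _)
    have k2 : a ^ 2 * (∫ g, Real.exp (2 * a * F g) ∂(gpi ι)) *
        (M * u + L / x ^ 2 * (-Real.log u)) ≤
        a ^ 2 * (∫ g, Real.exp (2 * a * F g) ∂(gpi ι)) * V :=
      mul_le_mul_of_nonneg_left hV (by positivity)
    have k3 : (1 - a ^ 2 * V) * ∫ g, Real.exp (2 * a * F g) ∂(gpi ι) ≤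
        (∫ g, Real.exp (a * F g) ∂(gpi ι)) ^ 2 := by
      linarith only [k2, k]
    rw [hPeq, hPeq] at k3
    have e1 : (Real.exp (a * E) * P a) ^ 2 = Real.exp (2 * a * E) * P a ^ 2 := by
      rw [mul_pow, ← Real.exp_nat_mul]
      congr 2
      push_cast
      ring
    rw [e1] at k3
    have k4 : (1 - a ^ 2 * V) * P (2 * a) ≤ P a ^ 2 := by
      have h1 : Real.exp (2 * a * E) * ((1 - a ^ 2 * V) * P (2 * a)) ≤
          Real.exp (2 * a * E) * P a ^ 2 := by
        linarith only [k3]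
      exact le_of_mul_le_mul_left h1 (Real.exp_pos _)
    have k5 : Real.exp (-(2 * (a ^ 2 * V))) * P (2 * a) ≤ P a ^ 2 :=
      (mul_le_mul_of_nonneg_right (ce_exp (by (clear * - hV0; positivity)) haV) (hPpos _).le).trans k4
    have k6 := Real.log_le_log (mul_pos (Real.exp_pos _) (hPpos _)) k5
    rw [Real.log_mul (Real.exp_pos _).ne' (hPpos _).ne', Real.log_exp, Real.log_pow] at k6
    push_cast at k6
    rw [hψ]
    simp only
    linarith only [k6]
  -- conclusion
  have hsV : 0 < √V := Real.sqrt_pos.2 hV0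
  have hVx' : 1 / √V ≤ x := by
    rw [div_le_iff₀ hsV]
    have h1 : 1 ≤ (x * √V) ^ 2 := by
      rw [mul_pow, Real.sq_sqrt hV0.le]; linarith
    exact (one_le_sq_iff₀ (by positivity)).1 h1
  have k1 : ψ (1 / √V) ≤ (1 / √V) ^ 2 * V :=
    ce_iter hV0.le (fun θ h0 h1 => hK θ h0 (h1.trans hVx')) hstep (by positivity) le_rfl
  have e1 : (1 / √V) ^ 2 * V = 1 := by
    rw [div_pow, Real.sq_sqrt hV0.le]; field_simp
  rw [e1] at k1
  have h2 := measure_ge_le_exp_mul_mgf (μ := gpi ι) (X := fun g => F g + -E) (t * √V)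
    (show (0 : ℝ) ≤ 1 / √V by positivity) (lX.const_mul (1 / √V)).dom_exp.integrable
  have h3 : mgf (fun g => F g + -E) (gpi ι) (1 / √V) ≤ Real.exp 1 := by
    have h5 : 0 < mgf (fun g => F g + -E) (gpi ι) (1 / √V) := hPpos _
    rw [← Real.log_le_iff_le_exp h5]
    exact k1
  have h4 : {g | E + t * √V ≤ F g} = {g | t * √V ≤ F g + -E} := by
    ext g
    simp only [Set.mem_ofPred_eq]
    constructor <;> intro h <;> linarith
  rw [h4]
  refine h2.trans ?_
  calc Real.exp (-(1 / √V) * (t * √V)) * mgf (fun g => F g + -E) (gpi ι) (1 / √V) ≤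
      Real.exp (-(1 / √V) * (t * √V)) * Real.exp 1 :=
        mul_le_mul_of_nonneg_left h3 (Real.exp_pos _).le
    _ = Real.exp (1 - t) := by
        rw [← Real.exp_add]
        congr 1
        field_simp
        ring

end Vale.Agent.P146.Ce
end

section

/-!
# P146, Ce: the lower tail of a convex function of a Gaussian vector at the scale of its
standard deviation
-/

open MeasureTheory ProbabilityTheory
open scoped ENNReal

namespace Vale.Agent.P146.Ce

open Vale.Agent.P146.Ub.Cv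

variable {ι : Type} [Fintype ι] {F : (ι → ℝ) → ℝ} {G : ι → (ι → ℝ) → ℝ}

private lemma lw_convex (hconv : ∀ z w : ι → ℝ, F z + ∑ i, G i z * w i ≤ F (fun i => z i + w i))
    {s t : ℝ} (hs : 0 ≤ s) (ht : 0 ≤ t) (hst : s + t = 1) (x y : ι → ℝ) :
    F (s • x + t • y) ≤ s * F x + t * F y := by
  set z : ι → ℝ := s • x + t • y with hz
  have h1 := hconv z (fun i => x i - z i)
  have h2 := hconv z (fun i => y i - z i)
  have e1 : (fun i => z i + (x i - z i)) = x := by funext i; ring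
  have e2 : (fun i => z i + (y i - z i)) = y := by funext i; ring
  rw [e1] at h1
  rw [e2] at h2
  have h3 : s * ∑ i, G i z * (x i - z i) + t * ∑ i, G i z * (y i - z i) = 0 := by
    rw [Finset.mul_sum, Finset.mul_sum, ← Finset.sum_add_distrib]
    refine Finset.sum_eq_zero fun i _ => ?_
    have : s * x i + t * y i = z i := by simp [hz]
    have h4 : s * (x i - z i) + t * (y i - z i) = 0 := by
      have : s * (x i - z i) + t * (y i - z i) = (s * x i + t * y i) - (s + t) * z i := by ring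
      rw [this, hst]; linarith
    linear_combination (G i z) * h4
  have h5 := mul_le_mul_of_nonneg_left h1 hs
  have h6 := mul_le_mul_of_nonneg_left h2 ht
  have h7 : s * F z + t * F z = F z := by rw [← add_mul, hst, one_mul]
  linarith only [h7, h6, h5, h3]

private lemma lw_logconc (hF : Lin F)
    (hconv : ∀ z w : ι → ℝ, F z + ∑ i, G i z * w i ≤ F (fun i => z i + w i))
    {s t : ℝ} (hs : 0 < s) (ht : 0 < t) (hst : s + t = 1) (a b : ℝ) :
    (gpi ι).real {g | F g ≤ a} ^ s * (gpi ι).real {g | F g ≤ b} ^ t ≤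
      (gpi ι).real {g | F g ≤ s * a + t * b} := by
  have hm : ∀ c : ℝ, MeasurableSet {g | F g ≤ c} := fun c =>
    (isClosed_le hF.cont continuous_const).measurableSet
  have key := Vale.Agent.P146.Lt.gauss_pl hs ht hst
    (Set.indicator {g | F g ≤ a} 1) (Set.indicator {g | F g ≤ b} 1)
    (Set.indicator {g | F g ≤ s * a + t * b} 1)
    ((measurable_const).indicator (hm a)) ((measurable_const).indicator (hm b))
    ((measurable_const).indicator (hm _)) (fun x y => ?_)
  · rw [lintegral_indicator_one (hm a), lintegral_indicator_one (hm b),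
      lintegral_indicator_one (hm _)] at key
    have h1 := ENNReal.toReal_mono (measure_ne_top _ _) key
    rw [ENNReal.toReal_mul, ← ENNReal.toReal_rpow, ← ENNReal.toReal_rpow] at h1
    exact h1
  · by_cases hx : F x ≤ a
    · by_cases hy : F y ≤ b
      · have hxy : F (s • x + t • y) ≤ s * a + t * b := by
          refine (lw_convex hconv hs.le ht.le hst x y).trans ?_
          gcongr
        have e1 : Set.indicator {g | F g ≤ a} (1 : (ι → ℝ) → ℝ≥0∞) x = 1 :=
          Set.indicator_of_mem (s := {g | F g ≤ a}) (a := x) hx 1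
        have e2 : Set.indicator {g | F g ≤ b} (1 : (ι → ℝ) → ℝ≥0∞) y = 1 :=
          Set.indicator_of_mem (s := {g | F g ≤ b}) (a := y) hy 1
        have e3 : Set.indicator {g | F g ≤ s * a + t * b} (1 : (ι → ℝ) → ℝ≥0∞)
            (s • x + t • y) = 1 :=
          Set.indicator_of_mem (s := {g | F g ≤ s * a + t * b}) (a := s • x + t • y) hxy 1
        rw [e1, e2, e3, ENNReal.one_rpow, ENNReal.one_rpow, one_mul, one_mul]
        rw [ENNReal.one_le_ofReal, Real.one_le_exp_iff]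
        have : 0 ≤ ∑ i, (x i - y i) ^ 2 := Finset.sum_nonneg fun i _ => sq_nonneg _
        (clear * - hs ht; positivity)
      · have e2 : Set.indicator {g | F g ≤ b} (1 : (ι → ℝ) → ℝ≥0∞) y = 0 :=
          Set.indicator_of_notMem (s := {g | F g ≤ b}) (a := y) hy 1
        rw [e2, ENNReal.zero_rpow_of_pos ht, mul_zero]
        positivity
    · have e2 : Set.indicator {g | F g ≤ a} (1 : (ι → ℝ) → ℝ≥0∞) x = 0 :=
        Set.indicator_of_notMem (s := {g | F g ≤ a}) (a := x) hx 1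
      rw [e2, ENNReal.zero_rpow_of_pos hs, zero_mul]
      positivity

/-- the lower tail: a convex function of a Gaussian vector has sub-exponential lower tails at the
scale of its standard deviation -/
theorem low_exp (hF : Lin F)
    (hconv : ∀ z w : ι → ℝ, F z + ∑ i, G i z * w i ≤ F (fun i => z i + w i))
    {σ : ℝ} (hσ : 0 < σ) (hV : ∫ g, F g ^ 2 ∂(gpi ι) - (∫ g, F g ∂(gpi ι)) ^ 2 ≤ σ ^ 2)
    {t : ℝ} (ht : 0 ≤ t) :
    (gpi ι).real {g | F g ≤ ∫ g, F g ∂(gpi ι) - t * σ} ≤ 2 * Real.exp (-(t / 4)) := by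
  set m : ℝ := ∫ g, F g ∂(gpi ι) with hm
  set φ : ℝ → ℝ := fun v => (gpi ι).real {g | F g ≤ v} with hφ
  have hφ1 : ∀ v, φ v ≤ 1 := fun v => measureReal_le_one
  have hφ0 : ∀ v, 0 ≤ φ v := fun v => measureReal_nonneg
  rcases le_or_gt t 2 with h2 | h2
  · refine (hφ1 _).trans ?_
    have : Real.exp (-(1 / 2)) ≤ Real.exp (-(t / 4)) := Real.exp_le_exp.2 (by linarith)
    have h3 := Real.add_one_le_exp (-(1 / 2 : ℝ))
    linarith only [h3, this]
  have hmem : MemLp F 2 (gpi ι) := by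
    rw [memLp_two_iff_integrable_sq hF.cont.aestronglyMeasurable]
    exact (hF.dom.pow 2).integrable
  have hvar : Var[F; gpi ι] ≤ σ ^ 2 := by
    rw [variance_eq_sub hmem]
    exact hV
  have hch : (gpi ι).real {g | 2 * σ ≤ |F g - m|} ≤ 1 / 4 := by
    have h := meas_ge_le_variance_div_sq hmem (show 0 < 2 * σ by positivity)
    have h' := ENNReal.toReal_mono ENNReal.ofReal_ne_top h
    rw [ENNReal.toReal_ofReal (div_nonneg (variance_nonneg _ _) (by positivity))] at h'
    refine h'.trans ?_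
    rw [div_le_div_iff₀ (by positivity) (by norm_num)]
    linarith only [hvar]
  have hlo : φ (m - 2 * σ) ≤ 1 / 4 := by
    refine (measureReal_mono ?_).trans hch
    intro g hg
    have : F g ≤ m - 2 * σ := hg
    show 2 * σ ≤ |F g - m|
    rw [abs_sub_comm]
    exact (by linarith : 2 * σ ≤ m - F g).trans (le_abs_self _)
  have hhi : 3 / 4 ≤ φ (m + 2 * σ) := by
    have hms : MeasurableSet {g | F g ≤ m + 2 * σ} :=
      (isClosed_le hF.cont continuous_const).measurableSet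
    have h1 : (gpi ι).real {g | F g ≤ m + 2 * σ}ᶜ ≤ 1 / 4 := by
      refine (measureReal_mono ?_).trans hch
      intro g hg
      have : m + 2 * σ < F g := not_le.1 hg
      show 2 * σ ≤ |F g - m|
      exact (by linarith only [this] : 2 * σ ≤ F g - m).trans (le_abs_self _)
    rw [probReal_compl_eq_one_sub hms] at h1
    show 3 / 4 ≤ (gpi ι).real {g | F g ≤ m + 2 * σ}
    linarith only [h1]
  set s : ℝ := 4 / (t + 2) with hs
  have hs0 : 0 < s := by positivity
  have hs1 : s < 1 := by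
    rw [hs, div_lt_one (by positivity)]; linarith
  have hlc := lw_logconc hF hconv hs0 (show 0 < 1 - s by linarith) (by ring) (m - t * σ)
    (m + 2 * σ)
  have e1 : s * (m - t * σ) + (1 - s) * (m + 2 * σ) = m - 2 * σ := by
    have : s * (t + 2) = 4 := by rw [hs]; field_simp
    linear_combination (-σ) * this
  rw [e1] at hlc
  have h5 : φ (m - t * σ) ^ s * (3 / 4 : ℝ) ^ (1 - s) ≤ 1 / 4 := by
    refine le_trans ?_ (hlc.trans hlo)
    refine mul_le_mul_of_nonneg_left ?_ (Real.rpow_nonneg (hφ0 _) _)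
    exact Real.rpow_le_rpow (by norm_num) hhi (by linarith)
  have h6 : φ (m - t * σ) ^ s ≤ (1 / 3 : ℝ) * (3 / 4) ^ s := by
    have h7 : (3 / 4 : ℝ) ^ (1 - s) = (3 / 4) * ((3 / 4) ^ s)⁻¹ := by
      rw [Real.rpow_sub (by norm_num), Real.rpow_one, div_eq_mul_inv]
    have h8 : (0 : ℝ) < (3 / 4) ^ s := Real.rpow_pos_of_pos (by norm_num) _
    rw [h7] at h5
    have h9 := mul_le_mul_of_nonneg_right h5 h8.le
    have h10 : φ (m - t * σ) ^ s * (3 / 4 * ((3 / 4) ^ s)⁻¹) * (3 / 4) ^ s =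
        φ (m - t * σ) ^ s * (3 / 4) := by
      field_simp
    rw [h10] at h9
    linarith only [h9]
  have h11 : φ (m - t * σ) ≤ ((1 / 3 : ℝ) * (3 / 4) ^ s) ^ (s⁻¹) := by
    have := Real.rpow_le_rpow (Real.rpow_nonneg (hφ0 _) _) h6 (inv_nonneg.2 hs0.le)
    rwa [← Real.rpow_mul (hφ0 _), mul_inv_cancel₀ hs0.ne', Real.rpow_one] at this
  refine h11.trans ?_
  rw [Real.mul_rpow (by norm_num) (Real.rpow_nonneg (by norm_num) _),
    ← Real.rpow_mul (by norm_num), mul_inv_cancel₀ hs0.ne', Real.rpow_one]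
  have h12 : (1 / 3 : ℝ) ≤ Real.exp (-1) := by
    rw [Real.exp_neg, one_div]
    exact inv_anti₀ (Real.exp_pos _) (by linarith only [Real.exp_one_lt_d9, hs1, hs0])
  have h13 : (1 / 3 : ℝ) ^ s⁻¹ ≤ Real.exp (-(t / 4)) := by
    refine (Real.rpow_le_rpow (by norm_num) h12 (inv_nonneg.2 hs0.le)).trans ?_
    rw [← Real.exp_mul]
    refine Real.exp_le_exp.2 ?_
    rw [hs, inv_div]
    linarith only [hs1, hs0]
  linarith only [Real.exp_pos (-(t / 4)), h13]

end Vale.Agent.P146.Ce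
end

section

/-!
# P146, Ce: exponential concentration of the free energy at the scale `n^(49/100)`
-/

open MeasureTheory ProbabilityTheory

namespace Vale.Agent.P146.Ce

open Vale.Agent.P146.Ub.Cv
open Vale.Agent.P146.Sx (pv)

/-- the powers of `v = n^(1/900)` -/
theorem ce_pow {n : ℕ} (hn : 1 ≤ n) {v : ℝ} (hv : v = (n : ℝ) ^ (1 / 900 : ℝ)) :
    1 ≤ v ∧ v ^ 900 = n ∧ (n : ℝ) ^ (35 / 36 : ℝ) = v ^ 875 ∧
      (n : ℝ) ^ (49 / 100 : ℝ) = v ^ 441 ∧ (n : ℝ) ^ (44 / 45 : ℝ) = v ^ 880 ∧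
      1 + Real.log n ≤ 451 * v ^ 2 := by
  have hn1 : (1 : ℝ) ≤ n := by exact_mod_cast hn
  have hn0 : (0 : ℝ) < n := by linarith
  have hp : ∀ k : ℕ, v ^ k = (n : ℝ) ^ ((k : ℝ) / 900) := by
    intro k
    rw [hv, ← Real.rpow_natCast, ← Real.rpow_mul hn0.le]
    congr 1
    ring
  refine ⟨by rw [hv]; exact Real.one_le_rpow hn1 (by norm_num), ?_, ?_, ?_, ?_, ?_⟩
  · rw [hp]; norm_num
  · rw [hp]; norm_num
  · rw [hp]; norm_num
  · rw [hp]; norm_num
  · rw [hp]
    have h1 := Real.log_le_rpow_div hn0.le (show (0 : ℝ) < 1 / 450 by norm_num)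
    have h2 : (1 : ℝ) ≤ (n : ℝ) ^ (1 / 450 : ℝ) := Real.one_le_rpow hn1 (by norm_num)
    have h3 : (n : ℝ) ^ (1 / 450 : ℝ) / (1 / 450) = 450 * (n : ℝ) ^ (1 / 450 : ℝ) := by ring
    have h4 : ((2 : ℕ) : ℝ) / 900 = 1 / 450 := by norm_num
    rw [h4]
    linarith only [h2, h1]

/-- the upper tail -/
theorem sk_up {β : ℝ} (hβ : 1 ≤ β) : ∃ D : ℝ, 0 < D ∧ ∀ n : ℕ, 1 ≤ n → ∀ s : ℝ, 0 ≤ s →
    (disorder n).real {g | ∫ g, freeEnergy n β g ∂(disorder n) + s * (n : ℝ) ^ (49 / 100 : ℝ) ≤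
      freeEnergy n β g} ≤ Real.exp (1 - s / D) := by
  classical
  obtain ⟨C, hC1, hmom, -, hlow⟩ := Sx.moment hβ
  set K : ℝ := β ^ 2 / 2 + 8118 * C with hK
  have hKC : 8118 * C ≤ K := by rw [hK]; linarith only [sq_nonneg β]
  have hK0 : 0 < K := by linarith
  refine ⟨√K, Real.sqrt_pos.2 hK0, fun n hn s hs => ?_⟩
  have hn1 : (1 : ℝ) ≤ n := by exact_mod_cast hn
  have hn0 : (0 : ℝ) < n := by linarith only [hn1]
  obtain ⟨v, hv⟩ : ∃ v : ℝ, v = (n : ℝ) ^ (1 / 900 : ℝ) := ⟨_, rfl⟩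
  obtain ⟨hv1, hvn, e35, e49, -, hlog⟩ := ce_pow hn hv
  have hv0 : 0 < v := by linarith only [hv1]
  set E : ℝ := ∫ g, freeEnergy n β g ∂(disorder n) with hE
  have hlow' := hlow n hn
  rw [← hE, e35] at hlow'
  set x : ℝ := 1 / (3 * v ^ 5) with hx
  have hx0 : 0 < x := by positivity
  have hL : ∀ a, 0 ≤ a → 2 * a ≤ x → ∫ g, Real.exp (2 * (a + x) * freeEnergy n β g) ∂(gpi (Pair n)) ≤
      Real.exp (2 * (a + x) * (∫ g, freeEnergy n β g ∂(gpi (Pair n))) + 2 * C * v ^ 870) := by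
    intro a ha hax
    obtain ⟨y, hy⟩ : ∃ y : ℝ, y = 2 * (a + x) := ⟨_, rfl⟩
    have hy0 : 0 < y := by rw [hy]; positivity
    have hyx : y ≤ 1 / v ^ 5 := by
      have h3 : 3 * x = 1 / v ^ 5 := by rw [hx]; field_simp
      rw [hy, ← h3]
      linarith only [hax]
    have hy1 : y ≤ 1 := by
      refine hyx.trans ?_
      rw [div_le_one (by positivity)]
      exact one_le_pow₀ hv1
    have h1 := hmom n hn y hy0 hy1
    have hpos : 0 < ∫ g, Real.exp (y * freeEnergy n β g) ∂(disorder n) :=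
      mgf_pos (μ := disorder n) (X := freeEnergy n β) (Sx.integrable_exp n β y)
    rw [Real.log_le_iff_le_exp hpos] at h1
    rw [← hy]
    change ∫ g, Real.exp (y * freeEnergy n β g) ∂(disorder n) ≤ Real.exp (y * E + 2 * C * v ^ 870)
    refine h1.trans (Real.exp_le_exp.2 ?_)
    have h2 : y * (n * pv β) ≤ y * (E + C * v ^ 875) := mul_le_mul_of_nonneg_left hlow' hy0.le
    have h3 : y * v ^ 875 ≤ v ^ 870 := by
      have h4 : y * v ^ 875 ≤ 1 / v ^ 5 * v ^ 875 :=
        mul_le_mul_of_nonneg_right hyx (by positivity)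
      refine h4.trans (le_of_eq ?_)
      field_simp
    have h5 : (n : ℝ) * y ^ 6 ≤ v ^ 870 := by
      have h6 : y ^ 6 ≤ (1 / v ^ 5) ^ 6 := pow_le_pow_left₀ hy0.le hyx 6
      have h7 : (n : ℝ) * y ^ 6 ≤ n * (1 / v ^ 5) ^ 6 := mul_le_mul_of_nonneg_left h6 hn0.le
      refine h7.trans (le_of_eq ?_)
      rw [← hvn]
      field_simp
    have h8 := mul_le_mul_of_nonneg_left h3 (by linarith only [hy1, hy, ha, hx0, hC1] : (0 : ℝ) ≤ C)
    have h9 := mul_le_mul_of_nonneg_left h5 (by linarith only [hy1, hy, ha, hx0, hC1] : (0 : ℝ) ≤ C)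
    have e1 : y * (E + C * v ^ 875) = y * E + C * (y * v ^ 875) := by ring
    have e2 : C * n * y ^ 6 = C * (n * y ^ 6) := by ring
    rw [e1] at h2
    rw [e2]
    linarith only [h9, h8, h2]
  have hV : β ^ 2 * n / 2 * (1 / n) + 2 * C * v ^ 870 / x ^ 2 * (-Real.log (1 / n)) ≤
      K * v ^ 882 := by
    have e1 : β ^ 2 * n / 2 * (1 / n) = β ^ 2 / 2 := by field_simp
    have e2 : 2 * C * v ^ 870 / x ^ 2 = 18 * C * v ^ 880 := by
      rw [hx]; field_simp; ring
    have e3 : -Real.log (1 / n) = Real.log n := by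
      rw [one_div, Real.log_inv, neg_neg]
    rw [e1, e2, e3]
    have h1 : 18 * C * v ^ 880 * Real.log n ≤ 18 * C * v ^ 880 * (451 * v ^ 2) :=
      mul_le_mul_of_nonneg_left (by linarith only [hlog]) (by positivity)
    have h2 : β ^ 2 / 2 ≤ β ^ 2 / 2 * v ^ 882 :=
      le_mul_of_one_le_right (by positivity) (one_le_pow₀ hv1)
    have e4 : K * v ^ 882 = β ^ 2 / 2 * v ^ 882 + 18 * C * v ^ 880 * (451 * v ^ 2) := by
      rw [hK]; ring
    rw [e4]
    linarith only [h2, h1]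
  have hVx : 1 ≤ K * v ^ 882 * x ^ 2 := by
    have e1 : K * v ^ 882 * x ^ 2 = K / 9 * v ^ 872 := by
      rw [hx]; field_simp; ring
    rw [e1]
    have h1 : (1 : ℝ) ≤ v ^ 872 := one_le_pow₀ hv1
    have h2 : 1 ≤ K / 9 := by linarith only [hKC, hC1]
    linarith only [mul_nonneg (le_of_lt (sub_pos.2 hK0)) (sub_nonneg.2 h1), mul_eq_zero_of_left (sub_eq_zero.2 hK) (v - (0)), mul_eq_zero_of_left (sub_eq_zero.2 hK) (v - (1)), mul_nonneg (sub_nonneg.2 hβ) (sub_nonneg.2 hβ), hC1, hβ]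
  have h := up_exp (reg_freeEnergy n β) (lin_freeEnergy n β) (Lt.lt_lin_grad n β)
    (tangent_freeEnergy n β) (sum_gradF_sq n β) hx0 (by positivity) hL
    (u := 1 / n) (by positivity) (by rw [div_le_one hn0]; exact hn1) hV (by positivity) hVx
    (t := s / √K) (by positivity)
  have e : s / √K * √(K * v ^ 882) = s * (n : ℝ) ^ (49 / 100 : ℝ) := by
    have hsK : 0 < √K := Real.sqrt_pos.2 hK0
    have e1 : √(K * v ^ 882) = √K * v ^ 441 := by
      rw [Real.sqrt_mul hK0.le]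
      congr 1
      rw [show v ^ 882 = (v ^ 441) ^ 2 by ring]
      exact Real.sqrt_sq (by positivity)
    rw [e1, e49]
    field_simp
  rw [e] at h
  exact h

/-- the lower tail -/
theorem sk_dn {β : ℝ} (hβ : 1 ≤ β) : ∃ D : ℝ, 0 < D ∧ ∀ n : ℕ, 1 ≤ n → ∀ s : ℝ, 0 ≤ s →
    (disorder n).real {g | freeEnergy n β g ≤
      ∫ g, freeEnergy n β g ∂(disorder n) - s * (n : ℝ) ^ (49 / 100 : ℝ)} ≤
        2 * Real.exp (-(s / D)) := by
  classical
  obtain ⟨C, hC⟩ := Sx.var_upper5 hβ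
  set K : ℝ := max C 1 * 451 with hK
  have hC1 : (1 : ℝ) ≤ max C 1 := le_max_right _ _
  have hK0 : 0 < K := by positivity
  refine ⟨4 * √K, by positivity, fun n hn s hs => ?_⟩
  have hn1 : (1 : ℝ) ≤ n := by exact_mod_cast hn
  have hn0 : (0 : ℝ) < n := by linarith
  obtain ⟨v, hv⟩ : ∃ v : ℝ, v = (n : ℝ) ^ (1 / 900 : ℝ) := ⟨_, rfl⟩
  obtain ⟨hv1, hvn, -, e49, e44, hlog⟩ := ce_pow hn hv
  have hv0 : 0 < v := by linarith only [hv1]
  have hlog0 : 0 ≤ Real.log n := Real.log_nonneg hn1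
  have lF := lin_freeEnergy n β
  have hmem : MemLp (freeEnergy n β) 2 (disorder n) := by
    rw [memLp_two_iff_integrable_sq lF.cont.aestronglyMeasurable]
    exact (lF.dom.pow 2).integrable
  have hprob : IsProbabilityMeasure (disorder n) := by unfold disorder; infer_instance
  have hvar : Var[freeEnergy n β; disorder n] =
      ∫ g, freeEnergy n β g ^ 2 ∂(disorder n) - (∫ g, freeEnergy n β g ∂(disorder n)) ^ 2 := by
    rw [variance_eq_sub hmem]
    rfl
  have hV := hC n hn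
  rw [hvar, e44] at hV
  have hV2 : ∫ g, freeEnergy n β g ^ 2 ∂(disorder n) - (∫ g, freeEnergy n β g ∂(disorder n)) ^ 2 ≤
      (√K * v ^ 441) ^ 2 := by
    refine hV.trans ?_
    rw [mul_pow, Real.sq_sqrt hK0.le]
    have h1 : C * v ^ 880 * (1 + Real.log n) ≤ max C 1 * v ^ 880 * (451 * v ^ 2) := by
      gcongr
      exact le_max_left _ _
    refine h1.trans (le_of_eq ?_)
    rw [hK]; ring
  have h := low_exp (G := gradF n β) lF (tangent_freeEnergy n β)
    (σ := √K * v ^ 441) (by positivity) hV2 (t := s / √K) (by positivity)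
  have hsK : 0 < √K := Real.sqrt_pos.2 hK0
  have e : s / √K * (√K * v ^ 441) = s * (n : ℝ) ^ (49 / 100 : ℝ) := by
    rw [e49]
    field_simp
  have e2 : s / √K / 4 = s / (4 * √K) := by field_simp
  rw [e, e2] at h
  exact h

/-- two-sided exponential concentration at the scale `n^(49/100)` -/
theorem sk_conc {β : ℝ} (hβ : 1 ≤ β) : ∃ C a : ℝ, 1 ≤ C ∧ 0 < a ∧ ∀ n : ℕ, 1 ≤ n → ∀ t : ℝ,
    0 ≤ t → (disorder n).real {g | t * (n : ℝ) ^ (49 / 100 : ℝ) ≤
      |freeEnergy n β g - ∫ g, freeEnergy n β g ∂(disorder n)|} ≤ C * Real.exp (-(a * t)) := by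
  obtain ⟨D₁, hD₁, h1⟩ := sk_up hβ
  obtain ⟨D₂, hD₂, h2⟩ := sk_dn hβ
  have he : 0 < Real.exp 1 := Real.exp_pos 1
  refine ⟨Real.exp 1 + 2, min (1 / D₁) (1 / D₂), by linarith, by positivity,
    fun n hn t ht => ?_⟩
  have hprob : IsProbabilityMeasure (disorder n) := by unfold disorder; infer_instance
  set E : ℝ := ∫ g, freeEnergy n β g ∂(disorder n) with hE
  have hsub : {g | t * (n : ℝ) ^ (49 / 100 : ℝ) ≤ |freeEnergy n β g - E|} ⊆
      {g | E + t * (n : ℝ) ^ (49 / 100 : ℝ) ≤ freeEnergy n β g} ∪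
        {g | freeEnergy n β g ≤ E - t * (n : ℝ) ^ (49 / 100 : ℝ)} := by
    intro g hg
    have hg' : t * (n : ℝ) ^ (49 / 100 : ℝ) ≤ |freeEnergy n β g - E| := hg
    rcases le_abs.1 hg' with h | h
    · left
      show E + t * (n : ℝ) ^ (49 / 100 : ℝ) ≤ freeEnergy n β g
      linarith only [h]
    · right
      show freeEnergy n β g ≤ E - t * (n : ℝ) ^ (49 / 100 : ℝ)
      linarith
  refine (measureReal_mono hsub).trans ((measureReal_union_le _ _).trans ?_)
  have h3 := h1 n hn t ht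
  have h4 := h2 n hn t ht
  rw [← hE] at h3 h4
  have h5 : Real.exp (1 - t / D₁) ≤ Real.exp 1 * Real.exp (-(min (1 / D₁) (1 / D₂) * t)) := by
    rw [← Real.exp_add]
    refine Real.exp_le_exp.2 ?_
    have := mul_le_mul_of_nonneg_right (min_le_left (1 / D₁) (1 / D₂)) ht
    have e : 1 / D₁ * t = t / D₁ := by ring
    linarith only [e, this]
  have h6 : 2 * Real.exp (-(t / D₂)) ≤ 2 * Real.exp (-(min (1 / D₁) (1 / D₂) * t)) := by
    refine mul_le_mul_of_nonneg_left (Real.exp_le_exp.2 ?_) (by norm_num)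
    have := mul_le_mul_of_nonneg_right (min_le_right (1 / D₁) (1 / D₂)) ht
    have e : 1 / D₂ * t = t / D₂ := by ring
    linarith only [e, this]
  calc _ ≤ Real.exp (1 - t / D₁) + 2 * Real.exp (-(t / D₂)) := add_le_add h3 h4
    _ ≤ Real.exp 1 * Real.exp (-(min (1 / D₁) (1 / D₂) * t)) +
        2 * Real.exp (-(min (1 / D₁) (1 / D₂) * t)) := add_le_add h5 h6
    _ = _ := by ring

end Vale.Agent.P146.Ce
end
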