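import Mathlib
import Vale.Agent.P146.Bd3.B2
import Vale.Agent.P146.Bdl.B32
import Vale.Agent.P146.Bd3.B1
import Vale.Agent.P146.Bdl.B42
import Vale.Agent.P146.Bdl.B34

set_option linter.all false

section

/-!
(L2): covariances with the disorder at the level `d`.
-/

open MeasureTheory ProbabilityTheory Filter Topology

namespace Vale.Agent.P146.Ub.Ld

open Vale.Agent.P157 Vale.Agent.P157.Lv Vale.Agent.P157.Lv.Sy
open Vale.Agent.P157.Par (Path Exponents incr)
open Vale.Agent.P146 (Pair)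

variable {n K N d : ℕ} {m s R : ℕ → ℝ} {β θ : ℝ}

theorem cv_lt {l : ℕ} (hl : l < d) {a b : (Fin n → Bool) → RI n K → ℝ}
    (ha : ∀ x e, a x (Sum.inr e) = 0) (x x' : Fin n → Bool) :
    cv (rlv d) l a b x x' = 0 := by
  unfold cv
  refine Finset.sum_eq_zero fun e _ => ?_
  rcases e with p | e
  · rw [if_neg (show ¬ rlv d (Sum.inl p : RI n K) ≤ l from not_le.2 hl)]
  · rw [ha, zero_mul, ite_self]

theorem cv_ge {l : ℕ} (hl : d ≤ l) {a b : (Fin n → Bool) → RI n K → ℝ}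
    (ha : ∀ x e, a x (Sum.inr e) = 0) (x x' : Fin n → Bool) :
    cv (rlv d) l a b x x' = cv rlev l a b x x' := by
  unfold cv
  refine Finset.sum_congr rfl fun e _ => ?_
  rcases e with p | e
  · rw [if_pos (show rlv d (Sum.inl p : RI n K) ≤ l from hl),
      if_pos (show rlev (Sum.inl p : RI n K) ≤ l from Nat.zero_le _)]
  · rw [ha, zero_mul, ite_self, ite_self]

theorem cv_dsk_lt {l : ℕ} (hl : l < d) (γ γ' : ℝ) (x x' : Fin n → Bool) :
    cv (rlv d) l (dsk (K := K) N γ) (dsk N γ') x x' = 0 :=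
  cv_lt hl (fun x e => dsk_b N γ x e) x x'

theorem cv_dsk_ge (hN : N ≤ n) {l : ℕ} (hl : d ≤ l) (γ γ' : ℝ) (x x' : Fin n → Bool) :
    cv (rlv d) l (dsk (K := K) N γ) (dsk N γ') x x' =
      γ * γ' * ((N * Rov (ph hN) x x') ^ 2 - N) / 2 := by
  rw [cv_ge hl (fun x e => dsk_b N γ x e), cv_dsk hN]

theorem cv_cav_lt {l : ℕ} (hl : l < d) (γ : ℝ) (x x' : Fin n → Bool) :
    cv (rlv d) l (cav (K := K) N γ) (cav N γ) x x' = 0 :=
  cv_lt hl (fun x e => cav_b N γ x e) x x'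

theorem cv_cav_ge (hN : N < n) {l : ℕ} (hl : d ≤ l) (γ : ℝ) (x x' : Fin n → Bool) :
    cv (rlv d) l (cav (K := K) N γ) (cav N γ) x x' =
      γ ^ 2 * (sp N x * sp N x') * (N * Rov (ph hN.le) x x') := by
  rw [cv_ge hl (fun x e => cav_b N γ x e), cv_cav hN]

theorem cv_tre' (hN : N < n) {l : ℕ} (hl : l ≤ K) (γ : ℝ) (hR : Path K R) (x x' : Fin n → Bool) :
    cv (rlv d) l (tre (K := K) N γ R) (tre N γ R) x x' = γ ^ 2 * (sp N x * sp N x') * R l := by
  rw [← cv_tre hN hl γ hR x x']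
  unfold cv
  refine Finset.sum_congr rfl fun e _ => ?_
  rcases e with p | p | i
  · rw [tre_a, zero_mul, ite_self, ite_self]
  · rfl
  · rfl

end Vale.Agent.P146.Ub.Ld
end

section

/-!
(L2): regularity, fields, perturbations and variances of the systems with the disorder at the
level `d`.
-/

open MeasureTheory ProbabilityTheory Filter Topology

namespace Vale.Agent.P146.Ub.Ld

set_option linter.unusedSectionVars false

open Vale.Agent.P157 Vale.Agent.P157.Lv Vale.Agent.P157.Lv.Sy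
open Vale.Agent.P157.Par (Path Exponents incr)
open Vale.Agent.P146 (Pair)

variable {n K N d : ℕ} {m s R : ℕ → ℝ} {β θ : ℝ}

theorem rl_zc (hN : N ≤ n) {l : ℕ} (hl : l ≤ K) (i : Fin N) : rlv d (zc hN l i : RI n K) = l :=
  rr_val hl

/-- Any system whose coefficients of the fields of the sites `i < N` are those of `fd N s`. -/
theorem r_fld (hd : d ≤ K) (hN : N ≤ n) (h0 : 0 < N) (hm : Exponents K m)
    (hs : ∀ l ≤ K, 0 ≤ s l) (c : ℝ) {a : (Fin n → Bool) → RI n K → ℝ}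
    (ha : ∀ x (p : Fin (K + 1) × Fin n), (p.2 : ℕ) < N →
      a x (Sum.inr (Sum.inl p)) = s p.1 * spin x p.2) :
    Fld (ls (rlv d) K m c a) (fun e _ x => a x e) (ph hN) (zc hN) s where
  reg := ls_regD hm (rlv_le hd) c a
  N0 := h0
  norm := fun x => by
    have h : ∀ i : Fin N, ph hN x i ^ 2 = 1 := fun i => by
      unfold ph
      rw [sq, rc_spin_sq]
    simp [h]
  lev := fun l hl i => rl_zc (d := d) (K := K) hN hl i
  D := fun l hl i z x => by
    show a x (Sum.inr (Sum.inl (Fin.ofNat (K + 1) l, Fin.castLE hN i))) = s l * ph hN x i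
    rw [ha x (Fin.ofNat (K + 1) l, Fin.castLE hN i) (by simp)]
    show s (Fin.ofNat (K + 1) l : ℕ) * spin x (Fin.castLE hN i) = _
    rw [rr_val (K := K) hl]
    rfl
  pos := hs

theorem SN_fld (hd : d ≤ K) (hN : N ≤ n) (h0 : 0 < N) (hm : Exponents K m)
    (hs : ∀ l ≤ K, 0 ≤ s l) :
    Fld (SN n K d m β N s) (fun e _ x => st β N s x e) (ph hN) (zc hN) s := by
  refine r_fld hd hN h0 hm hs (lc n) fun x p hp => ?_
  show dsk N (β / √N) x (Sum.inr (Sum.inl p)) + fd N s x (Sum.inr (Sum.inl p)) = _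
  rw [dsk_b, fd_b, if_pos hp, zero_add]

theorem ST_fld (hd : d ≤ K) (hN : N ≤ n) (h0 : 0 < N) (hm : Exponents K m)
    (hs : ∀ l ≤ K, 0 ≤ s l) :
    Fld (ST n K d m β N s R θ) (fun e _ x => tc β N s R θ x e) (ph hN) (zc hN) s := by
  refine r_fld hd hN h0 hm hs (lc n) fun x p hp => ?_
  show (dsk N _ x (Sum.inr (Sum.inl p)) + fd N s x (Sum.inr (Sum.inl p))) +
    (Real.sin θ * tre N β R x (Sum.inr (Sum.inl p)) +
      Real.cos θ * cav N _ x (Sum.inr (Sum.inl p))) = _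
  rw [dsk_b, fd_b, if_pos hp, tre_b, cav_b, zero_add, mul_zero, mul_zero, add_zero, add_zero]

theorem SN_pt (hN : N ≤ n) {j : ℕ} (hj : j ≤ K) (t : ℝ) :
    (SN n K d m β N s).pt (gx hN j) t = SN n K d m β N (Function.update s j (s j + t)) := by
  unfold SN ls Sy.pt Sy.wH
  congr 1
  funext z x
  show lin (st β N s x) z + lc n + t * gx hN j z x = lin (st β N _ x) z + lc n
  unfold st
  simp only [Pi.add_apply, rr_lin]
  rw [rr_update hN hj]
  ring

theorem ST_pt (hN : N ≤ n) {j : ℕ} (hj : j ≤ K) (t : ℝ) :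
    (ST n K d m β N s R θ).pt (gx hN j) t =
      ST n K d m β N (Function.update s j (s j + t)) R θ := by
  unfold ST ls Sy.pt Sy.wH
  congr 1
  funext z x
  show lin (tc β N s R θ x) z + lc n + t * gx hN j z x = lin (tc β N _ R θ x) z + lc n
  unfold tc
  rw [lin_ith, lin_ith]
  unfold sc
  simp only [Pi.add_apply, rr_lin]
  rw [rr_update hN hj]
  ring

/-! ### The variances -/

theorem sum_zero_le (hd : 1 ≤ d) (a : RI n K → ℝ) :
    ∑ e, (if rlv d e = 0 then a e ^ 2 else 0) ≤ ∑ e, (if rlev e = 0 then a e ^ 2 else 0) := by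
  refine Finset.sum_le_sum fun e _ => ?_
  by_cases h : rlv d e = 0
  · rw [if_pos h, if_pos (rlv_zero hd e h)]
  · rw [if_neg h]
    split_ifs
    · positivity
    · exact le_rfl

theorem SN_sum (hN : N ≤ n) (h0 : 0 < N) (hs : |s 0| ≤ 2) (x : Fin n → Bool) :
    ∑ e : RI n K, (if rlev e = 0 then st β N s x e ^ 2 else 0) ≤ (2 * β ^ 2 + 4) * N := by
  have hN0 : (0 : ℝ) < N := by exact_mod_cast h0
  show ∑ e : RI n K, (if rlev e = 0 then (dsk N (β / √N) x e + fd N s x e) ^ 2 else 0) ≤ _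
  rw [rr_sc hN, div_pow, Real.sq_sqrt hN0.le]
  have h1 : β ^ 2 / N * ((N : ℝ) ^ 2 - N) / 2 = β ^ 2 * (N - 1) / 2 := by
    field_simp
  have h2 : s 0 ^ 2 ≤ 4 := by
    have := sq_le_sq' (by linarith [abs_nonneg (s 0)]) hs
    rw [sq_abs] at this
    linarith
  rw [h1]
  have h3 : s 0 ^ 2 * N ≤ 4 * N := mul_le_mul_of_nonneg_right h2 hN0.le
  have h4 : 0 ≤ β ^ 2 * (N : ℝ) := by positivity
  have h5 : 0 ≤ β ^ 2 := sq_nonneg β
  nlinarith only [h3, h4, h5]

theorem ST_sum (hN : N + 1 ≤ n) (h0 : 0 < N) (hs : |s 0| ≤ 2)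
    (hR : Path K R) (hR1 : R K ≤ 1) (x : Fin n → Bool) :
    ∑ e : RI n K, (if rlev e = 0 then tc β N s R θ x e ^ 2 else 0) ≤ (2 * β ^ 2 + 4) * N := by
  have hN0 : (0 : ℝ) < N := by exact_mod_cast h0
  have hN1 : (1 : ℝ) ≤ N := by exact_mod_cast h0
  have hlt : N < n := hN
  have hP : (0 : ℝ) < ((N + 1 : ℕ) : ℝ) := by positivity
  have hR0 : 0 ≤ R 0 := hR.1
  have hmono : ∀ l ≤ K, R 0 ≤ R l := by
    intro l hl
    induction l with
    | zero => exact le_rfl
    | succ l ih => exact (ih (by omega)).trans (hR.2 l (by omega))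
  have hR0' : R 0 ≤ 1 := (hmono K le_rfl).trans hR1
  have e1 : ∀ e : RI n K, (if rlev e = 0 then tc β N s R θ x e ^ 2 else 0) =
      (if rlev e = 0 then (dsk N (β / √((N + 1 : ℕ) : ℝ)) x e + fd N s x e) ^ 2 else 0) +
      (Real.sin θ ^ 2 * (if rlev e = 0 then tre (K := K) N β R x e ^ 2 else 0) +
      Real.cos θ ^ 2 * (if rlev e = 0 then
        cav (K := K) N (β / √((N + 1 : ℕ) : ℝ)) x e ^ 2 else 0)) := by
    intro e
    split_ifs
    · have d1 := dj_tre_cav (R := R) (N := N) β (β / √((N + 1 : ℕ) : ℝ)) e x x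
      have d2 := dj_tre_sc (R := R) (N := N) (s := s) (β := β) β e x x
      have d3 := dj_cav_sc (N := N) (s := s) (β := β) (β / √((N + 1 : ℕ) : ℝ)) e x x
      show ((sc β N s) x e + (Real.sin θ * tre N β R x e +
        Real.cos θ * cav N (β / √((N + 1 : ℕ) : ℝ)) x e)) ^ 2 = (sc β N s) x e ^ 2 + _
      linear_combination (2 * Real.sin θ) * d2 + (2 * Real.cos θ) * d3 +
        (2 * Real.sin θ * Real.cos θ) * d1
    · ring
  simp only [e1]
  rw [Finset.sum_add_distrib, Finset.sum_add_distrib, ← Finset.mul_sum, ← Finset.mul_sum,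
    rr_sc hlt.le, rr_tre hlt β hR, rr_cav hlt, div_pow, Real.sq_sqrt hP.le]
  · have h1 : β ^ 2 / ((N + 1 : ℕ) : ℝ) * ((N : ℝ) ^ 2 - N) / 2 ≤ β ^ 2 * N / 2 := by
      rw [div_mul_eq_mul_div, div_div, div_le_div_iff₀ (by positivity) (by norm_num)]
      push_cast
      have : 0 ≤ β ^ 2 := sq_nonneg β
      have h6 : 0 ≤ β ^ 2 * (N : ℝ) := by positivity
      nlinarith only [this, h6]
    have h2 : s 0 ^ 2 ≤ 4 := by
      have := sq_le_sq' (by linarith [abs_nonneg (s 0)]) hs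
      rw [sq_abs] at this
      linarith
    have h3 : s 0 ^ 2 * N ≤ 4 * N := mul_le_mul_of_nonneg_right h2 hN0.le
    have h4 : β ^ 2 / ((N + 1 : ℕ) : ℝ) * N ≤ β ^ 2 := by
      rw [div_mul_eq_mul_div, div_le_iff₀ hP]
      push_cast
      have : 0 ≤ β ^ 2 := sq_nonneg β
      nlinarith only [this]
    have h5 : β ^ 2 * R 0 ≤ β ^ 2 := by
      have : 0 ≤ β ^ 2 := sq_nonneg β
      nlinarith only [this, hR0']
    have h6 : Real.sin θ ^ 2 * (β ^ 2 * R 0) + Real.cos θ ^ 2 *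
        (β ^ 2 / ((N + 1 : ℕ) : ℝ) * N) ≤ β ^ 2 := by
      have g1 := mul_le_mul_of_nonneg_left h5 (sq_nonneg (Real.sin θ))
      have g2 := mul_le_mul_of_nonneg_left h4 (sq_nonneg (Real.cos θ))
      have g3 := Real.sin_sq_add_cos_sq θ
      calc _ ≤ Real.sin θ ^ 2 * β ^ 2 + Real.cos θ ^ 2 * β ^ 2 := add_le_add g1 g2
        _ = (Real.sin θ ^ 2 + Real.cos θ ^ 2) * β ^ 2 := by ring
        _ = β ^ 2 := by rw [g3, one_mul]
    have h7 : β ^ 2 ≤ β ^ 2 * N := by
      have : 0 ≤ β ^ 2 := sq_nonneg β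
      nlinarith only [this, hN1]
    have h8 : 0 ≤ β ^ 2 := sq_nonneg β
    linarith

/-- The variances. -/
theorem SN_var (hd1 : 1 ≤ d) (hd : d ≤ K) (hN : N ≤ n) (h0 : 0 < N) (hm : Exponents K m)
    (hs : |s 0| ≤ 2) :
    ∫ z, ((SN n K d m β N s).lg 0 z - (SN n K d m β N s).fe) ^ 2 ∂(gI (RI n K)) ≤
      2 * ((2 * β ^ 2 + 4) * N) := by
  refine ls_var hm (rlv_le hd) (lc n) fun x => ?_
  exact (sum_zero_le hd1 _).trans (SN_sum hN h0 hs x)

theorem ST_var (hd1 : 1 ≤ d) (hd : d ≤ K) (hN : N + 1 ≤ n) (h0 : 0 < N) (hm : Exponents K m)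
    (hs : |s 0| ≤ 2) (hR : Path K R) (hR1 : R K ≤ 1) :
    ∫ z, ((ST n K d m β N s R θ).lg 0 z - (ST n K d m β N s R θ).fe) ^ 2 ∂(gI (RI n K)) ≤
      2 * ((2 * β ^ 2 + 4) * N) := by
  refine ls_var hm (rlv_le hd) (lc n) fun x => ?_
  exact (sum_zero_le hd1 _).trans (ST_sum hN h0 hs hR hR1 x)

end Vale.Agent.P146.Ub.Ld
end

section

/-!
(L2): dropping the field of the new spin, the factorization of the tree field, and the free energy
without fields (an exponential moment).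
-/

open MeasureTheory ProbabilityTheory Filter Topology

namespace Vale.Agent.P146.Ub.Ld

set_option linter.unusedSectionVars false

open Vale.Agent.P157 Vale.Agent.P157.Lv Vale.Agent.P157.Lv.Sy
open Vale.Agent.P157.Par (Path Exponents incr spinPart)
open Vale.Agent.P146 (Pair freeEnergy disorder)

variable {n K N d : ℕ} {m s R : ℕ → ℝ} {β : ℝ}

/-- (G1) The field of the new spin can be dropped (`ls_le_add`). -/
theorem AN_succ_ge (hd : d ≤ K) (hN : N + 1 ≤ n) (hm : Exponents K m) (β : ℝ) (s : ℕ → ℝ) :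
    (ls (rlv d) K m (lc n) (sc β N s + cav N (β / √((N + 1 : ℕ) : ℝ))) :
      Sy (RI n K) (Fin n → Bool)).fe ≤ AN n K d m β (N + 1) s := by
  unfold AN SN
  rw [st_succ hN]
  refine ls_le_add hm (rlv_le hd) (lc n) ?_
  intro e x x'
  rcases e with p | p | l
  · simp only [nfd_a, zero_mul]
  · simp only [nfd_b, sc, dsk_b, fd_b, cav_b, Pi.add_apply]
    by_cases h : (p.2 : ℕ) = N
    · rw [if_pos h, if_neg (by omega)]
      ring
    · rw [if_neg h, zero_mul]
  · simp only [nfd_c, zero_mul]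

/-- (G2) The tree field. -/
theorem fe_tre (hd : d ≤ K) (hN : N < n) (hm : Exponents K m) (hβ : 0 ≤ β) (hR : Path K R)
    (s : ℕ → ℝ) :
    (ls (rlv d) K m (lc n) (sc β N s + tre N β R) : Sy (RI n K) (Fin n → Bool)).fe =
      (SC n K d m β N s).fe + (spinPart K m (fun l => β ^ 2 * R l) + β ^ 2 * R K / 2) := by
  have hS := ls_regD (X := Fin n → Bool) hm (rlv_le (n := n) hd) (lc n) (sc β N s)
  have hR' : Path K (fun l => β ^ 2 * R l) :=
    ⟨mul_nonneg (sq_nonneg β) hR.1, fun l hl => mul_le_mul_of_nonneg_left (hR.2 l hl) (sq_nonneg β)⟩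
  have hy : ∀ l ≤ K, (rlv d (yt n K l) : ℕ) = l := by
    intro l hl
    show ((Fin.ofNat (K + 1) l : Fin (K + 1)) : ℕ) = l
    exact Nat.mod_eq_of_lt (by omega)
  have hD : ∀ l ≤ K, ∀ (z : RI n K → ℝ) (x : Fin n → Bool), sc β N s x (yt n K l) = 0 := by
    intro l _ z x
    simp only [yt, sc, dsk_b, fd_c, Pi.add_apply, add_zero]
  have hH : ∀ z x, (ls (rlv d) K m (lc n) (sc β N s) : Sy (RI n K) (Fin n → Bool)).H z
      (rflip hN x) = (ls (rlv d) K m (lc n) (sc β N s) : Sy (RI n K) (Fin n → Bool)).H z x := by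
    intro z x
    show lin (sc β N s (rflip hN x)) z + lc n = lin (sc β N s x) z + lc n
    rw [sc_flip]
  have key := fe_spin_tree hS (rflip hN) (sp N) (sp_pm hN) (sp_flip hN) hH (y := yt n K) hy hD hR'
  have e : (ls (rlv d) K m (lc n) (sc β N s + tre N β R) : Sy (RI n K) (Fin n → Bool)) =
      (ls (rlv d) K m (lc n) (sc β N s) : Sy (RI n K) (Fin n → Bool)).wH (fun z x =>
        (ls (rlv d) K m (lc n) (sc β N s) : Sy (RI n K) (Fin n → Bool)).H z x +
          sp N x * tf (yt n K) K (fun l => β ^ 2 * R l) z) := by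
    have e1 : (fun (z : RI n K → ℝ) (x : Fin n → Bool) =>
        lin ((sc β N s + tre N β R : (Fin n → Bool) → RI n K → ℝ) x) z + lc n) =
        fun z x => lin (sc β N s x) z + lc n +
          sp N x * tf (yt n K) K (fun l => β ^ 2 * R l) z := by
      funext z x
      rw [Pi.add_apply, rf_lin_add, rf_lin_tre hβ]
      ring
    show (⟨rlv d, K, m, fun (z : RI n K → ℝ) (x : Fin n → Bool) =>
      lin ((sc β N s + tre N β R : (Fin n → Bool) → RI n K → ℝ) x) z + lc n⟩ :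
        Sy (RI n K) (Fin n → Bool)) = _
    rw [e1]
    rfl
  rw [e]
  exact key

/-- (K) Without fields: the exponential moment of the free energy. -/
theorem AN_zero (hd1 : 1 ≤ d) (hd : d ≤ K) (hn : 0 < n) (hm : Exponents K m) (β : ℝ) :
    AN n K d m β n (fun _ => 0) =
      1 / m d * Real.log (∫ g, Real.exp (m d * freeEnergy n β g) ∂(disorder n)) -
        n * Real.log 2 := by
  obtain ⟨e, rfl⟩ : ∃ e, d = e + 1 := ⟨d - 1, by omega⟩
  have hS := ls_regD (X := Fin n → Bool) hm (rlv_le (n := n) hd) (lc n)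
    (st β n (fun _ => 0))
  have hst : ∀ (x : Fin n → Bool) (z : RI n K → ℝ), lin (st β n (fun _ => 0) x) z =
      ∑ p : Pair n, β / √n * (spin x p.1.1 * spin x p.1.2) * z (Sum.inl p) := by
    intro x z
    rw [rf_lin]
    have e1 : ∑ p : Fin (K + 1) × Fin n, st β n (fun _ => 0) x (Sum.inr (Sum.inl p)) *
        z (Sum.inr (Sum.inl p)) = 0 :=
      Finset.sum_eq_zero fun p _ => by
        simp only [st, dsk_b, fd_b, Pi.add_apply, zero_mul, ite_self, add_zero]
    have e2 : ∑ l : Fin (K + 1), st β n (fun _ => 0) x (Sum.inr (Sum.inr l)) *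
        z (Sum.inr (Sum.inr l)) = 0 :=
      Finset.sum_eq_zero fun p _ => by
        simp only [st, dsk_b, fd_c, Pi.add_apply, zero_mul, add_zero]
    rw [e1, e2, add_zero, add_zero]
    refine Finset.sum_congr rfl fun p _ => ?_
    simp only [st, dsk_a, fd_a, Pi.add_apply, add_zero]
    rw [if_pos p.1.2.2]
  have htop : ∀ z : RI n K → ℝ, (SN n K (e + 1) m β n (fun _ => 0)).top z =
      freeEnergy n β (fun p => z (Sum.inl p)) - n * Real.log 2 := by
    intro z
    show Real.log (∑ x : Fin n → Bool, Real.exp (lin (st β n (fun _ => 0) x) z + lc n)) = _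
    have e1 : ∀ x : Fin n → Bool, Real.exp (lin (st β n (fun _ => 0) x) z + lc n) =
        Real.exp (lin (st β n (fun _ => 0) x) z) * Real.exp (lc n) := fun x => Real.exp_add _ _
    simp only [e1]
    rw [← Finset.sum_mul, Real.log_mul (Finset.sum_pos (fun x _ => Real.exp_pos _)
      Finset.univ_nonempty).ne' (Real.exp_pos _).ne', Real.log_exp]
    have e2 : ∑ x : Fin n → Bool, Real.exp (lin (st β n (fun _ => 0) x) z) =
        partitionFn n β (fun p => z (Sum.inl p)) := by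
      unfold partitionFn
      rw [← Equiv.sum_comp (Equiv.arrowCongr (Equiv.refl (Fin n)) bu)]
      refine Finset.sum_congr rfl fun x _ => ?_
      congr 1
      rw [hst]
      unfold hamiltonian
      rw [← mul_assoc, Finset.mul_sum]
      refine Finset.sum_congr rfl fun p _ => ?_
      have e3 : ∀ i : Fin n, (((Equiv.arrowCongr (Equiv.refl (Fin n)) bu x i : ℤˣ) : ℤ) : ℝ) =
          spin x i := by
        intro i
        have e4 : Equiv.arrowCongr (Equiv.refl (Fin n)) bu x i = bu (x i) := rfl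
        rw [e4, bu_cast]
        rfl
      rw [e3, e3]
      ring
    rw [e2]
    unfold freeEnergy lc
    ring
  have hdep : ∀ x : Fin n → Bool, Dep (SN n K (e + 1) m β n (fun _ => 0)).lev (e + 1)
      fun z => (SN n K (e + 1) m β n (fun _ => 0)).H z x := by
    intro x z w
    show lin (st β n (fun _ => 0) x) (mix (rlv (e + 1)) (e + 1) z w) + lc n =
      lin (st β n (fun _ => 0) x) z + lc n
    rw [hst, hst]
    congr 1
    refine Finset.sum_congr rfl fun p _ => ?_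
    congr 1
    exact if_pos (le_refl (e + 1))
  have hdep' : ∀ z w x, (SN n K (e + 1) m β n (fun _ => 0)).H
      (mix (SN n K (e + 1) m β n (fun _ => 0)).lev e z w) x =
      (SN n K (e + 1) m β n (fun _ => 0)).H w x := by
    intro z w x
    show lin (st β n (fun _ => 0) x) (mix (rlv (e + 1)) e z w) + lc n =
      lin (st β n (fun _ => 0) x) w + lc n
    rw [hst, hst]
    congr 1
    refine Finset.sum_congr rfl fun p _ => ?_
    congr 1
    exact if_neg (show ¬ (e + 1 ≤ e) by omega)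
  have h1 : AN n K (e + 1) m β n (fun _ => 0) = 1 / m (e + 1) * Real.log
      (∫ z, Real.exp (m (e + 1) * (SN n K (e + 1) m β n (fun _ => 0)).top z) ∂(gI (RI n K))) :=
    fe_level hS.toReg hd hdep hdep'
  have hm0 : 0 < m (e + 1) := hS.toReg.m_pos (by omega) (by show e + 1 ≤ K + 1; omega)
  have hEG : EG fun z : RI n K → ℝ =>
      Real.exp (m (e + 1) * (SN n K (e + 1) m β n (fun _ => 0)).top z) :=
    hS.toReg.lip_top.exp_eg _
  have hpos : 0 < ∫ z : RI n K → ℝ,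
      Real.exp (m (e + 1) * (SN n K (e + 1) m β n (fun _ => 0)).top z) ∂(gI (RI n K)) := by
    rw [integral_pos_iff_support_of_nonneg (fun w => (Real.exp_pos _).le) hEG.integrable]
    have h3 : (Function.support fun z : RI n K → ℝ =>
        Real.exp (m (e + 1) * (SN n K (e + 1) m β n (fun _ => 0)).top z)) = Set.univ :=
      Set.eq_univ_of_forall fun w => (Real.exp_pos _).ne'
    rw [h3, measure_univ]
    exact one_pos
  rw [h1]
  simp only [htop] at hpos ⊢
  have hL := (freeEnergy_dom n β)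
  have h2 : ∫ z : RI n K → ℝ, Real.exp (m (e + 1) * (freeEnergy n β (fun p => z (Sum.inl p)) -
      n * Real.log 2)) ∂(gI (RI n K)) = Real.exp (-(m (e + 1) * (n * Real.log 2))) *
      ∫ g, Real.exp (m (e + 1) * freeEnergy n β g) ∂(disorder n) := by
    have h3 : ∀ z : RI n K → ℝ, Real.exp (m (e + 1) * (freeEnergy n β (fun p => z (Sum.inl p)) -
      n * Real.log 2)) = Real.exp (-(m (e + 1) * (n * Real.log 2))) *
        Real.exp (m (e + 1) * freeEnergy n β (fun p => z (Sum.inl p))) := by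
      intro z
      rw [← Real.exp_add]
      congr 1
      ring
    simp only [h3]
    rw [integral_const_mul]
    congr 1
    exact rf_marginal (fun g => Real.exp (m (e + 1) * freeEnergy n β g))
      (Real.continuous_exp.comp (hL.cont.const_mul _)).aestronglyMeasurable
  rw [h2] at hpos ⊢
  have hpos' : 0 < ∫ g, Real.exp (m (e + 1) * freeEnergy n β g) ∂(disorder n) :=
    pos_of_mul_pos_right hpos (Real.exp_pos _).le
  rw [Real.log_mul (Real.exp_pos _).ne' hpos'.ne', Real.log_exp]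
  field_simp
  ring

end Vale.Agent.P146.Ub.Ld
end

section

/-!
(L2), module STEP, first half: the change of the temperature and the concentration of the fields,
with the disorder at the level `d`.
-/

open MeasureTheory ProbabilityTheory Filter Topology

namespace Vale.Agent.P146.Ub.Ld

set_option linter.unusedSectionVars false

open Vale.Agent.P157 Vale.Agent.P157.Lv Vale.Agent.P157.Lv.Sy
open Vale.Agent.P157.Par (Path Exponents incr spinPart)
open Vale.Agent.P146 (Pair)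
open Vale.Agent.P146.Sk (PSK)

variable {n K N d : ℕ} {m s R : ℕ → ℝ} {β θ : ℝ}

theorem rs_reg (hd : d ≤ K) (hm : Exponents K m) (c : ℝ) (a : (Fin n → Bool) → RI n K → ℝ) :
    (ls (rlv d) K m c a).Reg := (ls_regD hm (rlv_le hd) c a).toReg

theorem rs_sum_ge (hd : d ≤ K) (hm : Exponents K m) :
    ∑ l ∈ Finset.range (K + 1), (m (l + 1) - m l) * (if d ≤ l then (1 : ℝ) else 0) = 1 - m d := by
  have h1 : ∀ l ∈ Finset.range (K + 1), (m (l + 1) - m l) * (if d ≤ l then (1 : ℝ) else 0) =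
      if d ≤ l then m (l + 1) - m l else 0 := fun l _ => by
    split_ifs
    · rw [mul_one]
    · rw [mul_zero]
  rw [Finset.sum_congr rfl h1, ← Finset.sum_filter]
  have h2 : (Finset.range (K + 1)).filter (fun l => d ≤ l) = Finset.Ico d (K + 1) := by
    ext l
    simp only [Finset.mem_filter, Finset.mem_range, Finset.mem_Ico]
    omega
  rw [h2, Finset.sum_Ico_sub m (by omega), hm.2.1]

theorem rs_m_nonneg (hd : d ≤ K + 1) (hm : Exponents K m) : 0 ≤ m d := by
  induction d with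
  | zero => exact hm.1.ge
  | succ d ih => exact (ih (by omega)).trans (hm.2.2 d (by omega)).le

/-- `1 - ∑_{l ≥ d} p_l E_l R² ∈ [m_d, 1]`. -/
theorem rs_q_mem (hd : d ≤ K) (hN : N ≤ n) (h0 : 0 < N) (hm : Exponents K m) (c : ℝ)
    (a : (Fin n → Bool) → RI n K → ℝ) :
    m d ≤ 1 - ∑ l ∈ Finset.range (K + 1), (m (l + 1) - m l) *
        (if d ≤ l then (ls (rlv d) K m c a).pairEx l (fun x x' => Rov (ph hN) x x' ^ 2) else 0) ∧
      1 - ∑ l ∈ Finset.range (K + 1), (m (l + 1) - m l) *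
        (if d ≤ l then (ls (rlv d) K m c a).pairEx l (fun x x' => Rov (ph hN) x x' ^ 2) else 0)
          ≤ 1 := by
  have hR := rs_reg hd hm c a
  have h1 : ∀ l ∈ Finset.range (K + 1),
      0 ≤ (if d ≤ l then (ls (rlv d) K m c a).pairEx l (fun x x' => Rov (ph hN) x x' ^ 2)
        else 0) ∧
      (if d ≤ l then (ls (rlv d) K m c a).pairEx l (fun x x' => Rov (ph hN) x x' ^ 2)
        else 0) ≤ if d ≤ l then (1 : ℝ) else 0 := by
    intro l hl
    have hl' : l ≤ (ls (rlv d) K m c a).K := by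
      have := Finset.mem_range.1 hl
      show l ≤ K
      omega
    split_ifs
    · refine ⟨hR.pairEx_nonneg hl' fun x x' => sq_nonneg _, ?_⟩
      rw [← hR.pairEx_const hl' 1]
      refine hR.pairEx_mono hl' fun x x' => ?_
      have := rs_abs_Rov hN h0 x x'
      rw [← sq_abs]
      exact pow_le_one₀ (abs_nonneg _) this
    · exact ⟨le_rfl, le_rfl⟩
  have h2 : 0 ≤ ∑ l ∈ Finset.range (K + 1), (m (l + 1) - m l) *
        (if d ≤ l then (ls (rlv d) K m c a).pairEx l (fun x x' => Rov (ph hN) x x' ^ 2)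
          else 0) :=
    Finset.sum_nonneg fun l hl => mul_nonneg (rs_p_nonneg hm hl) (h1 l hl).1
  have h3 : ∑ l ∈ Finset.range (K + 1), (m (l + 1) - m l) *
        (if d ≤ l then (ls (rlv d) K m c a).pairEx l (fun x x' => Rov (ph hN) x x' ^ 2)
          else 0) ≤ 1 - m d := by
    rw [← rs_sum_ge hd hm]
    exact Finset.sum_le_sum fun l hl => mul_le_mul_of_nonneg_left (h1 l hl).2
      (rs_p_nonneg hm hl)
  constructor <;> linarith

/-- The mean of the disorder part. -/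
theorem rs_Ex_dsk (hd : d ≤ K) (hN : N ≤ n) (hm : Exponents K m) (c γ γ' : ℝ) (s : ℕ → ℝ) :
    (ls (rlv d) K m c (dsk N γ + fd N s) : Sy (RI n K) (Fin n → Bool)).Ex
      (fun z x => lin (dsk N γ' x) z) =
      γ' * γ * (N : ℝ) ^ 2 / 2 * (1 - ∑ l ∈ Finset.range (K + 1), (m (l + 1) - m l) *
        (if d ≤ l then
          (ls (rlv d) K m c (dsk N γ + fd N s) : Sy (RI n K) (Fin n → Bool)).pairEx l
            (fun x x' => Rov (ph hN) x x' ^ 2) else 0)) - γ' * γ * N / 2 * m d := by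
  have hR := rs_reg (n := n) hd hm c (dsk N γ + fd N s)
  rw [ls_Ex_lin hm (rlv_le hd)]
  have e1 : (fun (_ : RI n K → ℝ) (x : Fin n → Bool) =>
      ∑ e, dsk N γ' x e * (dsk N γ + fd N s : (Fin n → Bool) → RI n K → ℝ) x e) =
      fun _ _ => γ' * γ * ((N : ℝ) ^ 2 - N) / 2 := by
    funext _ x
    have : ∀ e, dsk N γ' x e * (dsk N γ + fd N s : (Fin n → Bool) → RI n K → ℝ) x e =
        dsk N γ' x e * dsk N γ x e := by
      intro e
      show dsk N γ' x e * (dsk N γ x e + fd N s x e) = _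
      rw [mul_add, dj_dsk_fd, add_zero]
    rw [Finset.sum_congr rfl fun e _ => this e, sum_dsk hN]
  rw [e1, hR.Ex_const]
  have e2 : ∀ l ∈ Finset.range (K + 1), (m (l + 1) - m l) *
      (ls (rlv d) K m c (dsk N γ + fd N s) : Sy (RI n K) (Fin n → Bool)).pairEx l
        (cv (rlv d) l (dsk (K := K) N γ') (dsk N γ + fd N s)) =
      (m (l + 1) - m l) * (γ' * γ * (N : ℝ) ^ 2 / 2) *
        (if d ≤ l then (ls (rlv d) K m c (dsk N γ + fd N s) :
          Sy (RI n K) (Fin n → Bool)).pairEx l (fun x x' => Rov (ph hN) x x' ^ 2) else 0) -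
        (m (l + 1) - m l) * (if d ≤ l then (1 : ℝ) else 0) * (γ' * γ * N / 2) := by
    intro l hl
    have hl' : l ≤ (ls (rlv d) K m c (dsk N γ + fd N s) : Sy (RI n K) (Fin n → Bool)).K := by
      have := Finset.mem_range.1 hl
      show l ≤ K
      omega
    have e4 : ∀ x x' : Fin n → Bool, cv (rlv d) l (dsk (K := K) N γ') (dsk N γ + fd N s) x x' =
        cv (rlv d) l (dsk (K := K) N γ') (dsk N γ) x x' := by
      intro x x'
      unfold cv
      refine Finset.sum_congr rfl fun e _ => ?_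
      show (if rlv d e ≤ l then dsk N γ' x e * (dsk N γ x' e + fd N s x' e) else 0) = _
      rw [mul_add, dj_dsk_fd, add_zero]
    by_cases h : d ≤ l
    · rw [if_pos h, if_pos h]
      have e3 : (cv (rlv d) l (dsk (K := K) N γ') (dsk N γ + fd N s) :
          (Fin n → Bool) → (Fin n → Bool) → ℝ) =
          fun x x' => (γ' * γ * (N : ℝ) ^ 2 / 2) * Rov (ph hN) x x' ^ 2 +
            (-(γ' * γ * N / 2)) := by
        funext x x'
        rw [e4, cv_dsk_ge hN h]
        ring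
      rw [e3, hR.pairEx_add hl' (fun x x' => (γ' * γ * (N : ℝ) ^ 2 / 2) * Rov (ph hN) x x' ^ 2)
        (fun _ _ => (-(γ' * γ * N / 2))), hR.pairEx_const_mul, hR.pairEx_const hl']
      ring
    · rw [if_neg h, if_neg h]
      have e3 : (cv (rlv d) l (dsk (K := K) N γ') (dsk N γ + fd N s) :
          (Fin n → Bool) → (Fin n → Bool) → ℝ) = fun _ _ => 0 := by
        funext x x'
        rw [e4, cv_dsk_lt (not_le.1 h)]
      rw [e3, hR.pairEx_const hl']
      ring
  rw [Finset.sum_congr rfl e2, Finset.sum_sub_distrib, ← Finset.sum_mul, rs_sum_ge hd hm]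
  have e4 : ∑ l ∈ Finset.range (K + 1), (m (l + 1) - m l) * (γ' * γ * (N : ℝ) ^ 2 / 2) *
        (if d ≤ l then (ls (rlv d) K m c (dsk N γ + fd N s) :
          Sy (RI n K) (Fin n → Bool)).pairEx l (fun x x' => Rov (ph hN) x x' ^ 2) else 0) =
      γ' * γ * (N : ℝ) ^ 2 / 2 * ∑ l ∈ Finset.range (K + 1), (m (l + 1) - m l) *
        (if d ≤ l then (ls (rlv d) K m c (dsk N γ + fd N s) :
          Sy (RI n K) (Fin n → Bool)).pairEx l (fun x x' => Rov (ph hN) x x' ^ 2) else 0) := by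
    rw [Finset.mul_sum]
    exact Finset.sum_congr rfl fun l _ => by ring
  rw [e4]
  ring

/-- (T1) -/
theorem SC_le (hd : d ≤ K) (hN : N ≤ n) (h0 : 0 < N) (hm : Exponents K m) (s : ℕ → ℝ) :
    (SC n K d m β N s).fe ≤ AN n K d m β N s := by
  obtain ⟨γ, hγ⟩ : ∃ γ, γ = β / √((N + 1 : ℕ) : ℝ) := ⟨_, rfl⟩
  obtain ⟨γ', hγ'⟩ : ∃ γ', γ' = β / √N - β / √((N + 1 : ℕ) : ℝ) := ⟨_, rfl⟩
  have e1 : (st β N s : (Fin n → Bool) → RI n K → ℝ) = sc β N s + dsk N γ' := by
    unfold st sc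
    rw [add_right_comm, rs_dsk_add]
    congr 2
    rw [hγ']
    ring
  have h1 := ls_jensen (X := Fin n → Bool) hm (rlv_le hd) (lc n) (sc (n := n) (K := K) β N s)
    (dsk N γ')
  rw [← e1] at h1
  have h2 := rs_Ex_dsk (n := n) hd hN hm (lc n) γ γ' s
  have e2 : (dsk N γ + fd N s : (Fin n → Bool) → RI n K → ℝ) = sc β N s := by
    unfold sc; rw [hγ]
  rw [e2] at h2
  rw [h2] at h1
  have h3 := (rs_q_mem (K := K) hd hN h0 hm (lc n) (sc (n := n) (K := K) β N s)).1
  have h4 := (rs_sqrt_diff (β := β) h0).2.2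
  rw [← hγ', ← hγ] at h4
  have hmd := rs_m_nonneg (show d ≤ K + 1 by omega) hm
  have hN1 : (1 : ℝ) ≤ N := by exact_mod_cast h0
  have h5 : 0 ≤ γ' * γ * (N : ℝ) ^ 2 / 2 := by
    have : γ' * γ * (N : ℝ) ^ 2 / 2 = γ * γ' * ((N : ℝ) ^ 2 / 2) := by ring
    rw [this]
    exact mul_nonneg h4 (by positivity)
  have h6 := mul_le_mul_of_nonneg_left h3 h5
  have h7 : γ' * γ * N / 2 * m d ≤ γ' * γ * (N : ℝ) ^ 2 / 2 * m d := by
    refine mul_le_mul_of_nonneg_right ?_ hmd
    have e3 : γ' * γ * (N : ℝ) ^ 2 / 2 - γ' * γ * N / 2 = γ * γ' * (N * (N - 1) / 2) := by ring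
    have e4 : 0 ≤ γ * γ' * (N * (N - 1) / 2) :=
      mul_nonneg h4 (div_nonneg (mul_nonneg (by linarith) (by linarith)) (by norm_num))
    linarith
  unfold SC AN SN
  linarith

/-- (T2) -/
theorem SC_ge (hd : d ≤ K) (hN : N ≤ n) (h0 : 0 < N) (hm : Exponents K m) (s : ℕ → ℝ) :
    AN n K d m β N s ≤ (SC n K d m β N s).fe + β ^ 2 / 4 * (1 -
      ∑ l ∈ Finset.range (K + 1), (m (l + 1) - m l) *
        (if d ≤ l then (SN n K d m β N s).pairEx l (fun x x' => Rov (ph hN) x x' ^ 2)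
          else 0)) := by
  obtain ⟨γ, hγ⟩ : ∃ γ, γ = β / √(N : ℝ) := ⟨_, rfl⟩
  obtain ⟨γ', hγ'⟩ : ∃ γ', γ' = β / √N - β / √((N + 1 : ℕ) : ℝ) := ⟨_, rfl⟩
  have e1 : (sc β N s : (Fin n → Bool) → RI n K → ℝ) = st β N s + dsk N (-γ') := by
    unfold st sc
    rw [add_right_comm, rs_dsk_add]
    congr 2
    rw [hγ']
    ring
  have h1 := ls_jensen (X := Fin n → Bool) hm (rlv_le hd) (lc n) (st (n := n) (K := K) β N s)
    (dsk N (-γ'))
  rw [← e1] at h1
  have h2 := rs_Ex_dsk (n := n) hd hN hm (lc n) γ (-γ') s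
  have e2 : (dsk N γ + fd N s : (Fin n → Bool) → RI n K → ℝ) = st β N s := by
    unfold st; rw [hγ]
  rw [e2] at h2
  rw [h2] at h1
  have hmd := rs_m_nonneg (show d ≤ K + 1 by omega) hm
  have h3 := (rs_q_mem (K := K) hd hN h0 hm (lc n) (st (n := n) (K := K) β N s)).1
  have h3' := hmd.trans h3
  have h4 := (rs_sqrt_diff (β := β) h0)
  rw [← hγ', ← hγ] at h4
  have h6 := mul_le_mul_of_nonneg_right h4.1 h3'
  have h8 : 0 ≤ γ * γ' * N / 2 * m d := by
    have := mul_nonneg (mul_nonneg h4.2.1 (Nat.cast_nonneg (α := ℝ) N)) hmd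
    linarith
  unfold SC AN SN
  have h7 : -γ' * γ * (N : ℝ) ^ 2 / 2 = -(γ * γ' * (N : ℝ) ^ 2 / 2) := by ring
  have h9 : -γ' * γ * N / 2 * m d = -(γ * γ' * N / 2 * m d) := by ring
  rw [h7, neg_mul, h9] at h1
  linarith

/-- (D) -/
theorem ST_cmp (hd : d ≤ K) (hN : N + 1 ≤ n) (h0 : 0 < N) (hm : Exponents K m)
    (hR : Path K R) (hR1 : R K ≤ 1) (s : ℕ → ℝ) (θ : ℝ) :
    |(ST n K d m β N s R θ).fe - AN n K d m β N s| ≤ β ^ 2 / 2 := by
  have hN' : N ≤ n := by omega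
  have hNn : N < n := by omega
  have hb2 : 0 ≤ β ^ 2 := sq_nonneg β
  obtain ⟨b, hb⟩ : ∃ b : (Fin n → Bool) → RI n K → ℝ, b = fun x e =>
    Real.sin θ * tre N β R x e + Real.cos θ * cav N (β / √((N + 1 : ℕ) : ℝ)) x e := ⟨_, rfl⟩
  have e1 : (tc β N s R θ : (Fin n → Bool) → RI n K → ℝ) = sc β N s + b := by
    rw [hb]
    rfl
  have hdj : ∀ e x x', b x e * (sc β N s : (Fin n → Bool) → RI n K → ℝ) x' e = 0 := by
    intro e x x'
    have h1 := dj_tre_sc (N := N) (s := s) (β := β) (R := R) β e x x'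
    have h2 := dj_cav_sc (N := N) (s := s) (β := β) (β / √((N + 1 : ℕ) : ℝ)) e x x'
    rw [hb]
    show (Real.sin θ * tre N β R x e + Real.cos θ * cav N (β / √((N + 1 : ℕ) : ℝ)) x e) *
      sc β N s x' e = 0
    linear_combination Real.sin θ * h1 + Real.cos θ * h2
  have hV : ∀ x, ∑ e, b x e ^ 2 ≤ β ^ 2 := by
    intro x
    have h1 : ∀ e, b x e ^ 2 = Real.sin θ ^ 2 * tre N β R x e ^ 2 +
        Real.cos θ ^ 2 * cav N (β / √((N + 1 : ℕ) : ℝ)) x e ^ 2 := by
      intro e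
      have h2 := dj_tre_cav (N := N) (R := R) β (β / √((N + 1 : ℕ) : ℝ)) e x x
      rw [hb]
      show (Real.sin θ * tre N β R x e + Real.cos θ * cav N (β / √((N + 1 : ℕ) : ℝ)) x e) ^ 2 = _
      linear_combination 2 * Real.sin θ * Real.cos θ * h2
    rw [Finset.sum_congr rfl fun e _ => h1 e, Finset.sum_add_distrib, ← Finset.mul_sum,
      ← Finset.mul_sum, sum_tre hNn β hR, sum_cav hNn]
    have h3 : (β / √((N + 1 : ℕ) : ℝ)) ^ 2 * N ≤ β ^ 2 := by
      rw [div_pow, Real.sq_sqrt (by positivity), div_mul_eq_mul_div, div_le_iff₀ (by positivity)]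
      push_cast
      nlinarith
    have h4 : β ^ 2 * R K ≤ β ^ 2 := mul_le_of_le_one_right hb2 hR1
    have h5 := Real.sin_sq_add_cos_sq θ
    calc Real.sin θ ^ 2 * (β ^ 2 * R K) + Real.cos θ ^ 2 * ((β / √((N + 1 : ℕ) : ℝ)) ^ 2 * N) ≤
          Real.sin θ ^ 2 * β ^ 2 + Real.cos θ ^ 2 * β ^ 2 :=
          add_le_add (mul_le_mul_of_nonneg_left h4 (sq_nonneg _))
            (mul_le_mul_of_nonneg_left h3 (sq_nonneg _))
      _ = β ^ 2 := by rw [← add_mul, h5, one_mul]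
  have u1 := ls_add_le hm (rlv_le hd) (lc n) hdj hV
  have u2 := ls_le_add hm (rlv_le hd) (lc n) hdj
  rw [← e1] at u1 u2
  have u3 := SC_le (n := n) (K := K) (β := β) hd hN' h0 hm s
  have u4 := SC_ge (n := n) (K := K) (β := β) hd hN' h0 hm s
  have u5 := (rs_q_mem (K := K) hd hN' h0 hm (lc n) (st (n := n) (K := K) β N s)).2
  have u6 : β ^ 2 / 4 * (1 - ∑ l ∈ Finset.range (K + 1), (m (l + 1) - m l) *
        (if d ≤ l then (SN n K d m β N s).pairEx l (fun x x' => Rov (ph hN') x x' ^ 2)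
          else 0)) ≤ β ^ 2 / 4 :=
    mul_le_of_le_one_right (by positivity) u5
  unfold ST
  unfold SC at u3 u4
  rw [abs_le]
  constructor <;> linarith

/-- (P1) The tangent inequality in the strengths. -/
theorem AN_tangent (hd : d ≤ K) (hN : N ≤ n) (hm : Exponents K m) (s : ℕ → ℝ)
    {j : ℕ} (hj : j ≤ K) (x : ℝ) :
    AN n K d m β N s + x * (SN n K d m β N s).Ex (gx hN j) ≤
      AN n K d m β N (Function.update s j (s j + x)) := by
  have hR : (SN n K d m β N s).Reg := rs_reg hd hm _ _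
  have hR' : ((SN n K d m β N s).pt (gx hN j) x).Reg := by
    rw [SN_pt hN hj]
    exact rs_reg hd hm _ _
  have h1 := Reg.jensen hR hR'
  have e1 : (fun (z : RI n K → ℝ) (y : Fin n → Bool) =>
      ((SN n K d m β N s).H z y + x * gx hN j z y) - (SN n K d m β N s).H z y) =
      fun z y => x * gx hN j z y := by
    funext z y
    ring
  rw [e1, Sy.Ex_const_mul] at h1
  have e2 : ((SN n K d m β N s).wH fun z y => (SN n K d m β N s).H z y + x * gx hN j z y) =
      SN n K d m β N (Function.update s j (s j + x)) := SN_pt hN hj x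
  rw [e2] at h1
  unfold AN
  have e3 : (SN n K d m β N s).Ex (fun z y => gx hN j z y) =
    (SN n K d m β N s).Ex (gx hN j) := rfl
  rw [e3] at h1
  linarith

theorem AN_slope (hd : d ≤ K) (hN : N ≤ n) (h0 : 0 < N) (hm : Exponents K m)
    (hs : ∀ l ≤ K, 0 ≤ s l) {j : ℕ} (hj : j ≤ K) :
    0 ≤ (SN n K d m β N s).Ex (gx hN j) ∧ (SN n K d m β N s).Ex (gx hN j) ≤ N * s j := by
  have F := SN_fld (β := β) hd hN h0 hm hs
  have hN0 : (0 : ℝ) < N := by exact_mod_cast h0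
  rw [rs_Ex_gx hN h0]
  have hj' : j ≤ (SN n K d m β N s).K := hj
  rw [F.Ex_hz hj']
  have h1 : ∀ i ∈ Finset.Ico j (K + 1),
      0 ≤ (SN n K d m β N s).p i * (SN n K d m β N s).Rl (ph hN) i ∧
      (SN n K d m β N s).p i * (SN n K d m β N s).Rl (ph hN) i ≤ m (i + 1) - m i := by
    intro i hi
    have hi' := Finset.mem_Ico.1 hi
    have h2 : 0 ≤ (SN n K d m β N s).p i := rs_p_nonneg hm (Finset.mem_range.2 hi'.2)
    have hi2 : i ≤ (SN n K d m β N s).K := by show i ≤ K; omega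
    exact ⟨mul_nonneg h2 (F.Rl_nonneg hi2), mul_le_of_le_one_right h2 (F.Rl_le_one hi2)⟩
  have h2 : 0 ≤ ∑ i ∈ Finset.Ico j ((SN n K d m β N s).K + 1),
      (SN n K d m β N s).p i * (SN n K d m β N s).Rl (ph hN) i :=
    Finset.sum_nonneg fun i hi => (h1 i hi).1
  have h3 : ∑ i ∈ Finset.Ico j ((SN n K d m β N s).K + 1),
      (SN n K d m β N s).p i * (SN n K d m β N s).Rl (ph hN) i ≤ 1 := by
    have h4 : ∑ i ∈ Finset.Ico j ((SN n K d m β N s).K + 1),
        (SN n K d m β N s).p i * (SN n K d m β N s).Rl (ph hN) i ≤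
        ∑ i ∈ Finset.Ico j (K + 1), (m (i + 1) - m i) := Finset.sum_le_sum fun i hi => (h1 i hi).2
    have h5 : ∑ i ∈ Finset.Ico j (K + 1), (m (i + 1) - m i) ≤
        ∑ i ∈ Finset.range (K + 1), (m (i + 1) - m i) :=
      Finset.sum_le_sum_of_subset_of_nonneg (by
        intro i hi
        exact Finset.mem_range.2 (Finset.mem_Ico.1 hi).2) fun i hi _ => rs_p_nonneg hm hi
    rw [rs_sum_p hm] at h5
    exact h4.trans h5
  have hsj := hs j hj
  constructor
  · exact mul_nonneg hN0.le (mul_nonneg hsj (by linarith))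
  · refine mul_le_mul_of_nonneg_left ?_ hN0.le
    exact mul_le_of_le_one_right hsj (by linarith)

/-- (E) Concentration, uniformly in the path and the angle. -/
theorem ST_conc (hd1 : 1 ≤ d) (hd : d ≤ K) (hN : N + 1 ≤ n) (h0 : 0 < N) (hm : Exponents K m)
    (hR : Path K R) (hR1 : R K ≤ 1) (hs : ∀ l ≤ K, 0 ≤ s l) (hs1 : s 0 ≤ 1) {t : ℝ} (ht : 0 < t)
    (ht1 : t ≤ 1) (θ : ℝ) {j : ℕ} (hj : j ≤ K) :
    (ST n K d m β N s R θ).Ex (fun z x => |hz (ph (Nat.le_of_succ_le hN))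
        (zc (Nat.le_of_succ_le hN)) j z x - (SN n K d m β N s).Ex (hz (ph (Nat.le_of_succ_le hN))
        (zc (Nat.le_of_succ_le hN)) j)|) ≤ ej n K d m β N s t j := by
  have hN' : N ≤ n := Nat.le_of_succ_le hN
  have hN0 : (0 : ℝ) < N := by exact_mod_cast h0
  have hReg : (ST n K d m β N s R θ).Reg := rs_reg hd hm _ _
  have hRegt : ∀ t', ((ST n K d m β N s R θ).pt (gx hN' j) t').Reg := by
    intro t'
    rw [ST_pt hN' hj]
    exact rs_reg hd hm _ _
  have h1 := conc_abs hReg (nh_gx hN' j) hRegt (t := t) (F0 := AN n K d m β N s)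
    (Fp := AN n K d m β N (Function.update s j (s j + t)))
    (Fm := AN n K d m β N (Function.update s j (s j - t)))
    (c₀ := (SN n K d m β N s).Ex (gx hN' j)) (B := β ^ 2 / 2)
    (V := 2 * ((2 * β ^ 2 + 4) * N)) ht
    (ST_cmp hd hN h0 hm hR hR1 s θ)
    (by rw [ST_pt hN' hj]; exact ST_cmp hd hN h0 hm hR hR1 _ θ)
    (by
      rw [ST_pt hN' hj, ← sub_eq_add_neg]
      exact ST_cmp hd hN h0 hm hR hR1 _ θ)
    (AN_tangent hd hN' hm s hj t)
    (by
      have := AN_tangent (β := β) hd hN' hm s hj (-t)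
      rw [← sub_eq_add_neg, neg_mul, ← sub_eq_add_neg] at this
      exact this)
    (by
      intro t' ht'
      rw [ST_pt hN' hj]
      exact ST_var hd1 hd hN h0 hm (rs_abs_update hs hs1 ht ht1 ht' j) hR hR1)
  have e1 : (ST n K d m β N s R θ).Ex (fun z x => |hz (ph hN') (zc hN') j z x -
      (SN n K d m β N s).Ex (hz (ph hN') (zc hN') j)|) =
      1 / N * (ST n K d m β N s R θ).Ex (fun z x => |gx hN' j z x -
        (SN n K d m β N s).Ex (gx hN' j)|) := by
    rw [← Sy.Ex_const_mul]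
    congr 1
    funext z x
    rw [rs_Ex_gx hN' h0, hz_eq_gx]
    have e2 : 1 / (N : ℝ) * gx hN' j z x - (SN n K d m β N s).Ex (hz (ph hN') (zc hN') j) =
        1 / N * (gx hN' j z x - N * (SN n K d m β N s).Ex (hz (ph hN') (zc hN') j)) := by
      field_simp
    rw [e2, abs_mul, abs_of_pos (by positivity)]
  rw [e1]
  refine (mul_le_mul_of_nonneg_left h1 (by positivity)).trans (le_of_eq ?_)
  unfold ej dl
  have e3 : (ST n K d m β N s R θ).m 1 = m 1 := rfl
  rw [e3]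
  field_simp
  ring

theorem SN_conc (hd1 : 1 ≤ d) (hd : d ≤ K) (hN : N ≤ n) (h0 : 0 < N) (hm : Exponents K m)
    (hs : ∀ l ≤ K, 0 ≤ s l) (hs1 : s 0 ≤ 1) {t : ℝ} (ht : 0 < t) (ht1 : t ≤ 1) {j : ℕ}
    (hj : j ≤ K) :
    (SN n K d m β N s).Ex (fun z x => |hz (ph hN) (zc hN) j z x -
      (SN n K d m β N s).Ex (hz (ph hN) (zc hN) j)|) ≤ ej n K d m β N s t j := by
  have hN0 : (0 : ℝ) < N := by exact_mod_cast h0
  have hReg : (SN n K d m β N s).Reg := rs_reg hd hm _ _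
  have hRegt : ∀ t', ((SN n K d m β N s).pt (gx hN j) t').Reg := by
    intro t'
    rw [SN_pt hN hj]
    exact rs_reg hd hm _ _
  have hB : 0 ≤ β ^ 2 / 2 := by positivity
  have h1 := conc_abs hReg (nh_gx hN j) hRegt (t := t) (F0 := AN n K d m β N s)
    (Fp := AN n K d m β N (Function.update s j (s j + t)))
    (Fm := AN n K d m β N (Function.update s j (s j - t)))
    (c₀ := (SN n K d m β N s).Ex (gx hN j)) (B := β ^ 2 / 2)
    (V := 2 * ((2 * β ^ 2 + 4) * N)) ht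
    (by unfold AN; rw [sub_self, abs_zero]; exact hB)
    (by rw [SN_pt hN hj]; unfold AN; rw [sub_self, abs_zero]; exact hB)
    (by
      rw [SN_pt hN hj, ← sub_eq_add_neg]
      unfold AN
      rw [sub_self, abs_zero]; exact hB)
    (AN_tangent hd hN hm s hj t)
    (by
      have := AN_tangent (β := β) hd hN hm s hj (-t)
      rw [← sub_eq_add_neg, neg_mul, ← sub_eq_add_neg] at this
      exact this)
    (by
      intro t' ht'
      rw [SN_pt hN hj]
      exact SN_var hd1 hd hN h0 hm (rs_abs_update hs hs1 ht ht1 ht' j))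
  have e1 : (SN n K d m β N s).Ex (fun z x => |hz (ph hN) (zc hN) j z x -
      (SN n K d m β N s).Ex (hz (ph hN) (zc hN) j)|) =
      1 / N * (SN n K d m β N s).Ex (fun z x => |gx hN j z x -
        (SN n K d m β N s).Ex (gx hN j)|) := by
    rw [← Sy.Ex_const_mul]
    congr 1
    funext z x
    rw [rs_Ex_gx hN h0, hz_eq_gx]
    have e2 : 1 / (N : ℝ) * gx hN j z x - (SN n K d m β N s).Ex (hz (ph hN) (zc hN) j) =
        1 / N * (gx hN j z x - N * (SN n K d m β N s).Ex (hz (ph hN) (zc hN) j)) := by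
      field_simp
    rw [e2, abs_mul, abs_of_pos (by positivity)]
  rw [e1]
  refine (mul_le_mul_of_nonneg_left h1 (by positivity)).trans (le_of_eq ?_)
  unfold ej dl
  have e3 : (SN n K d m β N s).m 1 = m 1 := rfl
  rw [e3]
  field_simp
  ring

end Vale.Agent.P146.Ub.Ld
end

section

/-!
(L2), module STEP, second half: the overlaps and the step, with the disorder at the level `d`.
-/

open MeasureTheory ProbabilityTheory Filter Topology

namespace Vale.Agent.P146.Ub.Ld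

set_option linter.unusedSectionVars false

open Vale.Agent.P157 Vale.Agent.P157.Lv Vale.Agent.P157.Lv.Sy
open Vale.Agent.P157.Par (Path Exponents incr spinPart)
open Vale.Agent.P146 (Pair)
open Vale.Agent.P146.Sk (PSK)

variable {n K N d : ℕ} {m s R : ℕ → ℝ} {β θ : ℝ}

/-- Deviations for any system with the fields `s` whose fields are concentrated at the means of the
stage `N`. -/

theorem rs_dev (hd : d ≤ K) (hN : N ≤ n) (h0 : 0 < N) {c : ℝ} {a : (Fin n → Bool) → RI n K → ℝ}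
    {D : RI n K → (RI n K → ℝ) → (Fin n → Bool) → ℝ}
    (F : Fld (ls (rlv d) K (me K) c a) D (ph hN) (zc hN) s)
    {σ ε : ℝ} (hσ : 0 < σ) (hs : ∀ l ≤ K, σ ≤ s l) (hε : 0 ≤ ε)
    (hc : ∀ j ≤ K, (ls (rlv d) K (me K) c a).Ex (fun z x => |hz (ph hN) (zc hN) j z x -
      (SN n K d (me K) β N s).Ex (hz (ph hN) (zc hN) j)|) ≤ ε) :
    ∑ l ∈ Finset.range (K + 1), (me K (l + 1) - me K l) *
      (ls (rlv d) K (me K) c a).pairEx l (fun x x' => |Rov (ph hN) x x' - stR (SN n K d (me K) β N s) (ph hN) l|) ≤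
      wE K σ ε := by
  set S := ls (rlv d) K (me K) c a with hSdef
  have hm := me_exp K
  have hS := F.hreg
  have hs0 : ∀ l ≤ K, 0 ≤ s l := fun l hl => hσ.le.trans (hs l hl)
  have F0 := SN_fld (β := β) hd hN h0 hm hs0
  have hK0 : (0 : ℝ) < ((K + 1 : ℕ) : ℝ) := by positivity
  have hp : ∀ l, S.p l = 1 / ((K + 1 : ℕ) : ℝ) := fun l => by
    show me K (l + 1) - me K l = _
    rw [rs_me_p]
  have hp0 : ∀ l, (SN n K d (me K) β N s).p l = 1 / ((K + 1 : ℕ) : ℝ) := fun l => by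
    show me K (l + 1) - me K l = _
    rw [rs_me_p]
  -- the deviations from the own path
  have hE : 0 ≤ 20 * ε / (σ * (1 / ((K + 1 : ℕ) : ℝ))) := by positivity
  have h1 := st_pair F (δ := 1 / ((K + 1 : ℕ) : ℝ)) hE (fun l _ => (hp l).le)
    (fun l hl => F.sync hε hσ hs (by positivity) (fun l _ => (hp l).ge)
      (fun l hl => ⟨_, hc l hl⟩) hl)
  -- the difference of the paths
  have hD : ∀ j ≤ K + 1, |∑ i ∈ Finset.Ico j (K + 1), 1 / ((K + 1 : ℕ) : ℝ) *
      (S.Rl (ph hN) i - (SN n K d (me K) β N s).Rl (ph hN) i)| ≤ ε / σ := by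
    intro j hj
    rcases Nat.lt_or_ge j (K + 1) with hj' | hj'
    · have hjK : j ≤ K := by omega
      have a1 : S.Ex (hz (ph hN) (zc hN) j) =
          s j * (1 - ∑ i ∈ Finset.Ico j (K + 1), S.p i * S.Rl (ph hN) i) := F.Ex_hz hjK
      have a2 : (SN n K d (me K) β N s).Ex (hz (ph hN) (zc hN) j) =
          s j * (1 - ∑ i ∈ Finset.Ico j (K + 1), (SN n K d (me K) β N s).p i *
            (SN n K d (me K) β N s).Rl (ph hN) i) := F0.Ex_hz (l := j) hjK
      have a3 : |S.Ex (hz (ph hN) (zc hN) j) -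
          (SN n K d (me K) β N s).Ex (hz (ph hN) (zc hN) j)| ≤ ε := by
        have n1 : Nh (hz (ph hN) (zc hN) j : (RI n K → ℝ) → (Fin n → Bool) → ℝ) := F.nh_hz j
        have a4 := hS.abs_Ex_le (f := fun z x => hz (ph hN) (zc hN) j z x -
          (SN n K d (me K) β N s).Ex (hz (ph hN) (zc hN) j)) (Nh.sub n1 (fun _ => EG.const _))
        rw [hS.Ex_sub n1 (fun _ => EG.const _), hS.Ex_const] at a4
        exact a4.trans (hc j hjK)
      rw [a1, a2] at a3
      have a5 : s j * (1 - ∑ i ∈ Finset.Ico j (K + 1), S.p i * S.Rl (ph hN) i) -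
          s j * (1 - ∑ i ∈ Finset.Ico j (K + 1),
            (SN n K d (me K) β N s).p i * (SN n K d (me K) β N s).Rl (ph hN) i) =
          -(s j * ∑ i ∈ Finset.Ico j (K + 1), 1 / ((K + 1 : ℕ) : ℝ) *
      (S.Rl (ph hN) i - (SN n K d (me K) β N s).Rl (ph hN) i)) := by
        have a6 : ∑ i ∈ Finset.Ico j (K + 1), 1 / ((K + 1 : ℕ) : ℝ) *
            (S.Rl (ph hN) i - (SN n K d (me K) β N s).Rl (ph hN) i) =
            ∑ i ∈ Finset.Ico j (K + 1), S.p i * S.Rl (ph hN) i -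
            ∑ i ∈ Finset.Ico j (K + 1),
            (SN n K d (me K) β N s).p i * (SN n K d (me K) β N s).Rl (ph hN) i := by
          rw [← Finset.sum_sub_distrib]
          refine Finset.sum_congr rfl fun i _ => ?_
          rw [hp, hp0]
          ring
        rw [a6]
        ring
      rw [a5, abs_neg, abs_mul, abs_of_nonneg (hs0 j hjK)] at a3
      rw [le_div_iff₀ hσ]
      have a8 := mul_le_mul_of_nonneg_left (hs j hjK) (abs_nonneg
        (∑ i ∈ Finset.Ico j (K + 1), 1 / ((K + 1 : ℕ) : ℝ) *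
      (S.Rl (ph hN) i - (SN n K d (me K) β N s).Rl (ph hN) i)))
      rw [mul_comm _ (s j)] at a8
      exact a8.trans a3
    · rw [Finset.Ico_eq_empty (by omega), Finset.sum_empty, abs_zero]
      positivity
  have hdl : ∀ l < K, 1 / ((K + 1 : ℕ) : ℝ) *
      |S.Rl (ph hN) l - (SN n K d (me K) β N s).Rl (ph hN) l| ≤ 2 * (ε / σ) := by
    intro l hl
    have b1 := hD l (by omega)
    have b2 := hD (l + 1) (by omega)
    rw [Finset.sum_eq_sum_Ico_succ_bot (show l < K + 1 by omega)] at b1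
    have b3 := abs_le.1 b1
    have b4 := abs_le.1 b2
    have b5 : 1 / ((K + 1 : ℕ) : ℝ) *
      |S.Rl (ph hN) l - (SN n K d (me K) β N s).Rl (ph hN) l| = |1 / ((K + 1 : ℕ) : ℝ) *
      (S.Rl (ph hN) l - (SN n K d (me K) β N s).Rl (ph hN) l)| := by
      rw [abs_mul, abs_of_pos (a := 1 / ((K + 1 : ℕ) : ℝ)) (by positivity)]
    rw [b5, abs_le]
    constructor <;> linarith
  -- sum
  have h2 : ∀ l ∈ Finset.range (K + 1), (me K (l + 1) - me K l) *
      S.pairEx l (fun x x' => |Rov (ph hN) x x' - stR (SN n K d (me K) β N s) (ph hN) l|) ≤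
      S.p l * S.pairEx l (fun x x' => |Rov (ph hN) x x' - stR S (ph hN) l|) + 2 * (ε / σ) := by
    intro l hl
    have hl' : l ≤ K := by have := Finset.mem_range.1 hl; omega
    have c1 : me K (l + 1) - me K l = S.p l := by rw [hp, rs_me_p]
    rw [c1]
    have c2 : S.p l * |stR S (ph hN) l - stR (SN n K d (me K) β N s) (ph hN) l| ≤
        2 * (ε / σ) := by
      rcases Nat.lt_or_eq_of_le hl' with h | h
      · have c3 : stR S (ph hN) l = S.Rl (ph hN) l := by
          unfold stR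
          rw [if_pos]
          exact h
        have c4 : stR (SN n K d (me K) β N s) (ph hN) l =
            (SN n K d (me K) β N s).Rl (ph hN) l := by
          unfold stR
          rw [if_pos]
          exact h
        rw [c3, c4, hp]
        exact hdl l h
      · have c5' : stR S (ph hN) K = 1 := stR_last S (ph hN)
        have c5 : stR (SN n K d (me K) β N s) (ph hN) K = 1 := stR_last _ _
        rw [h, c5', c5, sub_self, abs_zero, mul_zero]
        positivity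
    have c6 : S.pairEx l (fun x x' => |Rov (ph hN) x x' -
        stR (SN n K d (me K) β N s) (ph hN) l|) ≤
        S.pairEx l (fun x x' => |Rov (ph hN) x x' - stR S (ph hN) l|) +
          |stR S (ph hN) l - stR (SN n K d (me K) β N s) (ph hN) l| := by
      have c7 := hS.pairEx_add hl' (fun x x' => |Rov (ph hN) x x' - stR S (ph hN) l|)
        (fun _ _ => |stR S (ph hN) l - stR (SN n K d (me K) β N s) (ph hN) l|)
      rw [hS.pairEx_const hl'] at c7
      rw [← c7]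
      refine hS.pairEx_mono hl' fun x x' => ?_
      have := abs_add_le (Rov (ph hN) x x' - stR S (ph hN) l)
        (stR S (ph hN) l - stR (SN n K d (me K) β N s) (ph hN) l)
      rwa [sub_add_sub_cancel] at this
    have c8 : 0 ≤ S.p l := by rw [hp]; positivity
    have c9 := mul_le_mul_of_nonneg_left c6 c8
    rw [mul_add] at c9
    linarith
  refine (Finset.sum_le_sum h2).trans ?_
  rw [Finset.sum_add_distrib, Finset.sum_const, Finset.card_range, nsmul_eq_mul]
  unfold wE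
  have d1 : √(2 * (1 / ((K + 1 : ℕ) : ℝ))) = √(2 / ((K + 1 : ℕ) : ℝ)) := by
    congr 1; ring
  have d2 : 2 * (1 / ((K + 1 : ℕ) : ℝ)) = 2 / ((K + 1 : ℕ) : ℝ) := by ring
  have d3 : 20 * ε / (σ * (1 / ((K + 1 : ℕ) : ℝ))) = 20 * ε * ((K + 1 : ℕ) : ℝ) / σ := by
    field_simp
  rw [d1, d2, d3] at h1
  have d4 : ((K + 1 : ℕ) : ℝ) * (2 * (ε / σ)) = 2 * ((K + 1 : ℕ) : ℝ) * ε / σ := by ring
  have d5 : S.K = K := rfl
  rw [d5] at h1
  rw [d4]
  linarith

theorem rs_ej_nonneg (hd1 : 1 ≤ d) (hd : d ≤ K) (hN : N ≤ n) (h0 : 0 < N) (hm : Exponents K m)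
    (hs : ∀ l ≤ K, 0 ≤ s l) (hs1 : s 0 ≤ 1) {t : ℝ} (ht : 0 < t) (ht1 : t ≤ 1) {j : ℕ}
    (hj : j ≤ K) : 0 ≤ ej n K d m β N s t j := by
  have hR : (SN n K d m β N s).Reg := rs_reg hd hm _ _
  refine le_trans ?_ (SN_conc hd1 hd hN h0 hm hs hs1 ht ht1 hj)
  rw [← hR.Ex_const 0]
  have F := SN_fld (β := β) hd hN h0 hm hs
  exact hR.Ex_mono (fun _ => EG.const 0) (Nh.abs (Nh.sub (F.nh_hz j) (fun _ => EG.const _)))
    fun z x => abs_nonneg _

theorem rs_ej_le (hd1 : 1 ≤ d) (hd : d ≤ K) (hN : N ≤ n) (h0 : 0 < N) (hm : Exponents K m)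
    (hs : ∀ l ≤ K, 0 ≤ s l) (hs1 : s 0 ≤ 1) {t : ℝ} (ht : 0 < t) (ht1 : t ≤ 1) {j : ℕ}
    (hj : j ≤ K) : ej n K d m β N s t j ≤ ee n K d m β N s t := by
  unfold ee
  exact Finset.single_le_sum (f := fun j => ej n K d m β N s t j)
    (fun i hi => rs_ej_nonneg hd1 hd hN h0 hm hs hs1 ht ht1
      (by have := Finset.mem_range.1 hi; omega)) (Finset.mem_range.2 (by omega))

theorem rs_ee_nonneg (hd1 : 1 ≤ d) (hd : d ≤ K) (hN : N ≤ n) (h0 : 0 < N) (hm : Exponents K m)
    (hs : ∀ l ≤ K, 0 ≤ s l) (hs1 : s 0 ≤ 1) {t : ℝ} (ht : 0 < t) (ht1 : t ≤ 1) :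
    0 ≤ ee n K d m β N s t :=
  Finset.sum_nonneg fun i hi => rs_ej_nonneg hd1 hd hN h0 hm hs hs1 ht ht1
      (by have := Finset.mem_range.1 hi; omega)

/-- (F) The overlaps. -/

theorem ST_dev (hd1 : 1 ≤ d) (hd : d ≤ K) (hN : N + 1 ≤ n) (h0 : 0 < N)
    (hR : Path K R) (hR1 : R K ≤ 1) {σ : ℝ} (hσ : 0 < σ) (hs : ∀ l ≤ K, σ ≤ s l)
    (hs1 : s 0 ≤ 1) {t : ℝ} (ht : 0 < t) (ht1 : t ≤ 1) (θ : ℝ) :
    ∑ l ∈ Finset.range (K + 1), (me K (l + 1) - me K l) *
      (ST n K d (me K) β N s R θ).pairEx l (fun x x' => |Rov (ph (Nat.le_of_succ_le hN)) x x' -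
        stR (SN n K d (me K) β N s) (ph (Nat.le_of_succ_le hN)) l|) ≤
      wE K σ (ee n K d (me K) β N s t) := by
  have hs0 : ∀ l ≤ K, 0 ≤ s l := fun l hl => hσ.le.trans (hs l hl)
  have hN' : N ≤ n := Nat.le_of_succ_le hN
  exact rs_dev hd hN' h0 (ST_fld (β := β) (R := R) (θ := θ) hd hN' h0 (me_exp K) hs0) hσ hs
    (rs_ee_nonneg hd1 hd hN' h0 (me_exp K) hs0 hs1 ht ht1)
    (fun j hj => (ST_conc hd1 hd hN h0 (me_exp K) hR hR1 hs0 hs1 ht ht1 θ hj).trans
      (rs_ej_le hd1 hd hN' h0 (me_exp K) hs0 hs1 ht ht1 hj))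

theorem SN_dev (hd1 : 1 ≤ d) (hd : d ≤ K) (hN : N ≤ n) (h0 : 0 < N)
    {σ : ℝ} (hσ : 0 < σ) (hs : ∀ l ≤ K, σ ≤ s l)
    (hs1 : s 0 ≤ 1) {t : ℝ} (ht : 0 < t) (ht1 : t ≤ 1) :
    ∑ l ∈ Finset.range (K + 1), (me K (l + 1) - me K l) *
      (SN n K d (me K) β N s).pairEx l (fun x x' => |Rov (ph hN) x x' -
        stR (SN n K d (me K) β N s) (ph hN) l|) ≤
      wE K σ (ee n K d (me K) β N s t) := by
  have hs0 : ∀ l ≤ K, 0 ≤ s l := fun l hl => hσ.le.trans (hs l hl)
  exact rs_dev hd hN h0 (SN_fld (β := β) hd hN h0 (me_exp K) hs0) hσ hs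
    (rs_ee_nonneg hd1 hd hN h0 (me_exp K) hs0 hs1 ht ht1)
    (fun j hj => (SN_conc hd1 hd hN h0 (me_exp K) hs0 hs1 ht ht1 hj).trans
      (rs_ej_le hd1 hd hN h0 (me_exp K) hs0 hs1 ht ht1 hj))

/-- (H) **The step.** -/
theorem AN_step (hd1 : 1 ≤ d) (hd : d ≤ K) (hN : N + 1 ≤ n) (h0 : 0 < N) (hβ : 0 ≤ β)
    {σ : ℝ} (hσ : 0 < σ)
    (hs : ∀ l ≤ K, σ ≤ s l) (hs1 : s 0 ≤ 1) {t : ℝ} (ht : 0 < t) (ht1 : t ≤ 1) :
    PSK β K (me K) (ct d (stR (SN n K d (me K) β N s) (ph (Nat.le_of_succ_le hN)))) ≤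
      AN n K d (me K) β (N + 1) s - AN n K d (me K) β N s + β ^ 2 / (N + 1 : ℕ) +
        β ^ 2 * wE K σ (ee n K d (me K) β N s t) := by
  have hs0 : ∀ l ≤ K, 0 ≤ s l := fun l hl => hσ.le.trans (hs l hl)
  have hN' : N ≤ n := Nat.le_of_succ_le hN
  have hNn : N < n := hN
  have hm := me_exp K
  have hb2 : 0 ≤ β ^ 2 := sq_nonneg β
  have hN1 : (0 : ℝ) < ((N + 1 : ℕ) : ℝ) := by positivity
  have F0 := SN_fld (β := β) hd hN' h0 hm hs0
  obtain ⟨R₀, hRdef⟩ : ∃ R, R = stR (SN n K d (me K) β N s) (ph hN') := ⟨_, rfl⟩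
  obtain ⟨R, hRc⟩ : ∃ R, R = ct d R₀ := ⟨_, rfl⟩
  obtain ⟨W, hW⟩ : ∃ W, W = wE K σ (ee n K d (me K) β N s t) := ⟨_, rfl⟩
  have hR₀ : Path K R₀ := by rw [hRdef]; exact st_path F0
  have hRK₀ : R₀ K = 1 := by rw [hRdef]; exact stR_last (SN n K d (me K) β N s) (ph hN')
  have hR : Path K R := by rw [hRc]; exact ct_path hR₀
  have hRK : R K = 1 := by rw [hRc, ct_ge hd, hRK₀]
  have hRlt : ∀ l, l < d → R l = 0 := fun l hl => by rw [hRc, ct_lt hl]
  have hRge : ∀ l, d ≤ l → R l = R₀ l := fun l hl => by rw [hRc, ct_ge hl]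
  have hR1 : R K ≤ 1 := hRK.le
  have hRm : ∀ l ≤ K, 0 ≤ R l ∧ R l ≤ 1 := by
    have mono : ∀ i j, i ≤ j → j ≤ K → R i ≤ R j := by
      intro i j hij
      induction j, hij using Nat.le_induction with
      | base => intro _; exact le_rfl
      | succ j _ ih => intro hj; exact (ih (by omega)).trans (hR.2 j (by omega))
    intro l hl
    exact ⟨hR.1.trans (mono 0 l (Nat.zero_le _) hl), (mono l K hl le_rfl).trans hR1⟩
  have hdev : ∀ θ, ∑ l ∈ Finset.range (K + 1), (me K (l + 1) - me K l) *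
      (ST n K d (me K) β N s R θ).pairEx l (fun x x' => |Rov (ph hN') x x' - R₀ l|) ≤ W := by
    intro θ
    have h1 := ST_dev (β := β) hd1 hd hN h0 hR hR1 hσ hs hs1 ht ht1 θ
    rw [hW]
    rw [← hRdef] at h1
    exact h1
  have hdev0 : ∑ l ∈ Finset.range (K + 1), (me K (l + 1) - me K l) *
      (SN n K d (me K) β N s).pairEx l (fun x x' => |Rov (ph hN') x x' - R₀ l|) ≤ W := by
    have h1 := SN_dev (β := β) hd1 hd hN' h0 hσ hs hs1 ht ht1
    rw [hW]
    rw [← hRdef] at h1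
    exact h1
  rw [← hRdef, ← hRc, ← hW]
  obtain ⟨γ, hγ⟩ : ∃ γ, γ = β / √((N + 1 : ℕ) : ℝ) := ⟨_, rfl⟩
  have hγ2 : γ ^ 2 = β ^ 2 / ((N + 1 : ℕ) : ℝ) := by
    rw [hγ, div_pow, Real.sq_sqrt hN1.le]
  have hγN : β ^ 2 - γ ^ 2 * N = β ^ 2 / ((N + 1 : ℕ) : ℝ) := by
    rw [hγ2]
    field_simp
    push_cast
    ring
  have hsum := rs_sum_p hm
  -- (1)
  have h1 := AN_succ_ge hd hN hm β s
  -- (2)
  have h2 := ls_interp (X := Fin n → Bool) (a := sc (n := n) (K := K) β N s) (α := tre N β R)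
    (β := cav N γ) hm (rlv_le hd) (lc n) (B := 2 * (β ^ 2 / ((N + 1 : ℕ) : ℝ)) + β ^ 2 * W)
    (dj_tre_cav β γ) (dj_tre_sc β) (dj_cav_sc γ) (by
      intro θ _ _
      have eS : ls (rlv d) K (me K) (lc n) (ith (sc (n := n) (K := K) β N s) (tre N β R) (cav N γ) θ) =
          ST n K d (me K) β N s R θ := by
        rw [hγ]; rfl
      rw [eS]
      have hReg : (ST n K d (me K) β N s R θ).Reg := rs_reg hd hm _ _
      have e1 : (fun (_ : RI n K → ℝ) (x : Fin n → Bool) =>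
          ∑ e, (tre (K := K) N β R x e ^ 2 - cav (K := K) N γ x e ^ 2)) =
          fun _ _ => β ^ 2 / ((N + 1 : ℕ) : ℝ) := by
        funext _ x
        rw [Finset.sum_sub_distrib, sum_tre hNn β hR, sum_cav hNn, hRK, mul_one, hγN]
      rw [e1, hReg.Ex_const]
      have e2 : ∀ l ∈ Finset.range (K + 1), (me K (l + 1) - me K l) *
          -(β ^ 2 * (ST n K d (me K) β N s R θ).pairEx l (fun x x' => |Rov (ph hN') x x' - R₀ l|) +
            β ^ 2 / ((N + 1 : ℕ) : ℝ)) ≤ (me K (l + 1) - me K l) *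
          (ST n K d (me K) β N s R θ).pairEx l (fun x x' =>
            cv (rlv d) l (tre (K := K) N β R) (tre N β R) x x' -
              cv (rlv d) l (cav (K := K) N γ) (cav N γ) x x') := by
        intro l hl
        have hl' : l ≤ K := by have := Finset.mem_range.1 hl; omega
        have hl'' : l ≤ (ST n K d (me K) β N s R θ).K := hl'
        refine mul_le_mul_of_nonneg_left ?_ (rs_p_nonneg hm hl)
        rcases lt_or_ge l d with hld | hld
        · have e3 : (fun x x' => cv (rlv d) l (tre (n := n) (K := K) N β R) (tre N β R) x x' -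
              cv (rlv d) l (cav (n := n) (K := K) N γ) (cav N γ) x x') = fun _ _ => 0 := by
            funext x x'
            rw [cv_tre' hNn hl' β hR, cv_cav_lt hld, hRlt l hld, mul_zero, sub_zero]
          rw [e3, hReg.pairEx_const hl'']
          have e4 : 0 ≤ (ST n K d (me K) β N s R θ).pairEx l
              (fun x x' => |Rov (ph hN') x x' - R₀ l|) :=
            hReg.pairEx_nonneg hl'' fun x x' => abs_nonneg _
          have e5 := mul_nonneg hb2 e4
          have e6 : 0 ≤ β ^ 2 / ((N + 1 : ℕ) : ℝ) := div_nonneg hb2 hN1.le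
          linarith
        rw [← hRge l hld]
        have e3 : -(β ^ 2 * (ST n K d (me K) β N s R θ).pairEx l
            (fun x x' => |Rov (ph hN') x x' - R l|) + β ^ 2 / ((N + 1 : ℕ) : ℝ)) =
            (ST n K d (me K) β N s R θ).pairEx l (fun x x' =>
              (-β ^ 2) * |Rov (ph hN') x x' - R l| + -(β ^ 2 / ((N + 1 : ℕ) : ℝ))) := by
          rw [hReg.pairEx_add hl'' (fun x x' => (-β ^ 2) * |Rov (ph hN') x x' - R l|)
            (fun _ _ => -(β ^ 2 / ((N + 1 : ℕ) : ℝ))), hReg.pairEx_const_mul,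
            hReg.pairEx_const hl'']
          ring
        rw [e3]
        refine hReg.pairEx_mono hl'' fun x x' => ?_
        rw [cv_tre' hNn hl' β hR, cv_cav_ge hNn hld]
        obtain ⟨r, hr⟩ : ∃ r, r = Rov (ph hN') x x' := ⟨_, rfl⟩
        obtain ⟨w, hw⟩ : ∃ w, w = sp N x * sp N x' := ⟨_, rfl⟩
        have hr1 : |r| ≤ 1 := by rw [hr]; exact rs_abs_Rov hN' h0 x x'
        have hw1 : |w| = 1 := by
          have a1 := sp_sq hNn x
          have a2 := sp_sq hNn x'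
          have a3 : w ^ 2 = 1 := by rw [hw, mul_pow, a1, a2, one_mul]
          rw [← sq_abs] at a3
          exact (pow_eq_one_iff_of_nonneg (abs_nonneg w) two_ne_zero).1 a3
        rw [← hr, ← hw]
        have e4 : β ^ 2 * w * R l - γ ^ 2 * w * (N * r) =
            w * (β ^ 2 * (R l - r) + β ^ 2 / ((N + 1 : ℕ) : ℝ) * r) := by
          rw [← hγN]; ring
        rw [e4]
        have e5 : |w * (β ^ 2 * (R l - r) + β ^ 2 / ((N + 1 : ℕ) : ℝ) * r)| ≤
            β ^ 2 * |r - R l| + β ^ 2 / ((N + 1 : ℕ) : ℝ) := by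
          rw [abs_mul, hw1, one_mul]
          refine (abs_add_le _ _).trans (add_le_add ?_ ?_)
          · rw [abs_mul, abs_of_nonneg hb2, abs_sub_comm]
          · rw [abs_mul, abs_of_nonneg (div_nonneg hb2 hN1.le)]
            exact mul_le_of_le_one_right (div_nonneg hb2 hN1.le) hr1
        have e6 := (abs_le.1 e5).1
        linarith
      have e7 := Finset.sum_le_sum e2
      have e8 : ∑ l ∈ Finset.range (K + 1), (me K (l + 1) - me K l) *
          -(β ^ 2 * (ST n K d (me K) β N s R θ).pairEx l (fun x x' => |Rov (ph hN') x x' - R₀ l|) +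
            β ^ 2 / ((N + 1 : ℕ) : ℝ)) =
          -(β ^ 2 * ∑ l ∈ Finset.range (K + 1), (me K (l + 1) - me K l) *
            (ST n K d (me K) β N s R θ).pairEx l (fun x x' => |Rov (ph hN') x x' - R₀ l|) +
            β ^ 2 / ((N + 1 : ℕ) : ℝ) * ∑ l ∈ Finset.range (K + 1), (me K (l + 1) - me K l)) := by
        rw [Finset.mul_sum, Finset.mul_sum, ← Finset.sum_add_distrib, ← Finset.sum_neg_distrib]
        exact Finset.sum_congr rfl fun l _ => by ring
      rw [e8, hsum, mul_one] at e7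
      have e9 := mul_le_mul_of_nonneg_left (hdev θ) hb2
      linarith)
  -- (3)
  have h3 := fe_tre (R := R) hd hNn hm hβ hR s
  -- (4)
  have h4 := SC_ge (β := β) hd hN' h0 hm s
  have h5 : ∑ l ∈ Finset.range (K + 1), (me K (l + 1) - me K l) * R l ^ 2 - 2 * W ≤
      ∑ l ∈ Finset.range (K + 1), (me K (l + 1) - me K l) *
        (if d ≤ l then (SN n K d (me K) β N s).pairEx l (fun x x' => Rov (ph hN') x x' ^ 2)
          else 0) := by
    have hReg : (SN n K d (me K) β N s).Reg := rs_reg hd hm _ _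
    have a1 : ∀ l ∈ Finset.range (K + 1), (me K (l + 1) - me K l) * (R l ^ 2 -
        2 * (SN n K d (me K) β N s).pairEx l (fun x x' => |Rov (ph hN') x x' - R₀ l|)) ≤
        (me K (l + 1) - me K l) *
        (if d ≤ l then (SN n K d (me K) β N s).pairEx l (fun x x' => Rov (ph hN') x x' ^ 2)
          else 0) := by
      intro l hl
      have hl' : l ≤ K := by have := Finset.mem_range.1 hl; omega
      have hl'' : l ≤ (SN n K d (me K) β N s).K := hl'
      refine mul_le_mul_of_nonneg_left ?_ (rs_p_nonneg hm hl)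
      rcases lt_or_ge l d with hld | hld
      · rw [if_neg (not_le.2 hld), hRlt l hld]
        have e4 : 0 ≤ (SN n K d (me K) β N s).pairEx l
            (fun x x' => |Rov (ph hN') x x' - R₀ l|) :=
          hReg.pairEx_nonneg hl'' fun x x' => abs_nonneg _
        nlinarith
      rw [if_pos hld, ← hRge l hld]
      have a2 : R l ^ 2 - 2 * (SN n K d (me K) β N s).pairEx l
          (fun x x' => |Rov (ph hN') x x' - R l|) =
          (SN n K d (me K) β N s).pairEx l (fun x x' => (-2) * |Rov (ph hN') x x' - R l| +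
            R l ^ 2) := by
        rw [hReg.pairEx_add hl'' (fun x x' => (-2) * |Rov (ph hN') x x' - R l|)
            (fun _ _ => R l ^ 2), hReg.pairEx_const_mul, hReg.pairEx_const hl'']
        ring
      rw [a2]
      refine hReg.pairEx_mono hl'' fun x x' => ?_
      obtain ⟨r, hr⟩ : ∃ r, r = Rov (ph hN') x x' := ⟨_, rfl⟩
      have hr1 : |r| ≤ 1 := by rw [hr]; exact rs_abs_Rov hN' h0 x x'
      have hr2 := abs_le.1 hr1
      have hR' := hRm l hl'
      rw [← hr]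
      have a3 := abs_le.1 (le_refl |r - R l|)
      rcases abs_cases (r - R l) with h | h
      · rw [h.1]
        nlinarith
      · rw [h.1]
        nlinarith
    refine le_trans ?_ (Finset.sum_le_sum a1)
    have a4 : ∑ l ∈ Finset.range (K + 1), (me K (l + 1) - me K l) * (R l ^ 2 -
        2 * (SN n K d (me K) β N s).pairEx l (fun x x' => |Rov (ph hN') x x' - R₀ l|)) =
        ∑ l ∈ Finset.range (K + 1), (me K (l + 1) - me K l) * R l ^ 2 -
        2 * ∑ l ∈ Finset.range (K + 1), (me K (l + 1) - me K l) *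
          (SN n K d (me K) β N s).pairEx l (fun x x' => |Rov (ph hN') x x' - R₀ l|) := by
      rw [Finset.mul_sum, ← Finset.sum_sub_distrib]
      exact Finset.sum_congr rfl fun l _ => by ring
    rw [a4]
    linarith
  have h6 := mul_le_mul_of_nonneg_left h5 (show 0 ≤ β ^ 2 / 4 by positivity)
  rw [← hγ] at h1
  rw [h3, hRK] at h2
  unfold PSK
  have h7 : β ^ 2 / 4 * (1 - ∑ l ∈ Finset.range (K + 1), (me K (l + 1) - me K l) *
        (if d ≤ l then (SN n K d (me K) β N s).pairEx l (fun x x' => Rov (ph hN') x x' ^ 2)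
          else 0)) =
      β ^ 2 / 4 - β ^ 2 / 4 * ∑ l ∈ Finset.range (K + 1), (me K (l + 1) - me K l) *
        (if d ≤ l then (SN n K d (me K) β N s).pairEx l (fun x x' => Rov (ph hN') x x' ^ 2)
          else 0) := by ring
  rw [h7] at h4
  have h8 : β ^ 2 / 4 * (∑ l ∈ Finset.range (K + 1), (me K (l + 1) - me K l) * R l ^ 2 - 2 * W) =
      β ^ 2 / 4 * ∑ l ∈ Finset.range (K + 1), (me K (l + 1) - me K l) * R l ^ 2 -
        β ^ 2 * W / 2 := by ring
  rw [h8] at h6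
  have h9 : β ^ 2 / 4 * (1 + ∑ i ∈ Finset.range (K + 1), (me K (i + 1) - me K i) * R i ^ 2) =
      β ^ 2 / 4 + β ^ 2 / 4 * ∑ i ∈ Finset.range (K + 1), (me K (i + 1) - me K i) * R i ^ 2 := by
    ring
  rw [h9]
  linarith

end Vale.Agent.P146.Ub.Ld
end

section

/-!
(L2): the lower bound for the exponential moments of the free energy with a polynomial rate.
-/

open MeasureTheory ProbabilityTheory Filter Topology

namespace Vale.Agent.P146.Ub.Ld

set_option linter.unusedSectionVars false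

open Vale.Agent.P157 Vale.Agent.P157.Lv Vale.Agent.P157.Lv.Sy
open Vale.Agent.P157.Par (Path Exponents incr spinPart)
open Vale.Agent.P146 (Pair freeEnergy disorder)
open Vale.Agent.P146.Sk (PSK)

theorem rr_fe_zero {n K d : ℕ} (m : ℕ → ℝ) :
    (ls (rlv d) K m (lc n) (fun _ _ => 0) : Sy (RI n K) (Fin n → Bool)).fe = 0 := by
  have h : (ls (rlv d) K m (lc n) (fun _ _ => 0) : Sy (RI n K) (Fin n → Bool)).top =
      fun _ => 0 := by
    funext z
    simp only [Sy.top, ls, lin, zero_mul, Finset.sum_const_zero, zero_add, Finset.sum_const, Finset.card_univ, nsmul_eq_mul, lc]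
    rw [Real.log_mul (by positivity) (Real.exp_pos _).ne', Real.log_exp]
    simp
  unfold Sy.fe Sy.lg
  rw [rr_rec_zero _ h]
  simp

theorem rr_nonneg {n K d : ℕ} {m : ℕ → ℝ} (hd : d ≤ K) (hm : Exponents K m) (β : ℝ) (N : ℕ) (s : ℕ → ℝ) :
    0 ≤ AN n K d m β N s := by
  have h := ls_le_add (a := fun _ _ => 0) (b := st β N s) hm (rlv_le (n := n) hd) (lc n)
    (fun e x x' => mul_zero _)
  rw [rr_fe_zero] at h
  have e : ((fun _ _ => 0) + st β N s : (Fin n → Bool) → RI n K → ℝ) = st β N s := by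
    funext x e
    simp
  rw [e] at h
  exact h

theorem rr_le {n K d : ℕ} {m : ℕ → ℝ} (hd : d ≤ K) (hm : Exponents K m) (β : ℝ) (s : ℕ → ℝ) :
    AN n K d m β n s ≤ AN n K d m β n (fun _ => 0) +
      n * (∑ j ∈ Finset.range (K + 1), s j ^ 2) / 2 := by
  have h := ls_add_le (a := dsk n (β / √n)) (b := fd n s) hm (rlv_le (n := n) hd) (lc n)
    (fun e x x' => by
      have := dj_dsk_fd (s := s) (N := n) (β / √n) n e x' x
      rw [mul_comm]; exact this)
    (V := n * (∑ j ∈ Finset.range (K + 1), s j ^ 2)) (fun x => by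
      rw [Fintype.sum_sum_type, Fintype.sum_sum_type]
      simp only [fd_a, fd_b, fd_c]
      have h1 : ∀ p : Fin (K + 1) × Fin n,
          (if (p.2 : ℕ) < n then s p.1 * spin x p.2 else 0) ^ 2 = s p.1 ^ 2 := by
        intro p
        rw [if_pos p.2.2, mul_pow]
        have : spin x p.2 ^ 2 = 1 := by
          unfold spin; split_ifs <;> norm_num
        rw [this, mul_one]
      rw [Finset.sum_congr rfl fun p _ => h1 p, Fintype.sum_prod_type]
      simp only [Finset.sum_const, Finset.card_univ, Fintype.card_fin, nsmul_eq_mul]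
      rw [← Finset.mul_sum, Finset.sum_range]
      simp)
  have e1 : (dsk n (β / √n) : (Fin n → Bool) → RI n K → ℝ) = st β n (fun _ => 0) := by
    funext x e
    unfold st
    rcases e with p | p | l
    · simp [fd_a, fd_b, fd_c]
    · simp [fd_a, fd_b, fd_c]
    · simp [fd_a, fd_b, fd_c]
  have e2 : (dsk n (β / √n) + fd n s : (Fin n → Bool) → RI n K → ℝ) = st β n s := rfl
  rw [e2, e1] at h
  exact h

theorem rr_dl_nonneg {n K N d : ℕ} {m : ℕ → ℝ} {β : ℝ} (hd : d ≤ K) (hN : N ≤ n)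
    (hm : Exponents K m) (s : ℕ → ℝ) (t : ℝ) {j : ℕ} (hj : j ≤ K) :
    0 ≤ dl n K d m β N s t j := by
  have h1 := AN_tangent (β := β) hd hN hm s hj t
  have h2 := AN_tangent (β := β) hd hN hm s hj (-t)
  rw [← sub_eq_add_neg] at h2
  unfold dl
  linarith

theorem rr_ej_sum {n K N d : ℕ} {m : ℕ → ℝ} {β : ℝ} (s : ℕ → ℝ) (t : ℝ) :
    ee n K d m β N s t = 1 / (N * t) * (2 * ∑ j ∈ Finset.range (K + 1), dl n K d m β N s t j +
      ((K + 1 : ℕ) : ℝ) * (3 * β ^ 2 + Real.log 2 / m 1 + 3 * √(2 * ((2 * β ^ 2 + 4) * N)))) := by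
  unfold ee ej
  rw [← Finset.mul_sum]
  congr 1
  have : ∀ j ∈ Finset.range (K + 1), 2 * dl n K d m β N s t j + 3 * β ^ 2 + Real.log 2 / m 1 +
      3 * √(2 * ((2 * β ^ 2 + 4) * N)) = 2 * dl n K d m β N s t j +
        (3 * β ^ 2 + Real.log 2 / m 1 + 3 * √(2 * ((2 * β ^ 2 + 4) * N))) := fun j _ => by ring
  rw [Finset.sum_congr rfl this, Finset.sum_add_distrib, Finset.sum_const, Finset.card_range,
    nsmul_eq_mul, ← Finset.mul_sum]

/-- The average of the second differences over the grid. -/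
theorem rr_avg_dl {n K N M d : ℕ} {m : ℕ → ℝ} {β : ℝ} (hd : d ≤ K) (hN : N ≤ n) (h0 : 0 < N)
    (hm : Exponents K m) (hM : 0 < M) {σ t : ℝ} (ht : 0 < t) (hσ : t ≤ σ) :
    ∑ k : Fin (K + 1) → Fin M, ∑ j ∈ Finset.range (K + 1), dl n K d m β N (gp σ t k) t j ≤
      ((K + 1 : ℕ) : ℝ) * ((M : ℝ) ^ K * (t * (N * (σ + M * t)))) := by
  rw [Finset.sum_comm]
  have h1 : ∀ j ∈ Finset.range (K + 1),
      ∑ k : Fin (K + 1) → Fin M, dl n K d m β N (gp σ t k) t j ≤
        (M : ℝ) ^ K * (t * (N * (σ + M * t))) := by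
    intro j hj
    rw [Finset.mem_range] at hj
    exact avg_dl (K := K) (A := AN n K d m β N)
      (C := fun j s => (SN n K d m β N s).Ex (gx hN j)) hM ht hσ (Nat.cast_nonneg N)
      (fun s j hj x => AN_tangent hd hN hm s hj x)
      (fun s hs j hj => AN_slope hd hN h0 hm hs hj) (Nat.le_of_lt_succ hj)
  refine (Finset.sum_le_sum h1).trans (le_of_eq ?_)
  rw [Finset.sum_const, Finset.card_range, nsmul_eq_mul]

/-- The average of the errors over the grid. -/
theorem rr_avg_ee {n K N d : ℕ} {β : ℝ} (hd : d ≤ K) (hN : N ≤ n) (hNK : ((K + 1 : ℕ) : ℝ) ^ 16 ≤ N) :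
    rAv (fun k : Fin (K + 1) → Fin ((K + 1) ^ 3) => ee n K d (me K) β N
      (gp (1 / (2 * ((K + 1 : ℕ) : ℝ))) (1 / (2 * ((K + 1 : ℕ) : ℝ) ^ 4)) k)
      (1 / (2 * ((K + 1 : ℕ) : ℝ) ^ 4))) ≤ rrE β / ((K + 1 : ℕ) : ℝ) ^ 3 := by
  obtain ⟨l, hl⟩ : ∃ l : ℝ, l = ((K + 1 : ℕ) : ℝ) := ⟨_, rfl⟩
  have hl1 : 1 ≤ l := by rw [hl]; push_cast; linarith [Nat.cast_nonneg (α := ℝ) K]
  have hl0 : 0 < l := by linarith
  have hM : 0 < (K + 1) ^ 3 := by positivity
  have hMl : (((K + 1) ^ 3 : ℕ) : ℝ) = l ^ 3 := by rw [hl]; push_cast; ring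
  rw [← hl] at hNK ⊢
  have hN0 : (0 : ℝ) < N := lt_of_lt_of_le (by positivity) hNK
  have hN0' : 0 < N := by exact_mod_cast hN0
  obtain ⟨t, ht⟩ : ∃ t : ℝ, t = 1 / (2 * l ^ 4) := ⟨_, rfl⟩
  have ht0 : 0 < t := by rw [ht]; positivity
  have htσ : t ≤ 1 / (2 * l) := by
    rw [ht]
    apply one_div_le_one_div_of_le (by positivity)
    have : l ≤ l ^ 4 := le_self_pow₀ hl1 (by norm_num)
    linarith
  rw [← ht]
  have h1 := rr_avg_dl (n := n) (K := K) (N := N) (β := β) hd hN hN0' (me_exp K) hM ht0 htσ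
  rw [hMl, ← hl] at h1
  have e1 : 1 / (2 * l) + l ^ 3 * t = 1 / l := by
    rw [ht]; field_simp; ring
  rw [e1] at h1
  obtain ⟨c, hc⟩ : ∃ c : ℝ, c = √(2 * (2 * β ^ 2 + 4)) := ⟨_, rfl⟩
  have hc0 : 0 ≤ c := by rw [hc]; exact Real.sqrt_nonneg _
  have e2 : √(2 * ((2 * β ^ 2 + 4) * N)) = c * √N := by
    rw [hc, ← Real.sqrt_mul (by positivity)]
    congr 1; ring
  have e3 : Real.log 2 / me K 1 = l * Real.log 2 := by
    unfold me
    rw [← hl]
    simp
    ring
  have hcard : (Fintype.card (Fin (K + 1) → Fin ((K + 1) ^ 3)) : ℝ) = (l ^ 3) ^ (K + 1) := by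
    rw [Fintype.card_pi_const, Fintype.card_fin]
    rw [Nat.cast_pow, hMl]
  have h2 : ∀ k : Fin (K + 1) → Fin ((K + 1) ^ 3), ee n K d (me K) β N (gp (1 / (2 * l)) t k) t =
      1 / (N * t) * (2 * ∑ j ∈ Finset.range (K + 1),
        dl n K d (me K) β N (gp (1 / (2 * l)) t k) t j) +
      1 / (N * t) * (l * (3 * β ^ 2 + l * Real.log 2 + 3 * (c * √N))) := by
    intro k
    rw [rr_ej_sum, e2, e3, ← hl]
    ring
  have : Nonempty (Fin (K + 1) → Fin ((K + 1) ^ 3)) := ⟨fun _ => ⟨0, hM⟩⟩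
  simp only [h2]
  rw [rAv_add, rAv_mul, rAv_mul, rAv_const]
  have h3 : rAv (fun k : Fin (K + 1) → Fin ((K + 1) ^ 3) => ∑ j ∈ Finset.range (K + 1),
      dl n K d (me K) β N (gp (1 / (2 * l)) t k) t j) ≤ t * N / l ^ 3 := by
    unfold rAv
    rw [hcard]
    have h4 := mul_le_mul_of_nonneg_left h1
      (by positivity : (0 : ℝ) ≤ 1 / (l ^ 3) ^ (K + 1))
    refine h4.trans (le_of_eq ?_)
    rw [pow_succ]
    field_simp
  have hx : l ^ 8 ≤ √N := by
    rw [← Real.sqrt_sq (by positivity : (0 : ℝ) ≤ l ^ 8)]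
    apply Real.sqrt_le_sqrt
    rw [← pow_mul]
    exact hNK
  have hx0 : 0 < √(N : ℝ) := lt_of_lt_of_le (by positivity) hx
  have h5 : 1 / (N * t) * (2 * rAv (fun k : Fin (K + 1) → Fin ((K + 1) ^ 3) =>
      ∑ j ∈ Finset.range (K + 1), dl n K d (me K) β N (gp (1 / (2 * l)) t k) t j)) ≤ 2 / l ^ 3 := by
    have := mul_le_mul_of_nonneg_left h3 (by positivity : (0 : ℝ) ≤ 1 / (N * t) * 2)
    rw [← mul_assoc]
    refine this.trans (le_of_eq ?_)
    field_simp
  have h6 : 1 / (N * t) * (l * (3 * β ^ 2 + l * Real.log 2 + 3 * (c * √N))) ≤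
      (2 * (3 * β ^ 2 + 1) + 6 * c) / l ^ 3 := by
    have e4 : 1 / (N * t) * (l * (3 * β ^ 2 + l * Real.log 2 + 3 * (c * √N))) =
        2 * l ^ 5 * (3 * β ^ 2 + l * Real.log 2) / N + 6 * c * l ^ 5 * (√N / N) := by
      rw [ht]; field_simp; ring
    have e5 : √(N : ℝ) / N = 1 / √N := by
      rw [div_eq_div_iff hN0.ne' hx0.ne', one_mul]
      exact Real.mul_self_sqrt hN0.le
    rw [e4, e5, add_div]
    refine add_le_add ?_ ?_
    · have hlog : Real.log 2 ≤ 1 := by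
        have := Real.log_le_sub_one_of_pos (zero_lt_two' ℝ)
        linarith
      have h7 : 3 * β ^ 2 + l * Real.log 2 ≤ l * (3 * β ^ 2 + 1) := by
        have := mul_le_mul_of_nonneg_left hlog hl0.le
        have := mul_le_mul_of_nonneg_right hl1 (by positivity : (0 : ℝ) ≤ 3 * β ^ 2)
        linarith
      have h8 : l ^ 9 ≤ N := le_trans (pow_le_pow_right₀ hl1 (by norm_num)) hNK
      rw [div_le_div_iff₀ hN0 (by positivity)]
      have h9 : 2 * l ^ 5 * (3 * β ^ 2 + l * Real.log 2) * l ^ 3 ≤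
          2 * (3 * β ^ 2 + 1) * l ^ 9 := by
        have := mul_le_mul_of_nonneg_left h7 (by positivity : (0 : ℝ) ≤ 2 * l ^ 8)
        linarith
      refine h9.trans (mul_le_mul_of_nonneg_left h8 (by positivity))
    · have h7 : 6 * c * l ^ 5 * (1 / √N) ≤ 6 * c * l ^ 5 * (1 / l ^ 8) :=
        mul_le_mul_of_nonneg_left (one_div_le_one_div_of_le (by positivity) hx) (by positivity)
      refine h7.trans (le_of_eq ?_)
      field_simp
  refine (add_le_add h5 h6).trans (le_of_eq ?_)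
  unfold rrE
  rw [← hc]
  ring

/-- The averaged step. -/
theorem rr_step_avg {n K N d : ℕ} {β Lb : ℝ} (hd1 : 1 ≤ d) (hd : d ≤ K) (hβ : 0 ≤ β)
    (hLb : ∀ q : ℕ → ℝ, Path K q → q K ≤ 1 → (∀ l < d, q l = 0) → Lb ≤ PSK β K (me K) q)
    (hN : N + 1 ≤ n) (hNK : ((K + 1 : ℕ) : ℝ) ^ 16 ≤ N) :
    Lb ≤ rAv (fun k : Fin (K + 1) → Fin ((K + 1) ^ 3) =>
      AN n K d (me K) β (N + 1)
          (gp (1 / (2 * ((K + 1 : ℕ) : ℝ))) (1 / (2 * ((K + 1 : ℕ) : ℝ) ^ 4)) k) -
        AN n K d (me K) β N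
          (gp (1 / (2 * ((K + 1 : ℕ) : ℝ))) (1 / (2 * ((K + 1 : ℕ) : ℝ) ^ 4)) k)) +
      rrW β / √((K + 1 : ℕ) : ℝ) := by
  have hE0 := rrE_nonneg β
  have hav := rr_avg_ee (n := n) (K := K) (N := N) (β := β) hd (Nat.le_of_succ_le hN) hNK
  have hgp := fun (k : Fin (K + 1) → Fin ((K + 1) ^ 3)) => fun {j : ℕ} (hj : j ≤ K) =>
    rr_gp_le k hj
  obtain ⟨l, hl⟩ : ∃ l : ℝ, l = ((K + 1 : ℕ) : ℝ) := ⟨_, rfl⟩
  have hl1 : 1 ≤ l := by rw [hl]; push_cast; linarith [Nat.cast_nonneg (α := ℝ) K]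
  have hl0 : 0 < l := by linarith
  have hM : 0 < (K + 1) ^ 3 := by positivity
  rw [← hl] at hNK hav hgp ⊢
  have hN0 : (0 : ℝ) < N := lt_of_lt_of_le (by positivity) hNK
  have hN0' : 0 < N := by exact_mod_cast hN0
  obtain ⟨t, ht⟩ : ∃ t : ℝ, t = 1 / (2 * l ^ 4) := ⟨_, rfl⟩
  have ht0 : 0 < t := by rw [ht]; positivity
  have ht1 : t ≤ 1 := by
    rw [ht, div_le_one (by positivity)]
    have : 1 ≤ l ^ 4 := one_le_pow₀ hl1
    linarith
  rw [← ht] at hav hgp ⊢
  obtain ⟨σ, hσ⟩ : ∃ σ : ℝ, σ = 1 / (2 * l) := ⟨_, rfl⟩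
  have hσ0 : 0 < σ := by rw [hσ]; positivity
  rw [← hσ] at hav hgp ⊢
  have hne : Nonempty (Fin (K + 1) → Fin ((K + 1) ^ 3)) := ⟨fun _ => ⟨0, hM⟩⟩
  obtain ⟨X, hX⟩ : ∃ X : (Fin (K + 1) → Fin ((K + 1) ^ 3)) → ℝ,
      X = fun k => ee n K d (me K) β N (gp σ t k) t := ⟨_, rfl⟩
  obtain ⟨D, hD⟩ : ∃ D : (Fin (K + 1) → Fin ((K + 1) ^ 3)) → ℝ,
      D = fun k => AN n K d (me K) β (N + 1) (gp σ t k) - AN n K d (me K) β N (gp σ t k) := ⟨_, rfl⟩
  rw [← hX] at hav
  rw [← hD]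
  have hX0 : ∀ k, 0 ≤ X k := by
    intro k
    rw [hX]
    simp only
    rw [rr_ej_sum]
    have h1 : 0 ≤ ∑ j ∈ Finset.range (K + 1), dl n K d (me K) β N (gp σ t k) t j :=
      Finset.sum_nonneg fun j hj => rr_dl_nonneg hd (Nat.le_of_succ_le hN) (me_exp K) _ _
        (Nat.le_of_lt_succ (Finset.mem_range.1 hj))
    have h2 : 0 < me K 1 := by unfold me; positivity
    have h3 : 0 < Real.log 2 := Real.log_pos one_lt_two
    positivity
  -- the step at each point of the grid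
  have hstep : ∀ k, Lb ≤ D k + (β ^ 2 * (1 / √l + (√2 / √l + 2 / √l)) +
      (β ^ 2 * √(40 * l ^ 2 * X k) + β ^ 2 * (4 * l ^ 2 * X k))) := by
    intro k
    have hs0 : ∀ j ≤ K, 0 ≤ gp σ t k j := fun j hj => hσ0.le.trans (hgp k hj).1
    have h1 := AN_step (n := n) (K := K) (N := N) (β := β) (s := gp σ t k) hd1 hd hN hN0' hβ hσ0
      (fun j hj => (hgp k hj).1)
      ((hgp k (Nat.zero_le _)).2.trans (by rw [div_le_one hl0]; exact hl1)) ht0 ht1
    have hF := SN_fld (n := n) (K := K) (m := me K) (N := N) (β := β) (s := gp σ t k) hd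
      (Nat.le_of_succ_le hN) hN0' (me_exp K) hs0
    have hlast : stR (SN n K d (me K) β N (gp σ t k)) (ph (Nat.le_of_succ_le hN)) K = 1 :=
      stR_last (SN n K d (me K) β N (gp σ t k)) (ph (Nat.le_of_succ_le hN))
    have h2 := hLb (ct d (stR (SN n K d (me K) β N (gp σ t k)) (ph (Nat.le_of_succ_le hN))))
      (ct_path (st_path hF)) (by rw [ct_ge hd, hlast]) (fun l hl => ct_lt hl _)
    have h3 := h2.trans h1
    have e1 : ∀ y, wE K σ y = √(2 / l) + 2 / l + √(40 * l ^ 2 * y) + 4 * l ^ 2 * y := by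
      intro y
      unfold wE
      rw [← hl, hσ]
      have e2 : 20 * y * l / (1 / (2 * l)) = 40 * l ^ 2 * y := by
        field_simp; ring
      have e3 : 2 * l * y / (1 / (2 * l)) = 4 * l ^ 2 * y := by
        field_simp; ring
      rw [e2, e3]
    have hXk : ee n K d (me K) β N (gp σ t k) t = X k := by rw [hX]
    rw [e1, hXk] at h3
    have h4 : √(2 / l) = √2 / √l := Real.sqrt_div (by norm_num) l
    have h5 : 1 / l ≤ 1 / √l := by
      apply one_div_le_one_div_of_le (Real.sqrt_pos.2 hl0)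
      rw [Real.sqrt_le_left hl0.le]
      exact le_self_pow₀ hl1 (by norm_num)
    have h6 : 2 / l ≤ 2 / √l := by
      have := mul_le_mul_of_nonneg_left h5 (by norm_num : (0 : ℝ) ≤ 2)
      rw [mul_one_div, mul_one_div] at this
      exact this
    have h7 : 1 / ((N + 1 : ℕ) : ℝ) ≤ 1 / √l := by
      refine le_trans (one_div_le_one_div_of_le hl0 ?_) h5
      push_cast
      have : l ≤ l ^ 16 := le_self_pow₀ hl1 (by norm_num)
      linarith
    have hb := sq_nonneg β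
    have h8 : β ^ 2 / ((N + 1 : ℕ) : ℝ) ≤ β ^ 2 * (1 / √l) := by
      rw [← mul_one_div]
      exact mul_le_mul_of_nonneg_left h7 hb
    have h9 : β ^ 2 * (√(2 / l) + 2 / l) ≤ β ^ 2 * (√2 / √l + 2 / √l) := by
      rw [h4]
      exact mul_le_mul_of_nonneg_left (by linarith) hb
    have hDk : D k = AN n K d (me K) β (N + 1) (gp σ t k) - AN n K d (me K) β N (gp σ t k) := by
      rw [hD]
    rw [hDk]
    linarith
  have h1 := rAv_mono hstep
  rw [rAv_const, rAv_add, rAv_add, rAv_const, rAv_add, rAv_mul, rAv_mul, rAv_mul] at h1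
  -- the square root
  have h2 : rAv (fun k => √(40 * l ^ 2 * X k)) ≤ √(40 * rrE β) / √l := by
    refine (rAv_sqrt fun k => mul_nonneg (by positivity) (hX0 k)).trans ?_
    rw [rAv_mul, ← Real.sqrt_div (by positivity)]
    apply Real.sqrt_le_sqrt
    have := mul_le_mul_of_nonneg_left hav (by positivity : (0 : ℝ) ≤ 40 * l ^ 2)
    refine this.trans (le_of_eq ?_)
    field_simp
  have h5 : 1 / l ≤ 1 / √l := by
    apply one_div_le_one_div_of_le (Real.sqrt_pos.2 hl0)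
    rw [Real.sqrt_le_left hl0.le]
    exact le_self_pow₀ hl1 (by norm_num)
  have h3 : 4 * l ^ 2 * rAv X ≤ 4 * rrE β * (1 / √l) := by
    have h4 := mul_le_mul_of_nonneg_left hav (by positivity : (0 : ℝ) ≤ 4 * l ^ 2)
    refine h4.trans ?_
    have e : 4 * l ^ 2 * (rrE β / l ^ 3) = 4 * rrE β * (1 / l) := by field_simp
    rw [e]
    exact mul_le_mul_of_nonneg_left h5 (by positivity)
  have hb := sq_nonneg β
  have h6 := mul_le_mul_of_nonneg_left h2 hb
  have h7 := mul_le_mul_of_nonneg_left h3 hb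
  have e : rrW β / √l = β ^ 2 * (1 / √l + (√2 / √l + 2 / √l)) +
      (β ^ 2 * (√(40 * rrE β) / √l) + β ^ 2 * (4 * rrE β * (1 / √l))) := by
    unfold rrW; ring
  rw [e]
  linarith

theorem gstep_zero {m : ℝ} (hm : m ≠ 0) (F : ℝ → ℝ) : Par.gstep m 0 F = F := by
  funext x
  unfold Par.gstep
  simp only [Real.sqrt_zero, zero_mul, add_zero, integral_const, probReal_univ, one_smul,
    Real.log_exp]
  field_simp

theorem cascade_zero (m : ℕ → ℝ) (F : ℝ → ℝ) : ∀ k : ℕ, (∀ l, 1 ≤ l → l ≤ k → m l ≠ 0) →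
    Par.cascade m (fun _ => 0) k F = F := by
  intro k
  induction k with
  | zero => intro _; rfl
  | succ k ih =>
    intro h
    rw [Par.cascade_succ_def, sub_zero, gstep_zero (h (k + 1) (by omega) le_rfl)]
    exact ih fun l h1 h2 => h l h1 (by omega)

/-- The lower bound is at most `β² / 4`. -/
theorem rr_Lb {K d : ℕ} {β Lb : ℝ}
    (hLb : ∀ q : ℕ → ℝ, Path K q → q K ≤ 1 → (∀ l < d, q l = 0) → Lb ≤ PSK β K (me K) q) :
    Lb ≤ β ^ 2 / 4 := by
  have h := hLb (fun _ => 0) ⟨le_rfl, fun l hl => le_rfl⟩ zero_le_one (fun _ _ => rfl)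
  refine h.trans (le_of_eq ?_)
  unfold PSK spinPart
  have h1 : ∀ l, 1 ≤ l → l ≤ K → me K l ≠ 0 := by
    intro l hl _
    unfold me
    have : (0 : ℝ) < l := by exact_mod_cast hl
    positivity
  simp only [mul_zero]
  rw [cascade_zero (me K) _ K h1]
  simp

/-- **The rate.** -/
theorem rate_lower_d {β : ℝ} (hβ : 0 < β) : ∃ C : ℝ, 0 ≤ C ∧ ∀ (K d : ℕ) (Lb : ℝ),
    1 ≤ d → d ≤ K →
    (∀ q : ℕ → ℝ, Path K q → q K ≤ 1 → (∀ l < d, q l = 0) → Lb ≤ PSK β K (me K) q) →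
    ∀ n : ℕ, (K + 1) ^ 18 ≤ n →
      n * (Real.log 2 + Lb) ≤
        1 / me K d * Real.log (∫ g, Real.exp (me K d * freeEnergy n β g) ∂(disorder n)) +
          C * (n / √((K + 1 : ℕ) : ℝ)) := by
  have hW := rrW_nonneg β
  refine ⟨1 / 2 + rrW β + β ^ 2 / 4, by positivity, ?_⟩
  intro K d Lb hd1 hd hLb n hn
  obtain ⟨E, hE⟩ : ∃ E : ℝ, E = 1 / me K d *
    Real.log (∫ g, Real.exp (me K d * freeEnergy n β g) ∂(disorder n)) := ⟨_, rfl⟩
  rw [← hE]
  obtain ⟨l, hl⟩ : ∃ l : ℝ, l = ((K + 1 : ℕ) : ℝ) := ⟨_, rfl⟩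
  have hl1 : 1 ≤ l := by rw [hl]; push_cast; linarith [Nat.cast_nonneg (α := ℝ) K]
  have hl0 : 0 < l := by linarith
  have hsl : 0 < √l := Real.sqrt_pos.2 hl0
  have hn0 : 0 < n := lt_of_lt_of_le (by positivity) hn
  have hnr : l ^ 18 ≤ n := by rw [hl]; exact_mod_cast hn
  have hnpos : (0 : ℝ) < n := by exact_mod_cast hn0
  obtain ⟨N0, hN0⟩ : ∃ N0 : ℕ, N0 = (K + 1) ^ 16 := ⟨_, rfl⟩
  have hN0n : N0 ≤ n := by
    rw [hN0]
    exact le_trans (Nat.pow_le_pow_right (by omega) (by norm_num)) hn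
  have hN0r : (N0 : ℝ) = l ^ 16 := by rw [hN0, hl]; push_cast; ring
  obtain ⟨S, hS⟩ : ∃ S : (Fin (K + 1) → Fin ((K + 1) ^ 3)) → ℕ → ℝ,
      S = fun k => gp (1 / (2 * ((K + 1 : ℕ) : ℝ))) (1 / (2 * ((K + 1 : ℕ) : ℝ) ^ 4)) k :=
    ⟨_, rfl⟩
  have hM : 0 < (K + 1) ^ 3 := by positivity
  have hne : Nonempty (Fin (K + 1) → Fin ((K + 1) ^ 3)) := ⟨fun _ => ⟨0, hM⟩⟩
  -- the sum over the stages
  have hsum : ∑ N ∈ Finset.Ico N0 n, (Lb - rrW β / √l) ≤
      ∑ N ∈ Finset.Ico N0 n, (rAv (fun k => AN n K d (me K) β (N + 1) (S k)) -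
        rAv (fun k => AN n K d (me K) β N (S k))) := by
    refine Finset.sum_le_sum fun N hN => ?_
    rw [Finset.mem_Ico] at hN
    have h := rr_step_avg (n := n) (K := K) (N := N) hd1 hd hβ.le hLb hN.2 (by
      rw [← hl, ← hN0r]; exact_mod_cast hN.1)
    rw [rAv_sub, ← hl] at h
    rw [hS, ← hl]
    linarith
  rw [Finset.sum_const, Nat.card_Ico, nsmul_eq_mul, Nat.cast_sub hN0n,
    Finset.sum_Ico_sub (fun N => rAv (fun k => AN n K d (me K) β N (S k))) hN0n] at hsum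
  -- the ends
  have h0 : 0 ≤ rAv (fun k => AN n K d (me K) β N0 (S k)) := by
    have := rAv_mono (f := fun _ => (0 : ℝ)) (g := fun k => AN n K d (me K) β N0 (S k))
      fun k => rr_nonneg hd (me_exp K) β N0 (S k)
    rw [rAv_const] at this
    exact this
  have h1 : rAv (fun k => AN n K d (me K) β n (S k)) ≤
      (E - n * Real.log 2) + n / 2 * (1 / √l) := by
    have h2 : ∀ k, AN n K d (me K) β n (S k) ≤
        (E - n * Real.log 2) + n / 2 * (1 / √l) := by
      intro k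
      have h3 := rr_le (n := n) hd (me_exp K) β (S k)
      rw [AN_zero hd1 hd hn0 (me_exp K) β, ← hE] at h3
      have h4 : ∑ j ∈ Finset.range (K + 1), S k j ^ 2 ≤ 1 / √l := by
        have h5 : ∀ j ∈ Finset.range (K + 1), S k j ^ 2 ≤ (1 / l) ^ 2 := by
          intro j hj
          have h6 := rr_gp_le k (Nat.le_of_lt_succ (Finset.mem_range.1 hj))
          rw [hS]
          simp only
          rw [← hl] at h6 ⊢
          have h7 : 0 ≤ 1 / (2 * l) := by positivity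
          exact pow_le_pow_left₀ (h7.trans h6.1) h6.2 2
        refine (Finset.sum_le_sum h5).trans ?_
        rw [Finset.sum_const, Finset.card_range, nsmul_eq_mul, ← hl]
        have h6 : l * (1 / l) ^ 2 = 1 / l := by field_simp
        rw [h6]
        apply one_div_le_one_div_of_le hsl
        rw [Real.sqrt_le_left hl0.le]
        exact le_self_pow₀ hl1 (by norm_num)
      have h5 := mul_le_mul_of_nonneg_left h4 (by positivity : (0 : ℝ) ≤ n / 2)
      refine h3.trans ?_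
      have e : (n : ℝ) * (∑ j ∈ Finset.range (K + 1), S k j ^ 2) / 2 =
          n / 2 * ∑ j ∈ Finset.range (K + 1), S k j ^ 2 := by ring
      rw [e]
      linarith
    have h3 := rAv_mono h2
    rw [rAv_const] at h3
    exact h3
  -- conclusion
  have hLbu := rr_Lb hLb
  have h2 : (N0 : ℝ) ≤ n * (1 / √l) := by
    rw [hN0r, mul_one_div, le_div_iff₀ hsl]
    have h3 : √l ≤ l ^ 2 := by
      rw [Real.sqrt_le_left (by positivity), ← pow_mul]
      exact le_self_pow₀ hl1 (by norm_num)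
    have h4 : l ^ 16 * √l ≤ l ^ 16 * l ^ 2 := mul_le_mul_of_nonneg_left h3 (by positivity)
    have h5 : l ^ 16 * l ^ 2 = l ^ 18 := by ring
    linarith
  have h3 : (N0 : ℝ) * Lb ≤ n * (1 / √l) * (β ^ 2 / 4) := by
    have hN00 : (0 : ℝ) ≤ N0 := Nat.cast_nonneg _
    exact (mul_le_mul_of_nonneg_left hLbu hN00).trans
      (mul_le_mul_of_nonneg_right h2 (by positivity))
  have h4 : ((n : ℝ) - N0) * (rrW β / √l) ≤ n * (1 / √l) * rrW β := by
    have hN00 : (0 : ℝ) ≤ N0 := Nat.cast_nonneg _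
    have h5 : 0 ≤ rrW β / √l := by positivity
    have h6 := mul_nonneg hN00 h5
    have e : (n : ℝ) * (1 / √l) * rrW β = n * (rrW β / √l) := by ring
    rw [e]
    linarith
  rw [← hl]
  have e : (1 / 2 + rrW β + β ^ 2 / 4) * (n / √l) =
      n / 2 * (1 / √l) + n * (1 / √l) * rrW β + n * (1 / √l) * (β ^ 2 / 4) := by ring
  rw [e]
  linarith

end Vale.Agent.P146.Ub.Ld
end

section

/-!
# P146: the lower bound `log E exp (x (F_n - n p)) ≥ c n x⁶`, from the value with the first exponent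
bounded below
-/

open MeasureTheory ProbabilityTheory Filter Topology

namespace Vale.Agent.P146.Ld

open Vale.Agent.P157.Par (Path Exponents)
open Vale.Agent.P146.Gap (SKpar SKr BPath gap2_SKr_eq)
open Vale.Agent.P146.Sk (PSK)
open Vale.Agent.P146.Pw2 (gm)
open Vale.Agent.P146.Sx (vals pv)

/-- The value of the Parisi functional with the exponents at least `d / (n + 1)` exceeds the Parisi
value by at least a multiple of the fifth power. -/
def L1S (b : ℝ) : Prop := ∃ c C : ℝ, 0 < c ∧ 1 ≤ C ∧ ∀ n d : ℕ, 1 ≤ d → d ≤ n →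
    gm n d ≤ c → C ≤ gm n d ^ 8 * (n + 1) → ∃ r', BPath b n r' ∧ ∀ q : ℕ → ℝ, Path n q →
      q n ≤ 1 → (∀ l < d, q l = 0) → SKr b n (gm n) r' + c * gm n d ^ 5 ≤ SKpar b n (gm n) q

theorem cor_me (K : ℕ) : Ub.me K = gm K := by
  funext l
  unfold Ub.me gm
  push_cast
  rfl

theorem cor_bdd {β : ℝ} (hβ : 1 ≤ β) : BddBelow (vals β) := by
  obtain ⟨C₁, hC₁, h1⟩ := Sx.fin_moment5 hβ
  refine ⟨Real.log (∫ g, Real.exp (1 * freeEnergy 1 β g) ∂(disorder 1)) / (1 * ((1 : ℕ) : ℝ)) -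
      Real.log 2 - C₁ * 1 ^ 5, ?_⟩
  rintro y ⟨K, m, q, hm, hq, hq1, rfl⟩
  exact h1 1 le_rfl 1 one_pos le_rfl K m q hm hq hq1

/-- the value at a path is at least the infimum -/
theorem cor_sInf_le {β : ℝ} (hβ : 1 ≤ β) {n : ℕ} {r : ℕ → ℝ} (hr : BPath β n r) :
    sInf (vals β) ≤ SKr β n (gm n) r := by
  have hb : 0 < β := by linarith
  rw [← gap2_SKr_eq hb]
  refine csInf_le (cor_bdd hβ) ⟨n, gm n, fun l => r l / β ^ 2, Pw2.gm_exponents n, ⟨?_, ?_⟩, ?_, rfl⟩
  · have := hr.1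
    simp only [this, zero_div, le_refl]
  · intro l hl
    have := hr.2.1.2 l hl
    simp only
    gcongr
  · simp only
    rw [div_le_one (by positivity)]
    exact hr.2.2

/-- The bound at the points of the grid. -/
theorem cor_grid {β : ℝ} (hβ : 1 < β) (h : L1S β) : ∃ c C : ℝ, 0 < c ∧ 1 ≤ C ∧ ∀ K d : ℕ,
    1 ≤ d → d ≤ K → gm K d ≤ c → C ≤ gm K d ^ 8 * (K + 1) → ∀ n : ℕ, (K + 1) ^ 18 ≤ n →
      n * pv β + c * n * gm K d ^ 5 ≤
        1 / gm K d * Real.log (∫ g, Real.exp (gm K d * freeEnergy n β g) ∂(disorder n)) +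
          C * (n / √((K : ℝ) + 1)) := by
  obtain ⟨c, C, hc, hC, h1⟩ := h
  obtain ⟨C', hC', h2⟩ := Ub.Ld.rate_lower_d (β := β) (by linarith)
  refine ⟨c, max C C', hc, hC.trans (le_max_left _ _), ?_⟩
  intro K d hd1 hd hc1 hC1 n hn
  obtain ⟨r', hr', h3⟩ := h1 K d hd1 hd hc1 ((le_max_left _ _).trans hC1)
  have h4 := h2 K d (sInf (vals β) + c * gm K d ^ 5) hd1 hd (fun q hq hq1 hq0 => by
    rw [cor_me]
    have h5 := h3 q hq hq1 hq0
    have h6 := cor_sInf_le hβ.le hr'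
    exact (add_le_add_left h6 _).trans h5) n hn
  rw [cor_me] at h4
  have h5 : n * pv β + c * n * gm K d ^ 5 =
      n * (Real.log 2 + (sInf (vals β) + c * gm K d ^ 5)) := by
    unfold pv; ring
  rw [h5]
  refine h4.trans ?_
  have h6 : (0 : ℝ) ≤ n / √((K : ℝ) + 1) := by positivity
  have h7 : C' * (n / √((K : ℝ) + 1)) ≤ max C C' * (n / √((K : ℝ) + 1)) :=
    mul_le_mul_of_nonneg_right (le_max_right _ _) h6
  push_cast
  linarith

end Vale.Agent.P146.Ld
end

section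

/-!
# P367, classical half: change of the function and of the exponent in nested averages
-/

open MeasureTheory ProbabilityTheory Filter Topology Set

namespace Vale.Agent.P367.Cl

open Vale.Agent.P157.Par
open Vale.Agent.P146.Gap
open Vale.Agent.P146.Pw2

lemma fvd_tlt_nonneg {C : ℝ} {F ψ : ℝ → ℝ} (hF : Adm C F) (hψ : Sp7Cb ψ) (h0 : ∀ x, 0 ≤ ψ x)
    (g v x : ℝ) : 0 ≤ tlt g v F ψ x := by
  obtain ⟨hc, K, hK⟩ := hψ
  have h1 := (ex_ec hF).sm.tlt_mono (g := fun _ => (0 : ℝ)) (g' := ψ) continuous_const (K := 0)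
    (fun _ => by simp) hc hK h0 g v x
  rwa [(ex_ec hF).sm.tlt_const] at h1

lemma fvd_cb_exp {C C' η : ℝ} {G H ψ : ℝ → ℝ} (hG : Adm C G) (hH : Adm C' H)
    (hη : ∀ x, |G x - H x| ≤ η) (hψ : Sp7Cb ψ) (a : ℝ) :
    Sp7Cb (fun x => Real.exp (a * (G x - H x)) * ψ x) := by
  obtain ⟨hc, K, hK⟩ := hψ
  have c1 := (ex_ec hG).sm.cont
  have c2 := (ex_ec hH).sm.cont
  refine ⟨by fun_prop, Real.exp (|a| * η) * K, fun x => ?_⟩
  rw [abs_mul, abs_of_pos (Real.exp_pos _)]
  refine mul_le_mul (Real.exp_le_exp.2 ?_) (hK x) (abs_nonneg _) (Real.exp_pos _).le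
  calc a * (G x - H x) ≤ |a * (G x - H x)| := le_abs_self _
    _ = |a| * |G x - H x| := abs_mul _ _
    _ ≤ |a| * η := mul_le_mul_of_nonneg_left (hη x) (abs_nonneg a)

lemma fvd_tlt_change {C C' g : ℝ} {G H : ℝ → ℝ} (hG : Adm C G) (hH : Adm C' H) (hg : 0 < g)
    (v : ℝ) (ψ : ℝ → ℝ) (x : ℝ) :
    tlt g v G (fun y => Real.exp (-g * (G y - H y)) * ψ y) x =
      Real.exp (-g * (gstep g v G x - gstep g v H x)) * tlt g v H ψ x := by
  have h1 := fvar1_num hG hg v x (fun y => Real.exp (-g * (G y - H y)) * ψ y)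
  have h2 := fvar1_num hH hg v x ψ
  have h3 : ∫ w, Real.exp (-g * (G (x + √v * w) - H (x + √v * w))) * ψ (x + √v * w) *
      Real.exp (g * G (x + √v * w)) ∂(gaussianReal 0 1) =
      ∫ w, ψ (x + √v * w) * Real.exp (g * H (x + √v * w)) ∂(gaussianReal 0 1) := by
    refine integral_congr_ae (ae_of_all _ fun w => ?_)
    simp only []
    have e : Real.exp (g * H (x + √v * w)) = Real.exp (-g * (G (x + √v * w) - H (x + √v * w))) *
        Real.exp (g * G (x + √v * w)) := by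
      rw [← Real.exp_add]
      congr 1
      ring
    rw [e]
    ring
  rw [h3, ← h2] at h1
  have h4 : Real.exp (-g * (gstep g v G x - gstep g v H x)) * Real.exp (g * gstep g v G x) =
      Real.exp (g * gstep g v H x) := by
    rw [← Real.exp_add]
    congr 1
    ring
  have h5 := (Real.exp_pos (g * gstep g v G x)).ne'
  refine mul_right_cancel₀ h5 ?_
  rw [h1, ← h4]
  ring

lemma fvd_chn_aux {m r : ℕ → ℝ} {l : ℕ} {C C' η : ℝ} {G H ψ : ℝ → ℝ} (h0 : m 0 = 0)
    (hm : Sp7Exp m l) (hmm : ∀ i < l, m i ≤ m (i + 1)) (hG : Adm C G) (hH : Adm C' H)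
    (hr : ∀ i < l, r i ≤ r (i + 1)) (hη : ∀ x, |G x - H x| ≤ η) (hψ : Sp7Cb ψ)
    (hψ0 : ∀ x, 0 ≤ ψ x) :
    chn m r l G (fun x => Real.exp (-m l * (G x - H x)) * ψ x) ≤
      Real.exp (m l * η) * chn m r l H ψ := by
  induction l generalizing G H ψ C C' with
  | zero => rw [chn_zero_def, chn_zero_def, h0]; simp
  | succ l ih =>
    obtain ⟨g0, g1⟩ := hm l (Nat.lt_succ_self l)
    have hv : 0 ≤ r (l + 1) - r l := sub_nonneg.2 (hr l (Nat.lt_succ_self l))
    have hG1 := hG.step g0 g1 hv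
    have hH1 := hH.step g0 g1 hv
    have hη1 := gstep_nonexp hG hH g0 (r (l + 1) - r l) hη
    have hml := hmm l (Nat.lt_succ_self l)
    have hm' : Sp7Exp m l := fun i hi => hm i (by omega)
    have cφ : Sp7Cb (tlt (m (l + 1)) (r (l + 1) - r l) H ψ) := sp7_cb_tlt (ex_ec hH) hψ _ _
    have hφ0 := fvd_tlt_nonneg hH hψ hψ0 (m (l + 1)) (r (l + 1) - r l)
    have h1 := ih hm' (fun i hi => hmm i (by omega)) hG1 hH1 (fun i hi => hr i (by omega)) hη1
      cφ hφ0
    rw [chn_succ_def, chn_succ_def]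
    have e : tlt (m (l + 1)) (r (l + 1) - r l) G
        (fun x => Real.exp (-m (l + 1) * (G x - H x)) * ψ x) =
        fun x => Real.exp (-m (l + 1) * (gstep (m (l + 1)) (r (l + 1) - r l) G x -
          gstep (m (l + 1)) (r (l + 1) - r l) H x)) * tlt (m (l + 1)) (r (l + 1) - r l) H ψ x :=
      funext fun x => fvd_tlt_change hG hH g0 _ ψ x
    rw [e]
    set G1 := gstep (m (l + 1)) (r (l + 1) - r l) G
    set H1 := gstep (m (l + 1)) (r (l + 1) - r l) H
    set φ := tlt (m (l + 1)) (r (l + 1) - r l) H ψ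
    have h2 : ∀ x, Real.exp (-m (l + 1) * (G1 x - H1 x)) * φ x ≤
        Real.exp ((m (l + 1) - m l) * η) * (Real.exp (-m l * (G1 x - H1 x)) * φ x) := by
      intro x
      rw [← mul_assoc, ← Real.exp_add]
      refine mul_le_mul_of_nonneg_right (Real.exp_le_exp.2 ?_) (hφ0 x)
      have h3 := (abs_le.1 (hη1 x)).1
      have h4 : 0 ≤ (m (l + 1) - m l) * (G1 x - H1 x + η) :=
        mul_nonneg (sub_nonneg.2 hml) (by linarith)
      nlinarith
    have h3 := sp7_chn_mono m r l hm' (ex_ec hG1) (fvd_cb_exp hG1 hH1 hη1 cφ (-m (l + 1)))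
      (long_cb_smul (fvd_cb_exp hG1 hH1 hη1 cφ (-m l)) (Real.exp ((m (l + 1) - m l) * η))) h2
    rw [long_chn_smul] at h3
    refine h3.trans ?_
    have h4 := mul_le_mul_of_nonneg_left h1 (Real.exp_pos ((m (l + 1) - m l) * η)).le
    refine h4.trans (le_of_eq ?_)
    rw [← mul_assoc, ← Real.exp_add]
    congr 2
    ring

/-- Change of the function at the top level of a nested average. -/
theorem fvd_chn_change {m r : ℕ → ℝ} {l : ℕ} {C C' η : ℝ} {G H ψ : ℝ → ℝ} (h0 : m 0 = 0)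
    (hm : Sp7Exp m l) (hmm : ∀ i < l, m i ≤ m (i + 1)) (hG : Adm C G) (hH : Adm C' H)
    (hr : ∀ i < l, r i ≤ r (i + 1)) (hη : ∀ x, |G x - H x| ≤ η) (hψ : Sp7Cb ψ)
    (hψ0 : ∀ x, 0 ≤ ψ x) : chn m r l G ψ ≤ Real.exp (2 * η) * chn m r l H ψ := by
  have hη0 : 0 ≤ η := (abs_nonneg _).trans (hη 0)
  have hl01 : 0 ≤ m l ∧ m l ≤ 1 := by
    rcases Nat.eq_zero_or_pos l with h | h
    · subst h; rw [h0]; exact ⟨le_rfl, zero_le_one⟩
    · obtain ⟨k, rfl⟩ := Nat.exists_eq_add_of_le' h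
      exact ⟨(hm k (Nat.lt_succ_self k)).1.le, (hm k (Nat.lt_succ_self k)).2⟩
  have h1 := fvd_chn_aux h0 hm hmm hG hH hr hη (fvd_cb_exp hG hH hη hψ (m l))
    (fun x => mul_nonneg (Real.exp_pos _).le (hψ0 x))
  have e : (fun x => Real.exp (-m l * (G x - H x)) * (Real.exp (m l * (G x - H x)) * ψ x)) = ψ := by
    funext x
    rw [← mul_assoc, ← Real.exp_add, neg_mul, neg_add_cancel, Real.exp_zero, one_mul]
  rw [e] at h1
  have hψc : 0 ≤ chn m r l H ψ := by
    have h2 := sp7_chn_mono m r l hm (ex_ec hH) (sp7_cb_const 0) hψ hψ0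
    rwa [sp7_chn_const m r l hm (ex_ec hH)] at h2
  have h2 : chn m r l H (fun x => Real.exp (m l * (G x - H x)) * ψ x) ≤
      Real.exp (m l * η) * chn m r l H ψ := by
    rw [← long_chn_smul]
    refine sp7_chn_mono m r l hm (ex_ec hH) (fvd_cb_exp hG hH hη hψ (m l)) (long_cb_smul hψ _)
      fun x => mul_le_mul_of_nonneg_right (Real.exp_le_exp.2 ?_) (hψ0 x)
    exact mul_le_mul_of_nonneg_left ((le_abs_self _).trans (hη x)) hl01.1
  refine h1.trans ((mul_le_mul_of_nonneg_left h2 (Real.exp_pos _).le).trans ?_)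
  rw [← mul_assoc, ← Real.exp_add]
  refine mul_le_mul_of_nonneg_right (Real.exp_le_exp.2 ?_) hψc
  nlinarith [hl01.2]

lemma fvd_int1 (c : ℝ) : Integrable (fun z : ℝ => |z| * Real.exp (c * |z|)) (gaussianReal 0 1) := by
  refine ((sp2_integrable_exp_abs (1 + c))).mono' (by fun_prop)
    (Eventually.of_forall fun z => ?_)
  rw [Real.norm_eq_abs, abs_of_nonneg (by positivity), add_mul, one_mul, Real.exp_add]
  refine mul_le_mul_of_nonneg_right ?_ (Real.exp_pos _).le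
  have := Real.add_one_le_exp |z|
  linarith

lemma fvd_int2 (c : ℝ) : Integrable (fun z : ℝ => |z| ^ 2 * Real.exp (c * |z|))
    (gaussianReal 0 1) := by
  refine ((sp2_integrable_exp_abs (1 + c)).const_mul 2).mono' (by fun_prop)
    (Eventually.of_forall fun z => ?_)
  rw [Real.norm_eq_abs, abs_of_nonneg (by positivity), add_mul, one_mul, Real.exp_add]
  have h1 := Real.pow_div_factorial_le_exp |z| (abs_nonneg z) 2
  have h2 : ((Nat.factorial 2 : ℕ) : ℝ) = 2 := by norm_num [Nat.factorial]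
  rw [h2, div_le_iff₀ (by norm_num)] at h1
  calc |z| ^ 2 * Real.exp (c * |z|) ≤ (Real.exp |z| * 2) * Real.exp (c * |z|) :=
        mul_le_mul_of_nonneg_right h1 (Real.exp_pos _).le
    _ = _ := by ring

lemma fvd_exp_sub {a b c : ℝ} (ha : a ≤ c) (hb : b ≤ c) :
    |Real.exp a - Real.exp b| ≤ |a - b| * Real.exp c := by
  wlog h : b ≤ a generalizing a b with H
  · rw [abs_sub_comm, abs_sub_comm a b]
    exact H hb ha (le_of_not_ge h)
  rw [abs_of_nonneg (sub_nonneg.2 (Real.exp_le_exp.2 h)), abs_of_nonneg (sub_nonneg.2 h)]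
  have h1 := Real.add_one_le_exp (-(a - b))
  have h2 : Real.exp b = Real.exp a * Real.exp (-(a - b)) := by
    rw [← Real.exp_add]; congr 1; ring
  calc Real.exp a - Real.exp b = Real.exp a * (1 - Real.exp (-(a - b))) := by rw [h2]; ring
    _ ≤ Real.exp c * (a - b) := by
        refine mul_le_mul (Real.exp_le_exp.2 ha) (by linarith) ?_ (Real.exp_pos _).le
        have : Real.exp (-(a - b)) ≤ 1 := Real.exp_le_one_iff.2 (by linarith)
        linarith
    _ = _ := mul_comm _ _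

lemma fvd_tangent {F M D : ℝ → ℝ} (hE : Ec F M D) (x y : ℝ) : M x * (y - x) ≤ F y - F x := by
  rcases lt_trichotomy x y with h | h | h
  · obtain ⟨c, hc, he⟩ := exists_hasDerivAt_eq_slope F M h hE.sm.cont.continuousOn
      (fun c _ => hE.d1 c)
    have h1 := hE.mono hc.1.le
    rw [he, le_div_iff₀ (sub_pos.2 h)] at h1
    exact h1
  · subst h
    simp
  · obtain ⟨c, hc, he⟩ := exists_hasDerivAt_eq_slope F M h hE.sm.cont.continuousOn
      (fun c _ => hE.d1 c)
    have h1 := hE.mono hc.2.le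
    rw [he, div_le_iff₀ (sub_pos.2 h)] at h1
    linarith

/-- Change of the tilt exponent, at every point. -/
theorem fvd_tilt (S : ℝ) : ∃ K : ℝ, 0 ≤ K ∧ ∀ (C g₁ g₂ : ℝ) (F : ℝ → ℝ), Adm C F → 0 < g₁ →
    g₁ ≤ g₂ → g₂ ≤ 1 → ∀ τ ∈ Icc 0 S, ∀ x,
      |tlt g₂ τ F (fun y => iteratedDeriv 1 F y ^ 2) x -
        tlt g₁ τ F (fun y => iteratedDeriv 1 F y ^ 2) x| ≤ K * (g₂ - g₁) * τ := by
  set I₁ := ∫ z, |z| * Real.exp (√S * |z|) ∂(gaussianReal 0 1) with hI₁
  set I₂ := ∫ z, |z| ^ 2 * Real.exp (√S * |z|) ∂(gaussianReal 0 1) with hI₂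
  have hI₁0 : 0 ≤ I₁ := integral_nonneg fun z => by positivity
  have hI₂0 : 0 ≤ I₂ := integral_nonneg fun z => by positivity
  refine ⟨2 * (I₂ + I₁ * I₁), by positivity, ?_⟩
  intro C g₁ g₂ F h hg hgg hg2 τ hτ x
  have hE := ex_ec h
  have hS := hE.sm
  have hg1 : g₁ ≤ 1 := hgg.trans hg2
  set M := iteratedDeriv 1 F with hM
  set D := iteratedDeriv 2 F with hD
  set w : ℝ → ℝ := fun y => F y + -(F x) with hw
  have hw1 : ∀ y, |w y| ≤ |y - x| := fun y => by
    have := hS.lip y x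
    rw [one_mul] at this
    simpa only [hw, ← sub_eq_add_neg] using this
  have hwS : Sm 1 1 w M D :=
    ⟨fun x => by simpa [hw] using (hE.d1 x).add_const (-(F x)), hE.d2, hE.cD, hE.sm.bM, hE.sm.bD⟩
  have hMc : Continuous M := hS.cont1
  have hwc : Continuous w := hwS.cont
  set ψ : ℝ → ℝ := fun y => M y ^ 2 - M x ^ 2 with hψ
  have hψb : ∀ y, |ψ y| ≤ 2 * |y - x| := fun y => by
    have h1 := convex_univ.norm_image_sub_le_of_norm_hasDerivWithin_le (f := M) (f' := D)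
      (s := Set.univ) (C := 1) (fun x _ => (hE.d2 x).hasDerivWithinAt) (fun x _ => hE.sm.bD x)
      (mem_univ x) (mem_univ y)
    rw [Real.norm_eq_abs, Real.norm_eq_abs, one_mul] at h1
    have h2 : ψ y = (M y + M x) * (M y - M x) := by simp only [hψ]; ring
    rw [h2, abs_mul]
    have h3 : |M y + M x| ≤ 2 := by
      refine (abs_add_le _ _).trans ?_
      have := hE.abs_M y
      have := hE.abs_M x
      linarith
    exact mul_le_mul h3 h1 (abs_nonneg _) (by norm_num)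
  have hψ1 : ∀ y, |ψ y| ≤ 1 := fun y => by
    have h1 := pow_le_one₀ (abs_nonneg _) (hE.abs_M y) (n := 2)
    have h2 := pow_le_one₀ (abs_nonneg _) (hE.abs_M x) (n := 2)
    rw [sq_abs] at h1 h2
    rw [abs_le]
    simp only [hψ]
    constructor <;> nlinarith [sq_nonneg (M y), sq_nonneg (M x)]
  have hψc : Continuous ψ := by fun_prop
  have hM2b : ∀ _ : ℝ, |M x ^ 2| ≤ 1 := fun _ => by
    rw [abs_pow]; exact pow_le_one₀ (abs_nonneg _) (hE.abs_M x)
  -- reduction to `w` and `ψ`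
  have e : ∀ g : ℝ, tlt g τ F (fun y => M y ^ 2) x = tlt g τ w ψ x + M x ^ 2 := by
    intro g
    have h1 : (fun y => M y ^ 2) = fun y => ψ y + M x ^ 2 := by
      funext y
      simp only [hψ]
      ring
    rw [h1, hS.tlt_add hψc hψ1 continuous_const (hM2b), hS.tlt_const, ← sp5_tlt_add_const g τ (-(F x)) F ψ x]
  rw [e, e]
  have hτ0 : 0 ≤ τ := hτ.1
  have hst : √τ ≤ √S := Real.sqrt_le_sqrt hτ.2
  have hs0 := Real.sqrt_nonneg τ
  have hyx : ∀ z, |x + √τ * z - x| = √τ * |z| := fun z => by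
    rw [add_sub_cancel_left, abs_mul, abs_of_nonneg hs0]
  have hwz : ∀ z, |w (x + √τ * z)| ≤ √τ * |z| := fun z => (hw1 _).trans (hyx z).le
  have hψz : ∀ z, |ψ (x + √τ * z)| ≤ 2 * (√τ * |z|) := fun z =>
    (hψb _).trans (by rw [hyx])
  have hwe : ∀ g, 0 ≤ g → g ≤ 1 → ∀ z, g * w (x + √τ * z) ≤ √S * |z| := by
    intro g h0 h1 z
    calc g * w (x + √τ * z) ≤ |g * w (x + √τ * z)| := le_abs_self _
      _ = g * |w (x + √τ * z)| := by rw [abs_mul, abs_of_nonneg h0]
      _ ≤ 1 * (√τ * |z|) := mul_le_mul h1 (hwz z) (abs_nonneg _) zero_le_one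
      _ ≤ √S * |z| := by rw [one_mul]; exact mul_le_mul_of_nonneg_right hst (abs_nonneg _)
  have hd0 : 0 ≤ g₂ - g₁ := sub_nonneg.2 hgg
  have hee : ∀ z, |Real.exp (g₂ * w (x + √τ * z)) - Real.exp (g₁ * w (x + √τ * z))| ≤
      (g₂ - g₁) * (√τ * |z|) * Real.exp (√S * |z|) := by
    intro z
    refine (fvd_exp_sub (hwe g₂ (hg.le.trans hgg) hg2 z) (hwe g₁ hg.le hg1 z)).trans ?_
    refine mul_le_mul_of_nonneg_right ?_ (Real.exp_pos _).le
    rw [← sub_mul, abs_mul, abs_of_nonneg hd0]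
    exact mul_le_mul_of_nonneg_left (hwz z) hd0
  -- lower bound of the denominators
  have hZ : ∀ g, 0 < g → g ≤ 1 → 1 ≤ ∫ z, Real.exp (g * w (x + √τ * z)) ∂(gaussianReal 0 1) := by
    intro g h0 h1
    have i3 : Integrable (fun z : ℝ => z) (gaussianReal 0 1) := by
      have := (fvd_int1 0)
      refine this.mono' (by fun_prop) (ae_of_all _ fun z => ?_)
      simp
    have i2 : Integrable (fun z : ℝ => 1 + g * M x * √τ * z) (gaussianReal 0 1) :=
      (integrable_const _).add (i3.const_mul _)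
    have h2 : ∫ z, (1 + g * M x * √τ * z) ∂(gaussianReal 0 1) = 1 := by
      rw [integral_add (integrable_const _) (i3.const_mul _), integral_const_mul]
      have h3 : ∫ z : ℝ, z ∂(gaussianReal 0 1) = 0 := integral_id_gaussianReal
      rw [h3]
      simp
    rw [← h2]
    refine integral_mono i2 (hwS.integrable_exp g τ x) fun z => ?_
    simp only []
    have h3 := Real.add_one_le_exp (g * w (x + √τ * z))
    have h4 := mul_le_mul_of_nonneg_left (fvd_tangent hE x (x + √τ * z)) h0.le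
    have e1 : g * (M x * (x + √τ * z - x)) = g * M x * √τ * z := by ring
    have e2 : g * (F (x + √τ * z) - F x) = g * w (x + √τ * z) := by simp only [hw]; ring
    rw [e1, e2] at h4
    linarith
  have i1 : ∀ g, Integrable (fun z => ψ (x + √τ * z) * Real.exp (g * w (x + √τ * z)))
      (gaussianReal 0 1) := fun g => hwS.integrable hψc hψ1 g τ x
  have i0 : ∀ g, Integrable (fun z => Real.exp (g * w (x + √τ * z))) (gaussianReal 0 1) :=
    fun g => hwS.integrable_exp g τ x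
  unfold tlt
  set A₂ := ∫ z, ψ (x + √τ * z) * Real.exp (g₂ * w (x + √τ * z)) ∂(gaussianReal 0 1)
  set A₁ := ∫ z, ψ (x + √τ * z) * Real.exp (g₁ * w (x + √τ * z)) ∂(gaussianReal 0 1)
  set Z₂ := ∫ z, Real.exp (g₂ * w (x + √τ * z)) ∂(gaussianReal 0 1)
  set Z₁ := ∫ z, Real.exp (g₁ * w (x + √τ * z)) ∂(gaussianReal 0 1)
  have hZ₂ : 1 ≤ Z₂ := hZ g₂ (hg.trans_le hgg) hg2
  have hZ₁ : 1 ≤ Z₁ := hZ g₁ hg hg1
  have hZZ : |Z₂ - Z₁| ≤ (g₂ - g₁) * √τ * I₁ := by
    have h1 : Z₂ - Z₁ = ∫ z, (Real.exp (g₂ * w (x + √τ * z)) - Real.exp (g₁ * w (x + √τ * z)))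
        ∂(gaussianReal 0 1) := (integral_sub (i0 g₂) (i0 g₁)).symm
    rw [h1, ← Real.norm_eq_abs]
    refine (norm_integral_le_of_norm_le ((fvd_int1 (√S)).const_mul ((g₂ - g₁) * √τ))
      (ae_of_all _ fun z => ?_)).trans (by rw [integral_const_mul])
    rw [Real.norm_eq_abs]
    refine (hee z).trans (le_of_eq ?_)
    ring
  have hAA : |A₂ - A₁| ≤ 2 * (g₂ - g₁) * τ * I₂ := by
    have h1 : A₂ - A₁ = ∫ z, (ψ (x + √τ * z) * Real.exp (g₂ * w (x + √τ * z)) -
        ψ (x + √τ * z) * Real.exp (g₁ * w (x + √τ * z))) ∂(gaussianReal 0 1) :=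
      (integral_sub (i1 g₂) (i1 g₁)).symm
    rw [h1, ← Real.norm_eq_abs]
    refine (norm_integral_le_of_norm_le ((fvd_int2 (√S)).const_mul (2 * (g₂ - g₁) * τ))
      (ae_of_all _ fun z => ?_)).trans (by rw [integral_const_mul])
    rw [Real.norm_eq_abs, ← mul_sub, abs_mul]
    refine (mul_le_mul (hψz z) (hee z) (abs_nonneg _) (by positivity)).trans (le_of_eq ?_)
    have : √τ * √τ = τ := Real.mul_self_sqrt hτ0
    calc 2 * (√τ * |z|) * ((g₂ - g₁) * (√τ * |z|) * Real.exp (√S * |z|)) =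
        2 * (g₂ - g₁) * (√τ * √τ) * (|z| ^ 2 * Real.exp (√S * |z|)) := by ring
      _ = _ := by rw [this]
  have hA₁ : |A₁| ≤ 2 * √τ * I₁ := by
    rw [← Real.norm_eq_abs]
    refine (norm_integral_le_of_norm_le ((fvd_int1 (√S)).const_mul (2 * √τ))
      (ae_of_all _ fun z => ?_)).trans (by rw [integral_const_mul])
    rw [Real.norm_eq_abs, abs_mul, abs_of_pos (Real.exp_pos _)]
    refine (mul_le_mul (hψz z) (Real.exp_le_exp.2 (hwe g₁ hg.le hg1 z)) (Real.exp_pos _).le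
      (by positivity)).trans (le_of_eq ?_)
    ring
  have hsplit : A₂ / Z₂ + M x ^ 2 - (A₁ / Z₁ + M x ^ 2) =
      (A₂ - A₁) / Z₂ + A₁ * (Z₁ - Z₂) / (Z₁ * Z₂) := by
    have h1 : Z₂ ≠ 0 := by positivity
    have h2 : Z₁ ≠ 0 := by positivity
    field_simp
    ring
  rw [hsplit]
  have k1 : |(A₂ - A₁) / Z₂| ≤ 2 * (g₂ - g₁) * τ * I₂ := by
    rw [abs_div, abs_of_pos (by linarith : 0 < Z₂)]
    exact (div_le_self (abs_nonneg _) hZ₂).trans hAA
  have k2 : |A₁ * (Z₁ - Z₂) / (Z₁ * Z₂)| ≤ 2 * √τ * I₁ * ((g₂ - g₁) * √τ * I₁) := by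
    have hZZ1 : 1 ≤ Z₁ * Z₂ := by nlinarith
    rw [abs_div, abs_of_pos (by linarith : 0 < Z₁ * Z₂), abs_mul, abs_sub_comm Z₁ Z₂]
    refine (div_le_self (by positivity) hZZ1).trans ?_
    exact mul_le_mul hA₁ hZZ (abs_nonneg _) (by positivity)
  refine (abs_add_le _ _).trans ((add_le_add k1 k2).trans (le_of_eq ?_))
  have : √τ * √τ = τ := Real.mul_self_sqrt hτ0
  calc 2 * (g₂ - g₁) * τ * I₂ + 2 * √τ * I₁ * ((g₂ - g₁) * √τ * I₁) =
      2 * (g₂ - g₁) * τ * I₂ + 2 * (√τ * √τ) * (g₂ - g₁) * (I₁ * I₁) := by ring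
    _ = _ := by rw [this]; ring

end Vale.Agent.P367.Cl
end

section

/-!
# P367, classical half: moving the upper level of a block down (`var_down`)
-/

open MeasureTheory ProbabilityTheory Filter Topology Set

namespace Vale.Agent.P367.Cl

open Vale.Agent.P157.Par
open Vale.Agent.P146.Gap
open Vale.Agent.P146.Pw2

/-- joint continuity of the tilted averages -/
theorem fvd_joint {C g W : ℝ} {F : ℝ → ℝ} (hF : Adm C F) (hg : 0 < g) (g' : ℝ) :
    ContinuousOn (fun p : ℝ × ℝ => tlt g' p.1 (gstep g (W - p.1) F)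
      (fun y => iteratedDeriv 1 (gstep g (W - p.1) F) y ^ 2) p.2) (Icc 0 W ×ˢ univ) := by
  have f1 := ex_fam1 (ex_ec hF) hg W
  obtain ⟨L, B, hL, hB, hsm⟩ := f1.sp2_sm
  have h1 := f1.tlt_cont (g := fun t y => tlt g (W + t * -1) F (iteratedDeriv 1 F) y ^ 2)
    (f1.c1.pow 2) (B := L ^ 2) (fun t ht y => by
      rw [abs_pow]
      exact pow_le_pow_left₀ (abs_nonneg _) ((hsm t ht).bM y) 2) g' 0 1
  simp only [ex_gstep_d1 hF hg]
  refine h1.congr fun p _ => ?_
  simp only [mul_one, mul_neg, ← sub_eq_add_neg, zero_add]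

/-- the path with the level `l + 1` moved to `r l + t` -/
lemma fvd_path {b : ℝ} {n : ℕ} {r : ℕ → ℝ} {l : ℕ} (h : BPath b n r) (hl : l < n) {t : ℝ}
    (ht : t ∈ Icc 0 (r (l + 1) - r l)) : BPath b n (Function.update r (l + 1) (r l + t)) := by
  have hne : ∀ i, i ≠ l + 1 → Function.update r (l + 1) (r l + t) i = r i := fun i hi =>
    Function.update_of_ne hi _ _
  have he : Function.update r (l + 1) (r l + t) (l + 1) = r l + t := Function.update_self _ _ _
  have h0 : Function.update r (l + 1) (r l + t) 0 = r 0 := hne 0 (by omega)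
  have ht1 : r l + t ≤ r (l + 1) := by linarith [ht.2]
  refine ⟨h0.trans h.1, ⟨?_, ?_⟩, ?_⟩
  · rw [h0]; exact h.2.1.1
  · intro i hi
    by_cases h1 : i = l + 1
    · subst h1
      rw [he, hne (l + 1 + 1) (by omega)]
      exact ht1.trans (h.2.1.2 (l + 1) hi)
    · rw [hne i h1]
      by_cases h2 : i + 1 = l + 1
      · have h3 : i = l := by omega
        subst h3
        rw [he]
        linarith [ht.1]
      · rw [hne (i + 1) h2]
        exact h.2.1.2 i hi
  · by_cases h1 : n = l + 1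
    · rw [h1, he]
      exact ht1.trans (long_r_le h (show l + 1 ≤ n by omega))
    · rw [hne n h1]
      exact h.2.2

/-- the quadratic part of the modified path -/
lemma fvd_sum {n : ℕ} {m r : ℕ → ℝ} {l : ℕ} (hl : l < n) (a : ℝ) :
    ∑ i ∈ Finset.range (n + 1), (m (i + 1) - m i) * Function.update r (l + 1) a i ^ 2 =
      ∑ i ∈ Finset.range (n + 1), (m (i + 1) - m i) * r i ^ 2 +
        (m (l + 2) - m (l + 1)) * (a ^ 2 - r (l + 1) ^ 2) := by
  have hmem : l + 1 ∈ Finset.range (n + 1) := by rw [Finset.mem_range]; omega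
  rw [← Finset.add_sum_erase _ _ hmem, ← Finset.add_sum_erase (Finset.range (n + 1))
    (fun i => (m (i + 1) - m i) * r i ^ 2) hmem]
  have h1 : ∑ i ∈ (Finset.range (n + 1)).erase (l + 1),
      (m (i + 1) - m i) * Function.update r (l + 1) a i ^ 2 =
      ∑ i ∈ (Finset.range (n + 1)).erase (l + 1), (m (i + 1) - m i) * r i ^ 2 := by
    refine Finset.sum_congr rfl fun i hi => ?_
    rw [Function.update_of_ne (Finset.ne_of_mem_erase hi)]
  rw [h1, Function.update_self]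
  ring

/-- the cascade of the modified path -/
lemma fvd_spin {b : ℝ} {n : ℕ} {m r : ℕ → ℝ} {l : ℕ} (hm : Exponents n m) (h : BPath b n r)
    (hl : l < n) {t : ℝ} (ht : t ∈ Icc 0 (r (l + 1) - r l)) :
    spinPart n m (Function.update r (l + 1) (r l + t)) =
      cascade m (Function.update r (l + 1) (r l + t)) (l + 1)
        (gstep (m (l + 2)) (r (l + 1) - r l - t) (Fl n m r (l + 1))) 0 - r n / 2 := by
  have hP := fvd_path h hl ht
  have hne : ∀ i, i ≠ l + 1 → Function.update r (l + 1) (r l + t) i = r i := fun i hi =>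
    Function.update_of_ne hi _ _
  have he : Function.update r (l + 1) (r l + t) (l + 1) = r l + t := Function.update_self _ _ _
  have hpos : ∀ i, 1 ≤ i → i ≤ n + 1 → 0 < m i := fun i h1 h2 => gapn_exp_pos hm h1 h2
  have hle1 : ∀ i, i ≤ n + 1 → m i ≤ 1 := fun i h2 => gapn_exp_le_one hm h2
  have hV : 0 ≤ r (l + 1) - r l - t := by linarith [ht.2]
  rw [minb_spin hP.1, fl_split (m := m) (r := Function.update r (l + 1) (r l + t))
    (show l + 1 ≤ n by omega)]
  by_cases h1 : n = l + 1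
  · subst h1
    rw [he]
    have e2 : Fl (l + 1) m (Function.update r (l + 1) (r l + t)) (l + 1) = lc := fl_last
    have e3 : Fl (l + 1) m r (l + 1) = lc := fl_last
    rw [e2, e3, show m (l + 2) = 1 from hm.2.1, minb_lc_step hV,
      minb_cascade_const (fun i h2 h3 => hpos i h2 (by omega)) (fun i h2 h3 => hle1 i (by omega))
        (fun i hi => hP.2.1.2 i (by omega)) adm_lc]
    ring
  · have hL1 : l + 1 < n := by omega
    rw [hne n h1, fl_succ hL1, he, hne (l + 1 + 1) (by omega)]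
    have e4 : Fl n m (Function.update r (l + 1) (r l + t)) (l + 1 + 1) = Fl n m r (l + 1 + 1) := by
      unfold Fl
      congr 1
      funext i
      exact hne _ (by omega)
    obtain ⟨C, hG⟩ := fl_good hm h.2.1 (l := l + 1 + 1) (by omega)
    rw [e4, fl_succ (m := m) (r := r) hL1, gstep_add hG.adm (hpos (l + 2) (by omega) (by omega)) hV
      (sub_nonneg.2 (h.2.1.2 (l + 1) hL1))]
    congr 4
    ring

/-- nested averages up to the level `l + 1` of the modified path -/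
lemma fvd_chn {m r : ℕ → ℝ} {l : ℕ} (a : ℝ) (G ψ : ℝ → ℝ) :
    chn m (Function.update r (l + 1) (r l + a)) (l + 1) G ψ =
      chn m r l (gstep (m (l + 1)) a G) (tlt (m (l + 1)) a G ψ) := by
  have hne : ∀ i, i ≠ l + 1 → Function.update r (l + 1) (r l + a) i = r i := fun i hi =>
    Function.update_of_ne hi _ _
  have hc : ∀ (c : ℕ), c ≤ l → ∀ H φ : ℝ → ℝ,
      chn m (Function.update r (l + 1) (r l + a)) c H φ = chn m r c H φ := by
    intro c
    induction c with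
    | zero => intro _ H φ; rw [chn_zero_def, chn_zero_def, hne 0 (by omega)]
    | succ c ih =>
      intro hcl H φ
      rw [chn_succ_def, chn_succ_def, hne (c + 1) (by omega), hne c (by omega), ih (by omega)]
  rw [chn_succ_def, Function.update_self, hne l (by omega), hc l le_rfl, add_sub_cancel_left]

lemma fvd_casc {m r : ℕ → ℝ} {l : ℕ} (a : ℝ) (G : ℝ → ℝ) :
    cascade m (Function.update r (l + 1) (r l + a)) (l + 1) G =
      cascade m r l (gstep (m (l + 1)) a G) := by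
  have hne : ∀ i, i ≠ l + 1 → Function.update r (l + 1) (r l + a) i = r i := fun i hi =>
    Function.update_of_ne hi _ _
  rw [cascade_succ_def, Function.update_self, hne l (by omega), add_sub_cancel_left]
  exact minb_congr (fun _ _ _ => rfl) (fun i hi => hne i (by omega)) _

theorem var_down {b : ℝ} (hb : 1 < b) : ∃ C : ℝ, 1 ≤ C ∧ ∀ (n : ℕ) (r : ℕ → ℝ) (l : ℕ),
    IsMin b n (gm n) r → l < n → ∀ t ∈ Icc 0 (r (l + 1) - r l),
      -(C / (n + 1) * (r (l + 1) - r l - t) ^ 2) ≤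
        ∫ s in t..(r (l + 1) - r l), (Rb n (gm n) r l s - (r l + s) / b ^ 2) := by
  have hb0 : 0 < b := by linarith
  obtain ⟨K, hK0, htilt⟩ := fvd_tilt (b ^ 2)
  refine ⟨1 + K + Real.exp (b ^ 2), ?_, ?_⟩
  · have := Real.exp_pos (b ^ 2)
    linarith
  intro n r l h hl t ht
  have hm := gm_exponents n
  have hpath := h.1.2.1
  have hg := long_gm_pos n l
  have hg1 : gm n (l + 1) ≤ 1 := long_gm_le (by omega)
  have hg2 := long_gm_pos n (l + 1)
  have hg21 : gm n (l + 1 + 1) ≤ 1 := long_gm_le (by omega)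
  have hgg := long_gm_lt n (l + 1)
  have hδ := gm_sub n (l + 1)
  have hr0 := long_r_nonneg h.1 hl.le
  have hrb := long_r_le h.1 hl.le
  have hrb1 := long_r_le h.1 (show l + 1 ≤ n by omega)
  have hFs := fl_aks hm hpath (show l + 1 ≤ n by omega)
  have hF := hFs.adm
  have hsucc := fl_succ (m := gm n) (r := r) hl
  have hP := fvd_path h.1 hl ht
  have hmin := h.2 _ hP
  unfold SKr at hmin
  rw [fvd_spin hm h.1 hl ht, minb_spin h.1.1, fvd_sum hl, fl_split (m := gm n) (r := r) hl.le,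
    hsucc] at hmin
  have ht0 : 0 ≤ t := ht.1
  have hV : 0 ≤ r (l + 1) - r l - t := by linarith [ht.2]
  have hgd2 : gm n (l + 2) = gm n (l + 1 + 1) := rfl
  rw [hgd2] at hmin
  have hRbd : ∀ s, Rb n (gm n) r l s = chn (gm n) r l (Fl n (gm n) r l)
      (tlt (gm n (l + 1)) s (gstep (gm n (l + 1)) (r (l + 1) - r l - s) (Fl n (gm n) r (l + 1)))
        (fun x => iteratedDeriv 1 (gstep (gm n (l + 1)) (r (l + 1) - r l - s)
          (Fl n (gm n) r (l + 1))) x ^ 2)) := fun s => rfl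
  set F := Fl n (gm n) r (l + 1) with hFd
  set g := gm n (l + 1) with hgd
  set g₂ := gm n (l + 1 + 1) with hg₂d
  set V := r (l + 1) - r l with hVd
  set W := V - t with hWd
  have hWb : W ≤ b ^ 2 := by linarith
  set r' := Function.update r (l + 1) (r l + t) with hr'd
  -- the two functions
  have hG1 := hF.step hg hg1 hV
  have hG2 := hF.step hg2 hg21 hV
  have e0 : cascade (gm n) r l (gstep g V F) = cascade (gm n) r' (l + 1) (gstep g W F) := by
    rw [hr'd, fvd_casc, ← hgd, gstep_add hF hg ht0 hV]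
    congr 2
    rw [hWd]
    ring
  rw [e0] at hmin
  have hE1 : Sp7Exp (gm n) (l + 1) := fun i hi => ⟨long_gm_pos n i, long_gm_le (by omega)⟩
  have hE0 : Sp7Exp (gm n) l := fun i hi => ⟨long_gm_pos n i, long_gm_le (by omega)⟩
  have hd0 : 0 < g₂ - g := by linarith
  set η : ℝ := 1 / 2 * (g₂ - g) * W with hηd
  have hη0 : 0 ≤ η := by positivity
  have hbd : ∀ x, |gstep g₂ W F x - gstep g W F x| ≤ η := by
    intro x
    have h1 := gstep_exp_mono hF hg hgg.le hg21 hV x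
    have h2 := gstep_exp_lip hF hg hgg.le hg21 hV x
    rw [abs_le]
    constructor <;> linarith
  have hΔ0 : ∀ x, 0 ≤ gstep g₂ W F x - gstep g W F x := fun x => by
    have h1 := gstep_exp_mono hF hg hgg.le hg21 hV x
    linarith
  have hconv := casc_convex (m := gm n) (r := r') (l := l + 1) hG1 hG2 hP.1
    hE1 (fun i hi => hP.2.1.2 i (by omega)) ⟨η, hbd⟩
  have cd : Sp7Cb (fun x => gstep g₂ W F x - gstep g W F x) :=
    ⟨(ex_ec hG2).sm.cont.sub (ex_ec hG1).sm.cont, η, hbd⟩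
  -- change of the measure
  have hchg := fvd_chn_change (m := gm n) (r := r') (l := l + 1) (by simp [gm]) hE1
    (fun i hi => (long_gm_lt n i).le) hG2 hG1 (fun i hi => hP.2.1.2 i (by omega)) hbd cd hΔ0
  -- the tilted averages
  set φ : ℝ → ℝ → ℝ := fun τ => tlt g₂ τ (gstep g (W - τ) F)
    (fun y => iteratedDeriv 1 (gstep g (W - τ) F) y ^ 2) with hφ
  set φ₁ : ℝ → ℝ → ℝ := fun τ => tlt g τ (gstep g (W - τ) F)
    (fun y => iteratedDeriv 1 (gstep g (W - τ) F) y ^ 2) with hφ₁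
  have hφc : ContinuousOn (fun p : ℝ × ℝ => φ p.1 p.2) (Icc 0 W ×ˢ univ) :=
    fvd_joint hF hg g₂
  have hφ₁c : ContinuousOn (fun p : ℝ × ℝ => φ₁ p.1 p.2) (Icc 0 W ×ˢ univ) :=
    fvd_joint hF hg g
  have hφm : ∀ τ x, 0 ≤ φ τ x ∧ φ τ x ≤ 1 := fun τ x => ex_tlt_mem hF hg hg1 (W - τ) τ x
  have hφ₁m : ∀ τ x, 0 ≤ φ₁ τ x ∧ φ₁ τ x ≤ 1 := fun τ x => ex_tlt_mem hF hg hg1 (W - τ) τ x
  have hφb : ∀ τ ∈ Icc 0 W, ∀ x, |φ τ x| ≤ 1 := fun τ _ x => by
    rw [abs_of_nonneg (hφm τ x).1]; exact (hφm τ x).2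
  have hφ₁b : ∀ τ ∈ Icc 0 W, ∀ x, |φ₁ τ x| ≤ 1 := fun τ _ x => by
    rw [abs_of_nonneg (hφ₁m τ x).1]; exact (hφ₁m τ x).2
  have hdiff : ∀ x, gstep g₂ W F x - gstep g W F x =
      1 / 2 * (g₂ - g) * ∫ τ in (0 : ℝ)..W, φ τ x := fun x =>
    gstep_diff hF hg hg1 hg2 hg21 hV x
  have hint := chn_integral (m := gm n) (r := r') (l := l + 1) hE1 (ex_ec hG1) hV hφc hφb
  have hint₁ := chn_integral (m := gm n) (r := r') (l := l + 1) hE1 (ex_ec hG1) hV hφ₁c hφ₁b
  obtain ⟨X, hX⟩ : ∃ X, X = ∫ τ in (0 : ℝ)..W, chn (gm n) r' (l + 1) (gstep g W F) (φ τ) := ⟨_, rfl⟩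
  have hXe : chn (gm n) r' (l + 1) (gstep g W F) (fun x => gstep g₂ W F x - gstep g W F x) =
      1 / 2 * (g₂ - g) * X := by
    have e1 : (fun x => gstep g₂ W F x - gstep g W F x) =
        fun x => 1 / 2 * (g₂ - g) * ∫ τ in (0 : ℝ)..W, φ τ x := funext hdiff
    rw [e1, long_chn_smul, hint.2, hX]
  -- the values of `Rb`
  have hRb : ∀ τ ∈ Icc 0 W, chn (gm n) r' (l + 1) (gstep g W F) (φ₁ τ) = Rb n (gm n) r l (t + τ) := by
    intro τ hτ
    have hτ' : 0 ≤ W - τ := by linarith [hτ.2]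
    have hGτ := hF.step hg hg1 hτ'
    have e1 : gstep g W F = gstep g τ (gstep g (W - τ) F) := by
      rw [gstep_add hF hg hτ.1 hτ']
      congr 1
      ring
    have e2 : V - (t + τ) = W - τ := by rw [hWd]; ring
    rw [hRbd, hr'd, fvd_chn, ← hgd, e2, hsucc, gstep_add hF hg ht0 hV]
    congr 1
    · congr 1
      rw [hWd]; ring
    · funext x
      simp only [hφ₁]
      rw [e1, tlt_comp hGτ hg ht0 hτ.1 (sp7_cb_sq (nest_cb1 hGτ))]
  -- comparison of the tilts
  have hle : ∀ τ ∈ Icc 0 W, chn (gm n) r' (l + 1) (gstep g W F) (φ τ) ≤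
      Rb n (gm n) r l (t + τ) + K * (g₂ - g) * W := by
    intro τ hτ
    rw [← hRb τ hτ]
    have hτ' : 0 ≤ W - τ := by linarith [hτ.2]
    have hGτ := hF.step hg hg1 hτ'
    have c1 : Sp7Cb (φ τ) := sp7_cb_tlt (ex_ec hGτ) (sp7_cb_sq (nest_cb1 hGτ)) _ _
    have c2 : Sp7Cb (φ₁ τ) := sp7_cb_tlt (ex_ec hGτ) (sp7_cb_sq (nest_cb1 hGτ)) _ _
    have h1 := sp7_chn_mono (gm n) r' (l + 1) hE1 (ex_ec hG1) c1
      (sp7_cb_add c2 (sp7_cb_const (K * (g₂ - g) * W))) (fun x => by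
        have h2 := htilt _ _ _ _ hGτ hg hgg.le hg21 τ ⟨hτ.1, hτ.2.trans hWb⟩ x
        have h3 : K * (g₂ - g) * τ ≤ K * (g₂ - g) * W :=
          mul_le_mul_of_nonneg_left hτ.2 (mul_nonneg hK0 hd0.le)
        have h4 := (abs_le.1 h2).2
        simp only [hφ, hφ₁]
        linarith)
    rwa [sp7_chn_add (gm n) r' (l + 1) hE1 (ex_ec hG1) c2 (sp7_cb_const _),
      sp7_chn_const (gm n) r' (l + 1) hE1 (ex_ec hG1)] at h1
  have hRc : ContinuousOn (fun τ => Rb n (gm n) r l (t + τ)) (Icc 0 W) :=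
    hint₁.1.congr fun τ hτ => (hRb τ hτ).symm
  have hX0 : 0 ≤ X := by
    rw [hX]
    refine intervalIntegral.integral_nonneg hV fun τ hτ => ?_
    have hτ' : 0 ≤ W - τ := by linarith [hτ.2]
    have hGτ := hF.step hg hg1 hτ'
    have h1 := sp7_chn_mono (gm n) r' (l + 1) hE1 (ex_ec hG1) (sp7_cb_const 0)
      (sp7_cb_tlt (ex_ec hGτ) (sp7_cb_sq (nest_cb1 hGτ)) g₂ τ) (fun x => (hφm τ x).1)
    rwa [sp7_chn_const (gm n) r' (l + 1) hE1 (ex_ec hG1)] at h1
  have hX1 : X ≤ W := by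
    have h1 : X ≤ ∫ _τ in (0 : ℝ)..W, (1 : ℝ) := by
      rw [hX]
      refine intervalIntegral.integral_mono_on hV (hint.1.intervalIntegrable_of_Icc hV)
        intervalIntegrable_const fun τ hτ => ?_
      have hτ' : 0 ≤ W - τ := by linarith [hτ.2]
      have hGτ := hF.step hg hg1 hτ'
      have h1 := sp7_chn_mono (gm n) r' (l + 1) hE1 (ex_ec hG1)
        (sp7_cb_tlt (ex_ec hGτ) (sp7_cb_sq (nest_cb1 hGτ)) g₂ τ) (sp7_cb_const 1)
        (fun x => (hφm τ x).2)
      rwa [sp7_chn_const (gm n) r' (l + 1) hE1 (ex_ec hG1)] at h1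
    rwa [intervalIntegral.integral_const, smul_eq_mul, mul_one, sub_zero] at h1
  have hX2 : X ≤ (∫ s in t..V, Rb n (gm n) r l s) + K * (g₂ - g) * W ^ 2 := by
    have h1 : X ≤ ∫ τ in (0 : ℝ)..W, (Rb n (gm n) r l (t + τ) + K * (g₂ - g) * W) := by
      rw [hX]
      refine intervalIntegral.integral_mono_on hV (hint.1.intervalIntegrable_of_Icc hV)
        ((hRc.intervalIntegrable_of_Icc hV).add intervalIntegrable_const) fun τ hτ => hle τ hτ
    rw [intervalIntegral.integral_add (hRc.intervalIntegrable_of_Icc hV) intervalIntegrable_const,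
      intervalIntegral.integral_const, smul_eq_mul, sub_zero,
      intervalIntegral.integral_comp_add_left (fun s => Rb n (gm n) r l s) t, add_zero] at h1
    have e1 : t + W = V := by rw [hWd]; ring
    rw [e1] at h1
    refine h1.trans (le_of_eq ?_)
    ring
  -- the inequality from the minimality
  have hexp : Real.exp (2 * η) ≤ 1 + Real.exp (b ^ 2) * ((g₂ - g) * W) := by
    have e1 : 2 * η = (g₂ - g) * W := by rw [hηd]; ring
    rw [e1]
    set u := (g₂ - g) * W with hu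
    have hu0 : 0 ≤ u := mul_nonneg hd0.le hV
    have hu1 : u ≤ b ^ 2 := by
      have h1 : g₂ - g ≤ 1 := by linarith
      calc u ≤ 1 * W := mul_le_mul_of_nonneg_right h1 hV
        _ ≤ b ^ 2 := by rw [one_mul]; exact hWb
    have h7 := Real.add_one_le_exp (-u)
    have h8 := Real.exp_pos u
    have h9 : Real.exp (-u) * Real.exp u = 1 := by rw [← Real.exp_add]; simp
    have h10 := mul_le_mul_of_nonneg_right h7 h8.le
    rw [h9] at h10
    have h11 : Real.exp u ≤ Real.exp (b ^ 2) := Real.exp_le_exp.2 hu1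
    have h12 := mul_le_mul_of_nonneg_left h11 hu0
    linarith
  have hmain : (g₂ - g) * ((r (l + 1) ^ 2 - (r l + t) ^ 2) / (4 * b ^ 2)) ≤
      Real.exp (2 * η) * (1 / 2 * (g₂ - g) * X) := by
    rw [hXe] at hchg
    have e2 : (∑ i ∈ Finset.range (n + 1), (gm n (i + 1) - gm n i) * r i ^ 2 +
        (g₂ - g) * ((r l + t) ^ 2 - r (l + 1) ^ 2)) / (4 * b ^ 2) =
        (∑ i ∈ Finset.range (n + 1), (gm n (i + 1) - gm n i) * r i ^ 2) / (4 * b ^ 2) -
          (g₂ - g) * ((r (l + 1) ^ 2 - (r l + t) ^ 2) / (4 * b ^ 2)) := by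
      ring
    rw [e2] at hmin
    linarith
  have hmain2 : (r (l + 1) ^ 2 - (r l + t) ^ 2) / (2 * b ^ 2) ≤ Real.exp (2 * η) * X := by
    have e3 : (g₂ - g) * ((r (l + 1) ^ 2 - (r l + t) ^ 2) / (4 * b ^ 2)) =
        (1 / 2 * (g₂ - g)) * ((r (l + 1) ^ 2 - (r l + t) ^ 2) / (2 * b ^ 2)) := by
      field_simp
      ring
    have e4 : Real.exp (2 * η) * (1 / 2 * (g₂ - g) * X) =
        (1 / 2 * (g₂ - g)) * (Real.exp (2 * η) * X) := by ring
    rw [e3, e4] at hmain
    exact le_of_mul_le_mul_left hmain (by linarith)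
  have hmain3 : Real.exp (2 * η) * X ≤ X + Real.exp (b ^ 2) * (g₂ - g) * W ^ 2 := by
    have h1 := mul_le_mul_of_nonneg_right hexp hX0
    have h2 : Real.exp (b ^ 2) * ((g₂ - g) * W) * X ≤ Real.exp (b ^ 2) * ((g₂ - g) * W) * W :=
      mul_le_mul_of_nonneg_left hX1
        (mul_nonneg (Real.exp_pos _).le (mul_nonneg hd0.le hV))
    have e1 : (1 + Real.exp (b ^ 2) * ((g₂ - g) * W)) * X =
        X + Real.exp (b ^ 2) * ((g₂ - g) * W) * X := by ring
    rw [e1] at h1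
    refine h1.trans ?_
    have e5 : Real.exp (b ^ 2) * ((g₂ - g) * W) * W = Real.exp (b ^ 2) * (g₂ - g) * W ^ 2 := by ring
    linarith
  have htV : t ≤ V := ht.2
  have hRi : IntervalIntegrable (fun s => Rb n (gm n) r l s) volume t V := by
    have h1 : ContinuousOn (fun s => Rb n (gm n) r l s) (Icc t V) := by
      have h2 := hRc.comp (f := fun s : ℝ => s - t) (s := Icc t V) (by fun_prop)
        (fun s hs => ⟨by linarith [hs.1], by rw [hWd]; linarith [hs.2]⟩)
      refine h2.congr fun s _ => ?_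
      simp only [Function.comp_def, add_sub_cancel]
    exact h1.intervalIntegrable_of_Icc htV
  have hlin : ∫ s in t..V, (r l + s) / b ^ 2 = (r (l + 1) ^ 2 - (r l + t) ^ 2) / (2 * b ^ 2) := by
    rw [intervalIntegral.integral_div, intervalIntegral.integral_add intervalIntegrable_const
      intervalIntegral.intervalIntegrable_id, intervalIntegral.integral_const, integral_id,
      smul_eq_mul]
    have e1 : r (l + 1) = V + r l := by rw [hVd]; ring
    rw [e1]
    field_simp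
    ring
  rw [intervalIntegral.integral_sub hRi
    (ContinuousOn.intervalIntegrable_of_Icc htV (by fun_prop)), hlin]
  rw [hδ] at hX2 hmain3
  have hN : (0 : ℝ) < 1 / ((n : ℝ) + 1) := by positivity
  have e6 : (1 + K + Real.exp (b ^ 2)) / ((n : ℝ) + 1) * W ^ 2 =
      1 / ((n : ℝ) + 1) * W ^ 2 + K * (1 / ((n : ℝ) + 1)) * W ^ 2 +
        Real.exp (b ^ 2) * (1 / ((n : ℝ) + 1)) * W ^ 2 := by ring
  rw [e6]
  have h20 : 0 ≤ 1 / ((n : ℝ) + 1) * W ^ 2 := by positivity
  linarith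

end Vale.Agent.P367.Cl
end

section

/-!
# P146, lower bound of the exponential moments, Parisi side (L1): moving a level down (`var_downD`)

The minimiser over the paths which vanish below the level `d`: the upper level of the block `l` may
be moved down as soon as `d ≤ l + 1`.
-/

open MeasureTheory ProbabilityTheory Filter Topology Set

namespace Vale.Agent.P146.Lb

open Vale.Agent.P157.Par
open Vale.Agent.P146.Gap
open Vale.Agent.P146.Pw2
open Vale.Agent.P367.Cl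

/-- moving the upper level of a block down, for the constrained minimiser: the modified path still
vanishes below the level `d`, because `d ≤ l + 1` -/
theorem var_downD {b : ℝ} (hb : 1 < b) : ∃ C : ℝ, 1 ≤ C ∧ ∀ (n d : ℕ) (r : ℕ → ℝ) (l : ℕ),
    IsMinD b n d r → l < n → d ≤ l + 1 → ∀ t ∈ Icc 0 (r (l + 1) - r l),
      -(C / (n + 1) * (r (l + 1) - r l - t) ^ 2) ≤
        ∫ s in t..(r (l + 1) - r l), (Rb n (gm n) r l s - (r l + s) / b ^ 2) := by
  have hb0 : 0 < b := by linarith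
  obtain ⟨K, hK0, htilt⟩ := fvd_tilt (b ^ 2)
  refine ⟨1 + K + Real.exp (b ^ 2), ?_, ?_⟩
  · have := Real.exp_pos (b ^ 2)
    linarith
  intro n d r l h hl hd t ht
  have hm := gm_exponents n
  have hpath := h.1.2.1
  have hg := long_gm_pos n l
  have hg1 : gm n (l + 1) ≤ 1 := long_gm_le (by omega)
  have hg2 := long_gm_pos n (l + 1)
  have hg21 : gm n (l + 1 + 1) ≤ 1 := long_gm_le (by omega)
  have hgg := long_gm_lt n (l + 1)
  have hδ := gm_sub n (l + 1)
  have hr0 := long_r_nonneg h.1 hl.le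
  have hrb := long_r_le h.1 hl.le
  have hrb1 := long_r_le h.1 (show l + 1 ≤ n by omega)
  have hFs := fl_aks hm hpath (show l + 1 ≤ n by omega)
  have hF := hFs.adm
  have hsucc := fl_succ (m := gm n) (r := r) hl
  have hP := fvd_path h.1 hl ht
  have hmin := h.2.2 _ hP (fun i hi => by
    rw [Function.update_of_ne (by omega)]
    exact h.2.1 i hi)
  unfold SKr at hmin
  rw [fvd_spin hm h.1 hl ht, minb_spin h.1.1, fvd_sum hl, fl_split (m := gm n) (r := r) hl.le,
    hsucc] at hmin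
  have ht0 : 0 ≤ t := ht.1
  have hV : 0 ≤ r (l + 1) - r l - t := by linarith [ht.2]
  have hgd2 : gm n (l + 2) = gm n (l + 1 + 1) := rfl
  rw [hgd2] at hmin
  have hRbd : ∀ s, Rb n (gm n) r l s = chn (gm n) r l (Fl n (gm n) r l)
      (tlt (gm n (l + 1)) s (gstep (gm n (l + 1)) (r (l + 1) - r l - s) (Fl n (gm n) r (l + 1)))
        (fun x => iteratedDeriv 1 (gstep (gm n (l + 1)) (r (l + 1) - r l - s)
          (Fl n (gm n) r (l + 1))) x ^ 2)) := fun s => rfl
  set F := Fl n (gm n) r (l + 1) with hFd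
  set g := gm n (l + 1) with hgd
  set g₂ := gm n (l + 1 + 1) with hg₂d
  set V := r (l + 1) - r l with hVd
  set W := V - t with hWd
  have hWb : W ≤ b ^ 2 := by linarith
  set r' := Function.update r (l + 1) (r l + t) with hr'd
  -- the two functions
  have hG1 := hF.step hg hg1 hV
  have hG2 := hF.step hg2 hg21 hV
  have e0 : cascade (gm n) r l (gstep g V F) = cascade (gm n) r' (l + 1) (gstep g W F) := by
    rw [hr'd, fvd_casc, ← hgd, gstep_add hF hg ht0 hV]
    congr 2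
    rw [hWd]
    ring
  rw [e0] at hmin
  have hE1 : Sp7Exp (gm n) (l + 1) := fun i hi => ⟨long_gm_pos n i, long_gm_le (by omega)⟩
  have hE0 : Sp7Exp (gm n) l := fun i hi => ⟨long_gm_pos n i, long_gm_le (by omega)⟩
  have hd0 : 0 < g₂ - g := by linarith
  set η : ℝ := 1 / 2 * (g₂ - g) * W with hηd
  have hη0 : 0 ≤ η := by positivity
  have hbd : ∀ x, |gstep g₂ W F x - gstep g W F x| ≤ η := by
    intro x
    have h1 := gstep_exp_mono hF hg hgg.le hg21 hV x
    have h2 := gstep_exp_lip hF hg hgg.le hg21 hV x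
    rw [abs_le]
    constructor <;> linarith
  have hΔ0 : ∀ x, 0 ≤ gstep g₂ W F x - gstep g W F x := fun x => by
    have h1 := gstep_exp_mono hF hg hgg.le hg21 hV x
    linarith
  have hconv := casc_convex (m := gm n) (r := r') (l := l + 1) hG1 hG2 hP.1
    hE1 (fun i hi => hP.2.1.2 i (by omega)) ⟨η, hbd⟩
  have cd : Sp7Cb (fun x => gstep g₂ W F x - gstep g W F x) :=
    ⟨(ex_ec hG2).sm.cont.sub (ex_ec hG1).sm.cont, η, hbd⟩
  -- change of the measure
  have hchg := fvd_chn_change (m := gm n) (r := r') (l := l + 1) (by simp [gm]) hE1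
    (fun i hi => (long_gm_lt n i).le) hG2 hG1 (fun i hi => hP.2.1.2 i (by omega)) hbd cd hΔ0
  -- the tilted averages
  set φ : ℝ → ℝ → ℝ := fun τ => tlt g₂ τ (gstep g (W - τ) F)
    (fun y => iteratedDeriv 1 (gstep g (W - τ) F) y ^ 2) with hφ
  set φ₁ : ℝ → ℝ → ℝ := fun τ => tlt g τ (gstep g (W - τ) F)
    (fun y => iteratedDeriv 1 (gstep g (W - τ) F) y ^ 2) with hφ₁
  have hφc : ContinuousOn (fun p : ℝ × ℝ => φ p.1 p.2) (Icc 0 W ×ˢ univ) :=
    fvd_joint hF hg g₂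
  have hφ₁c : ContinuousOn (fun p : ℝ × ℝ => φ₁ p.1 p.2) (Icc 0 W ×ˢ univ) :=
    fvd_joint hF hg g
  have hφm : ∀ τ x, 0 ≤ φ τ x ∧ φ τ x ≤ 1 := fun τ x => ex_tlt_mem hF hg hg1 (W - τ) τ x
  have hφ₁m : ∀ τ x, 0 ≤ φ₁ τ x ∧ φ₁ τ x ≤ 1 := fun τ x => ex_tlt_mem hF hg hg1 (W - τ) τ x
  have hφb : ∀ τ ∈ Icc 0 W, ∀ x, |φ τ x| ≤ 1 := fun τ _ x => by
    rw [abs_of_nonneg (hφm τ x).1]; exact (hφm τ x).2
  have hφ₁b : ∀ τ ∈ Icc 0 W, ∀ x, |φ₁ τ x| ≤ 1 := fun τ _ x => by
    rw [abs_of_nonneg (hφ₁m τ x).1]; exact (hφ₁m τ x).2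
  have hdiff : ∀ x, gstep g₂ W F x - gstep g W F x =
      1 / 2 * (g₂ - g) * ∫ τ in (0 : ℝ)..W, φ τ x := fun x =>
    gstep_diff hF hg hg1 hg2 hg21 hV x
  have hint := chn_integral (m := gm n) (r := r') (l := l + 1) hE1 (ex_ec hG1) hV hφc hφb
  have hint₁ := chn_integral (m := gm n) (r := r') (l := l + 1) hE1 (ex_ec hG1) hV hφ₁c hφ₁b
  obtain ⟨X, hX⟩ : ∃ X, X = ∫ τ in (0 : ℝ)..W, chn (gm n) r' (l + 1) (gstep g W F) (φ τ) := ⟨_, rfl⟩
  have hXe : chn (gm n) r' (l + 1) (gstep g W F) (fun x => gstep g₂ W F x - gstep g W F x) =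
      1 / 2 * (g₂ - g) * X := by
    have e1 : (fun x => gstep g₂ W F x - gstep g W F x) =
        fun x => 1 / 2 * (g₂ - g) * ∫ τ in (0 : ℝ)..W, φ τ x := funext hdiff
    rw [e1, long_chn_smul, hint.2, hX]
  -- the values of `Rb`
  have hRb : ∀ τ ∈ Icc 0 W, chn (gm n) r' (l + 1) (gstep g W F) (φ₁ τ) = Rb n (gm n) r l (t + τ) := by
    intro τ hτ
    have hτ' : 0 ≤ W - τ := by linarith [hτ.2]
    have hGτ := hF.step hg hg1 hτ'
    have e1 : gstep g W F = gstep g τ (gstep g (W - τ) F) := by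
      rw [gstep_add hF hg hτ.1 hτ']
      congr 1
      ring
    have e2 : V - (t + τ) = W - τ := by rw [hWd]; ring
    rw [hRbd, hr'd, fvd_chn, ← hgd, e2, hsucc, gstep_add hF hg ht0 hV]
    congr 1
    · congr 1
      rw [hWd]; ring
    · funext x
      simp only [hφ₁]
      rw [e1, tlt_comp hGτ hg ht0 hτ.1 (sp7_cb_sq (nest_cb1 hGτ))]
  -- comparison of the tilts
  have hle : ∀ τ ∈ Icc 0 W, chn (gm n) r' (l + 1) (gstep g W F) (φ τ) ≤
      Rb n (gm n) r l (t + τ) + K * (g₂ - g) * W := by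
    intro τ hτ
    rw [← hRb τ hτ]
    have hτ' : 0 ≤ W - τ := by linarith [hτ.2]
    have hGτ := hF.step hg hg1 hτ'
    have c1 : Sp7Cb (φ τ) := sp7_cb_tlt (ex_ec hGτ) (sp7_cb_sq (nest_cb1 hGτ)) _ _
    have c2 : Sp7Cb (φ₁ τ) := sp7_cb_tlt (ex_ec hGτ) (sp7_cb_sq (nest_cb1 hGτ)) _ _
    have h1 := sp7_chn_mono (gm n) r' (l + 1) hE1 (ex_ec hG1) c1
      (sp7_cb_add c2 (sp7_cb_const (K * (g₂ - g) * W))) (fun x => by
        have h2 := htilt _ _ _ _ hGτ hg hgg.le hg21 τ ⟨hτ.1, hτ.2.trans hWb⟩ x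
        have h3 : K * (g₂ - g) * τ ≤ K * (g₂ - g) * W :=
          mul_le_mul_of_nonneg_left hτ.2 (mul_nonneg hK0 hd0.le)
        have h4 := (abs_le.1 h2).2
        simp only [hφ, hφ₁]
        linarith)
    rwa [sp7_chn_add (gm n) r' (l + 1) hE1 (ex_ec hG1) c2 (sp7_cb_const _),
      sp7_chn_const (gm n) r' (l + 1) hE1 (ex_ec hG1)] at h1
  have hRc : ContinuousOn (fun τ => Rb n (gm n) r l (t + τ)) (Icc 0 W) :=
    hint₁.1.congr fun τ hτ => (hRb τ hτ).symm
  have hX0 : 0 ≤ X := by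
    rw [hX]
    refine intervalIntegral.integral_nonneg hV fun τ hτ => ?_
    have hτ' : 0 ≤ W - τ := by linarith [hτ.2]
    have hGτ := hF.step hg hg1 hτ'
    have h1 := sp7_chn_mono (gm n) r' (l + 1) hE1 (ex_ec hG1) (sp7_cb_const 0)
      (sp7_cb_tlt (ex_ec hGτ) (sp7_cb_sq (nest_cb1 hGτ)) g₂ τ) (fun x => (hφm τ x).1)
    rwa [sp7_chn_const (gm n) r' (l + 1) hE1 (ex_ec hG1)] at h1
  have hX1 : X ≤ W := by
    have h1 : X ≤ ∫ _τ in (0 : ℝ)..W, (1 : ℝ) := by
      rw [hX]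
      refine intervalIntegral.integral_mono_on hV (hint.1.intervalIntegrable_of_Icc hV)
        intervalIntegrable_const fun τ hτ => ?_
      have hτ' : 0 ≤ W - τ := by linarith [hτ.2]
      have hGτ := hF.step hg hg1 hτ'
      have h1 := sp7_chn_mono (gm n) r' (l + 1) hE1 (ex_ec hG1)
        (sp7_cb_tlt (ex_ec hGτ) (sp7_cb_sq (nest_cb1 hGτ)) g₂ τ) (sp7_cb_const 1)
        (fun x => (hφm τ x).2)
      rwa [sp7_chn_const (gm n) r' (l + 1) hE1 (ex_ec hG1)] at h1
    rwa [intervalIntegral.integral_const, smul_eq_mul, mul_one, sub_zero] at h1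
  have hX2 : X ≤ (∫ s in t..V, Rb n (gm n) r l s) + K * (g₂ - g) * W ^ 2 := by
    have h1 : X ≤ ∫ τ in (0 : ℝ)..W, (Rb n (gm n) r l (t + τ) + K * (g₂ - g) * W) := by
      rw [hX]
      refine intervalIntegral.integral_mono_on hV (hint.1.intervalIntegrable_of_Icc hV)
        ((hRc.intervalIntegrable_of_Icc hV).add intervalIntegrable_const) fun τ hτ => hle τ hτ
    rw [intervalIntegral.integral_add (hRc.intervalIntegrable_of_Icc hV) intervalIntegrable_const,
      intervalIntegral.integral_const, smul_eq_mul, sub_zero,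
      intervalIntegral.integral_comp_add_left (fun s => Rb n (gm n) r l s) t, add_zero] at h1
    have e1 : t + W = V := by rw [hWd]; ring
    rw [e1] at h1
    refine h1.trans (le_of_eq ?_)
    ring
  -- the inequality from the minimality
  have hexp : Real.exp (2 * η) ≤ 1 + Real.exp (b ^ 2) * ((g₂ - g) * W) := by
    have e1 : 2 * η = (g₂ - g) * W := by rw [hηd]; ring
    rw [e1]
    set u := (g₂ - g) * W with hu
    have hu0 : 0 ≤ u := mul_nonneg hd0.le hV
    have hu1 : u ≤ b ^ 2 := by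
      have h1 : g₂ - g ≤ 1 := by linarith
      calc u ≤ 1 * W := mul_le_mul_of_nonneg_right h1 hV
        _ ≤ b ^ 2 := by rw [one_mul]; exact hWb
    have h7 := Real.add_one_le_exp (-u)
    have h8 := Real.exp_pos u
    have h9 : Real.exp (-u) * Real.exp u = 1 := by rw [← Real.exp_add]; simp
    have h10 := mul_le_mul_of_nonneg_right h7 h8.le
    rw [h9] at h10
    have h11 : Real.exp u ≤ Real.exp (b ^ 2) := Real.exp_le_exp.2 hu1
    have h12 := mul_le_mul_of_nonneg_left h11 hu0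
    linarith
  have hmain : (g₂ - g) * ((r (l + 1) ^ 2 - (r l + t) ^ 2) / (4 * b ^ 2)) ≤
      Real.exp (2 * η) * (1 / 2 * (g₂ - g) * X) := by
    rw [hXe] at hchg
    have e2 : (∑ i ∈ Finset.range (n + 1), (gm n (i + 1) - gm n i) * r i ^ 2 +
        (g₂ - g) * ((r l + t) ^ 2 - r (l + 1) ^ 2)) / (4 * b ^ 2) =
        (∑ i ∈ Finset.range (n + 1), (gm n (i + 1) - gm n i) * r i ^ 2) / (4 * b ^ 2) -
          (g₂ - g) * ((r (l + 1) ^ 2 - (r l + t) ^ 2) / (4 * b ^ 2)) := by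
      ring
    rw [e2] at hmin
    linarith
  have hmain2 : (r (l + 1) ^ 2 - (r l + t) ^ 2) / (2 * b ^ 2) ≤ Real.exp (2 * η) * X := by
    have e3 : (g₂ - g) * ((r (l + 1) ^ 2 - (r l + t) ^ 2) / (4 * b ^ 2)) =
        (1 / 2 * (g₂ - g)) * ((r (l + 1) ^ 2 - (r l + t) ^ 2) / (2 * b ^ 2)) := by
      field_simp
      ring
    have e4 : Real.exp (2 * η) * (1 / 2 * (g₂ - g) * X) =
        (1 / 2 * (g₂ - g)) * (Real.exp (2 * η) * X) := by ring
    rw [e3, e4] at hmain
    exact le_of_mul_le_mul_left hmain (by linarith)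
  have hmain3 : Real.exp (2 * η) * X ≤ X + Real.exp (b ^ 2) * (g₂ - g) * W ^ 2 := by
    have h1 := mul_le_mul_of_nonneg_right hexp hX0
    have h2 : Real.exp (b ^ 2) * ((g₂ - g) * W) * X ≤ Real.exp (b ^ 2) * ((g₂ - g) * W) * W :=
      mul_le_mul_of_nonneg_left hX1
        (mul_nonneg (Real.exp_pos _).le (mul_nonneg hd0.le hV))
    have e1 : (1 + Real.exp (b ^ 2) * ((g₂ - g) * W)) * X =
        X + Real.exp (b ^ 2) * ((g₂ - g) * W) * X := by ring
    rw [e1] at h1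
    refine h1.trans ?_
    have e5 : Real.exp (b ^ 2) * ((g₂ - g) * W) * W = Real.exp (b ^ 2) * (g₂ - g) * W ^ 2 := by ring
    linarith
  have htV : t ≤ V := ht.2
  have hRi : IntervalIntegrable (fun s => Rb n (gm n) r l s) volume t V := by
    have h1 : ContinuousOn (fun s => Rb n (gm n) r l s) (Icc t V) := by
      have h2 := hRc.comp (f := fun s : ℝ => s - t) (s := Icc t V) (by fun_prop)
        (fun s hs => ⟨by linarith [hs.1], by rw [hWd]; linarith [hs.2]⟩)
      refine h2.congr fun s _ => ?_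
      simp only [Function.comp_def, add_sub_cancel]
    exact h1.intervalIntegrable_of_Icc htV
  have hlin : ∫ s in t..V, (r l + s) / b ^ 2 = (r (l + 1) ^ 2 - (r l + t) ^ 2) / (2 * b ^ 2) := by
    rw [intervalIntegral.integral_div, intervalIntegral.integral_add intervalIntegrable_const
      intervalIntegral.intervalIntegrable_id, intervalIntegral.integral_const, integral_id,
      smul_eq_mul]
    have e1 : r (l + 1) = V + r l := by rw [hVd]; ring
    rw [e1]
    field_simp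
    ring
  rw [intervalIntegral.integral_sub hRi
    (ContinuousOn.intervalIntegrable_of_Icc htV (by fun_prop)), hlin]
  rw [hδ] at hX2 hmain3
  have hN : (0 : ℝ) < 1 / ((n : ℝ) + 1) := by positivity
  have e6 : (1 + K + Real.exp (b ^ 2)) / ((n : ℝ) + 1) * W ^ 2 =
      1 / ((n : ℝ) + 1) * W ^ 2 + K * (1 / ((n : ℝ) + 1)) * W ^ 2 +
        Real.exp (b ^ 2) * (1 / ((n : ℝ) + 1)) * W ^ 2 := by ring
  rw [e6]
  have h20 : 0 ≤ 1 / ((n : ℝ) + 1) * W ^ 2 := by positivity
  linarith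

end Vale.Agent.P146.Lb
end
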