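import Mathlib
import Vale.Agent.P146.Bd3.B5
import Vale.Agent.P146.Bd3.B3
import Vale.Agent.P146.Bd3.B1
import Vale.Agent.P146.Bdl.B34
import Vale.Agent.P146.Bd3.B4
import Vale.Agent.P146.Bdl.B29
import Vale.Agent.P146.Bdl.B42

set_option linter.all false

section

/-!
# P146: lower bounds of the upper tail from two exponential moments
-/

open MeasureTheory ProbabilityTheory

namespace Vale.Agent.P146.Ld

variable {Ω : Type*} [MeasurableSpace Ω] {μ : Measure Ω} [IsProbabilityMeasure μ] {X : Ω → ℝ}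

/-- The normalized logarithmic moments increase. -/
theorem cor_mono (hX : ∀ x : ℝ, Integrable (fun ω => Real.exp (x * X ω)) μ) {x y : ℝ} (hx : 0 < x)
    (hxy : x ≤ y) : 1 / x * Real.log (∫ ω, Real.exp (x * X ω) ∂μ) ≤
      1 / y * Real.log (∫ ω, Real.exp (y * X ω) ∂μ) := by
  have hy : 0 < y := hx.trans_le hxy
  have hix := hX x
  have hiy := hX y
  have hpx : 0 < ∫ ω, Real.exp (x * X ω) ∂μ := integral_exp_pos hix
  have hpy : 0 < ∫ ω, Real.exp (y * X ω) ∂μ := integral_exp_pos hiy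
  set a := Real.log (∫ ω, Real.exp (y * X ω) ∂μ) with ha
  have hexpa : Real.exp a = ∫ ω, Real.exp (y * X ω) ∂μ := Real.exp_log hpy
  set w := x / y with hw
  have hw0 : 0 ≤ w := by positivity
  have hw1 : w ≤ 1 := (div_le_one hy).2 hxy
  have hpt : ∀ ω, Real.exp (x * X ω) ≤ Real.exp (w * a) * (w * Real.exp (-a) * Real.exp (y * X ω) +
      (1 - w)) := by
    intro g
    have h1 := convexOn_exp.2 (Set.mem_univ (y * X g - a)) (Set.mem_univ 0) hw0
      (sub_nonneg.2 hw1) (by ring)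
    simp only [smul_eq_mul, mul_zero, add_zero, Real.exp_zero, mul_one] at h1
    have h2 : Real.exp (x * X g) = Real.exp (w * a) * Real.exp (w * (y * X g - a)) := by
      rw [← Real.exp_add]
      congr 1
      rw [hw]
      field_simp
      ring
    have h3 : Real.exp (y * X g - a) = Real.exp (-a) * Real.exp (y * X g) := by
      rw [← Real.exp_add]
      congr 1
      ring
    rw [h2]
    refine mul_le_mul_of_nonneg_left ?_ (Real.exp_pos _).le
    rw [h3] at h1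
    linarith
  have h4 : ∫ ω, Real.exp (x * X ω) ∂μ ≤ Real.exp (w * a) := by
    have hi : Integrable (fun g => Real.exp (w * a) * (w * Real.exp (-a) * Real.exp (y * X g) +
        (1 - w))) μ := ((hiy.const_mul (w * Real.exp (-a))).add
      (integrable_const (1 - w))).const_mul (Real.exp (w * a))
    refine (integral_mono hix hi hpt).trans (le_of_eq ?_)
    rw [integral_const_mul, integral_add (hiy.const_mul _) (integrable_const _),
      integral_const_mul, ← hexpa, mul_assoc, ← Real.exp_add]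
    simp
  have h8 : Real.log (∫ ω, Real.exp (x * X ω) ∂μ) ≤ w * a :=
    (Real.log_le_iff_le_exp hpx).2 h4
  calc 1 / x * Real.log (∫ ω, Real.exp (x * X ω) ∂μ) ≤ 1 / x * (w * a) :=
        mul_le_mul_of_nonneg_left h8 (by positivity)
    _ = 1 / y * a := by
        rw [hw]
        field_simp

/-- A lower bound of the upper tail: `E exp (x X) ≥ u²`, `E exp (2 x X) ≤ exp (x T)`, the
threshold `S` with `exp (x S) ≤ u`, `u ≥ 2`. -/
theorem cor_tail (hm : Measurable X) (hX : ∀ x : ℝ, Integrable (fun ω => Real.exp (x * X ω)) μ)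
    {x S T u : ℝ} (hx : 0 < x) (hu : 2 ≤ u) (h1 : u ^ 2 ≤ ∫ ω, Real.exp (x * X ω) ∂μ)
    (h2 : ∫ ω, Real.exp (2 * x * X ω) ∂μ ≤ Real.exp (x * T)) (hS : Real.exp (x * S) ≤ u) :
    Real.exp (-(x * T)) ≤ μ.real {ω | S ≤ X ω} := by
  have hms : MeasurableSet {ω | S ≤ X ω} := measurableSet_le measurable_const hm
  have hpt : ∀ ω, Real.exp (x * X ω) ≤ Real.exp (x * S) +
      Real.exp (x * T) * ({ω | S ≤ X ω}.indicator 1 ω) +
        Real.exp (-(x * T)) * Real.exp (2 * x * X ω) := by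
    intro ω
    have p1 := Real.exp_pos (x * S)
    have p2 := Real.exp_pos (x * T)
    have p3 : 0 < Real.exp (-(x * T)) * Real.exp (2 * x * X ω) := by positivity
    by_cases hA : S ≤ X ω
    · rw [Set.indicator_of_mem (by exact hA)]
      simp only [Pi.one_apply, mul_one]
      by_cases hB : X ω ≤ T
      · have : Real.exp (x * X ω) ≤ Real.exp (x * T) :=
          Real.exp_le_exp.2 (mul_le_mul_of_nonneg_left hB hx.le)
        linarith
      · push Not at hB
        have : Real.exp (x * X ω) ≤ Real.exp (-(x * T)) * Real.exp (2 * x * X ω) := by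
          rw [← Real.exp_add]
          apply Real.exp_le_exp.2
          nlinarith
        linarith
    · rw [Set.indicator_of_notMem (by exact hA)]
      push Not at hA
      have : Real.exp (x * X ω) ≤ Real.exp (x * S) :=
        Real.exp_le_exp.2 (mul_le_mul_of_nonneg_left hA.le hx.le)
      simp only [mul_zero, add_zero]
      linarith
  have hi1 : Integrable (fun ω => Real.exp (x * T) * ({ω | S ≤ X ω}.indicator (1 : Ω → ℝ) ω)) μ :=
    ((integrable_const (1 : ℝ)).indicator hms).const_mul _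
  have hi2 : Integrable (fun ω => Real.exp (-(x * T)) * Real.exp (2 * x * X ω)) μ :=
    (hX (2 * x)).const_mul _
  have h3 : ∫ ω, Real.exp (x * X ω) ∂μ ≤ Real.exp (x * S) + Real.exp (x * T) *
      μ.real {ω | S ≤ X ω} + Real.exp (-(x * T)) * ∫ ω, Real.exp (2 * x * X ω) ∂μ := by
    refine (integral_mono (hX x) (((integrable_const _).add hi1).add hi2) hpt).trans
      (le_of_eq ?_)
    rw [integral_add' ((integrable_const _).add hi1) hi2, integral_add' (integrable_const _) hi1,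
      integral_const_mul, integral_const_mul, integral_indicator_one hms]
    simp
  have h4 : Real.exp (-(x * T)) * ∫ ω, Real.exp (2 * x * X ω) ∂μ ≤ 1 := by
    calc _ ≤ Real.exp (-(x * T)) * Real.exp (x * T) :=
          mul_le_mul_of_nonneg_left h2 (Real.exp_pos _).le
      _ = 1 := by rw [← Real.exp_add]; simp
  have h5 : 1 ≤ Real.exp (x * T) * μ.real {ω | S ≤ X ω} := by nlinarith
  calc Real.exp (-(x * T)) = Real.exp (-(x * T)) * 1 := (mul_one _).symm
    _ ≤ Real.exp (-(x * T)) * (Real.exp (x * T) * μ.real {ω | S ≤ X ω}) :=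
        mul_le_mul_of_nonneg_left h5 (Real.exp_pos _).le
    _ = μ.real {ω | S ≤ X ω} := by
        rw [← mul_assoc, ← Real.exp_add]; simp

end Vale.Agent.P146.Ld
end

section

/-!
# P146: the lower bound of the exponential moments for real `x`, and of the upper tail
-/

open MeasureTheory ProbabilityTheory Filter Topology

namespace Vale.Agent.P146.Ld

open Vale.Agent.P157.Par (Path Exponents)
open Vale.Agent.P146.Gap (SKpar SKr BPath)
open Vale.Agent.P146.Sk (PSK)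
open Vale.Agent.P146.Pw2 (gm)
open Vale.Agent.P146.Sx (vals pv)

/-- a point of the grid below `x` -/
theorem cor_pt {z x : ℝ} (hz : 2 ≤ z) (hx : 1 / z ^ 9 ≤ x) (hx2 : x ≤ 1 / 2) :
    ∃ K d : ℕ, 1 ≤ d ∧ d ≤ K ∧ ((K : ℝ) + 1) ≤ z ^ 100 ∧ z ^ 100 / 2 ≤ (K : ℝ) + 1 ∧
      x / 2 ≤ gm K d ∧ gm K d ≤ x := by
  have hz0 : 0 < z := by linarith
  have hz1 : 1 ≤ z := by linarith
  have hx0 : 0 < x := lt_of_lt_of_le (by positivity) hx
  obtain ⟨k, hk⟩ : ∃ k : ℕ, k = ⌊z ^ 100⌋₊ := ⟨_, rfl⟩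
  have hZ2 : 2 ≤ z ^ 100 := hz.trans (le_self_pow₀ hz1 (by norm_num))
  have hk1 : (k : ℝ) ≤ z ^ 100 := by rw [hk]; exact Nat.floor_le (by positivity)
  have hk2 : z ^ 100 / 2 ≤ k := by
    have := Nat.lt_floor_add_one (z ^ 100)
    rw [← hk] at this
    linarith
  have hk0 : 1 ≤ k := by
    have : (0 : ℝ) < k := by linarith
    exact_mod_cast this
  have hxk : 1 ≤ x * k := by
    have h1 : 1 / z ^ 9 * (z ^ 100 / 2) ≤ x * k :=
      mul_le_mul hx hk2 (by positivity) hx0.le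
    have h2 : 1 / z ^ 9 * (z ^ 100 / 2) = z ^ 91 / 2 := by field_simp
    have h3 : 2 ≤ z ^ 91 := hz.trans (le_self_pow₀ hz1 (by norm_num))
    rw [h2] at h1
    linarith
  obtain ⟨d, hd⟩ : ∃ d : ℕ, d = ⌊x * k⌋₊ := ⟨_, rfl⟩
  have hd1 : (d : ℝ) ≤ x * k := by rw [hd]; exact Nat.floor_le (by positivity)
  have hd0 : 1 ≤ d := by rw [hd]; exact Nat.le_floor (by exact_mod_cast hxk)
  have hd2 : x * k / 2 ≤ d := by
    have h1 := Nat.lt_floor_add_one (x * k)
    rw [← hd] at h1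
    have h2 : (1 : ℝ) ≤ d := by exact_mod_cast hd0
    linarith
  have hk0' : (0 : ℝ) < k := by exact_mod_cast hk0
  have hdk : d < k := by
    have : (d : ℝ) < k := by nlinarith
    exact_mod_cast this
  have hK : ((k - 1 : ℕ) : ℝ) + 1 = k := by
    rw [Nat.cast_sub hk0]; simp
  refine ⟨k - 1, d, hd0, by omega, by rw [hK]; exact hk1, by rw [hK]; exact hk2, ?_, ?_⟩
  · unfold gm
    rw [hK, div_le_div_iff₀ (by norm_num) hk0']
    linarith
  · unfold gm
    rw [hK, div_le_iff₀ hk0']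
    exact hd1

/-- **Lower bound of the exponential moments.** -/
theorem mom_low {β : ℝ} (hβ : 1 < β) (h : L1S β) : ∃ c x₀ : ℝ, 0 < c ∧ c ≤ 1 ∧ 0 < x₀ ∧
    x₀ ≤ 1 / 2 ∧ ∃ N : ℕ, ∀ n ≥ N, ∀ x : ℝ, (n : ℝ) ^ (-(1 / 200) : ℝ) ≤ x → x ≤ x₀ →
      x * (n * pv β) + c * n * x ^ 6 ≤
        Real.log (∫ g, Real.exp (x * freeEnergy n β g) ∂(disorder n)) := by
  obtain ⟨c, C, hc, hC, hgrid⟩ := cor_grid hβ h
  obtain ⟨M, hM⟩ : ∃ M : ℝ, M = 2 + 512 * C + 128 * C / c := ⟨_, rfl⟩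
  have hp : 0 < 128 * C / c := by positivity
  have ht : Tendsto (fun n : ℕ => (n : ℝ) ^ (1 / 1800 : ℝ)) atTop atTop :=
    (tendsto_rpow_atTop (by norm_num)).comp tendsto_natCast_atTop_atTop
  obtain ⟨N, hN⟩ := eventually_atTop.1 ((ht.eventually_ge_atTop M).and (eventually_ge_atTop 1))
  refine ⟨min (c / 64) 1, min (1 / 2) c, lt_min (by positivity) one_pos, min_le_right _ _,
    lt_min (by norm_num) hc, min_le_left _ _, N, fun n hn x hx hxx => ?_⟩
  obtain ⟨hzM, hn1⟩ := hN n hn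
  have hn0 : (0 : ℝ) < n := by exact_mod_cast (by omega : 0 < n)
  obtain ⟨z, hz⟩ : ∃ z : ℝ, z = (n : ℝ) ^ (1 / 1800 : ℝ) := ⟨_, rfl⟩
  rw [← hz] at hzM
  have hz2 : 2 ≤ z := by linarith
  have hz1 : 1 ≤ z := by linarith
  have hz0 : 0 < z := by linarith
  have hzn : z ^ 1800 = n := by
    rw [hz, ← Real.rpow_natCast, ← Real.rpow_mul hn0.le]
    norm_num
  have hz9 : (n : ℝ) ^ (-(1 / 200) : ℝ) = 1 / z ^ 9 := by
    have e : (1 / 1800 : ℝ) * ((9 : ℕ) : ℝ) = 1 / 200 := by norm_num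
    rw [Real.rpow_neg hn0.le, hz, ← Real.rpow_natCast, ← Real.rpow_mul hn0.le, e,
      ← one_div ((n : ℝ) ^ (1 / 200 : ℝ))]
  rw [hz9] at hx
  have hx2 : x ≤ 1 / 2 := hxx.trans (min_le_left _ _)
  have hxc : x ≤ c := hxx.trans (min_le_right _ _)
  have hx0 : 0 < x := lt_of_lt_of_le (by positivity) hx
  obtain ⟨K, d, hd1, hdK, hK1, hK2, hy1, hy2⟩ := cor_pt hz2 hx hx2
  obtain ⟨y, hy⟩ : ∃ y : ℝ, y = gm K d := ⟨_, rfl⟩
  have hg := hgrid K d hd1 hdK
  rw [← hy] at hg hy1 hy2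
  have hy0 : 0 < y := by linarith
  have hyz : 1 / (2 * z ^ 9) ≤ y := by
    have : 1 / (2 * z ^ 9) = (1 / z ^ 9) / 2 := by field_simp
    rw [this]
    linarith
  have hK0 : (0 : ℝ) < (K : ℝ) + 1 := by positivity
  -- the conditions of the grid
  have hcond : C ≤ y ^ 8 * (K + 1) := by
    have h1 : (1 / (2 * z ^ 9)) ^ 8 * (z ^ 100 / 2) ≤ y ^ 8 * (K + 1) :=
      mul_le_mul (pow_le_pow_left₀ (by positivity) hyz 8) hK2 (by positivity) (by positivity)
    have h2 : (1 / (2 * z ^ 9)) ^ 8 * (z ^ 100 / 2) = z ^ 28 / 512 := by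
      field_simp
      ring
    have h3 : z ≤ z ^ 28 := le_self_pow₀ hz1 (by norm_num)
    rw [h2] at h1
    linarith
  have hpow : (K + 1) ^ 18 ≤ n := by
    have h1 : ((K : ℝ) + 1) ^ 18 ≤ (z ^ 100) ^ 18 := pow_le_pow_left₀ hK0.le hK1 18
    have h2 : (z ^ 100) ^ 18 = n := by rw [← hzn, ← pow_mul]
    rw [h2] at h1
    exact_mod_cast h1
  have h1 := hg (hy2.trans hxc) hcond n hpow
  -- the error
  have herr : C * (n / √((K : ℝ) + 1)) ≤ c / 2 * n * y ^ 5 := by
    have h2 : z ^ 50 / 2 ≤ √((K : ℝ) + 1) := by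
      rw [Real.le_sqrt (by positivity) hK0.le]
      have h3 : (z ^ 50 / 2) ^ 2 = z ^ 100 / 4 := by ring
      have h4 : 0 < z ^ 100 := by positivity
      rw [h3]
      linarith
    have h3 : n / √((K : ℝ) + 1) ≤ n / (z ^ 50 / 2) :=
      div_le_div_of_nonneg_left hn0.le (by positivity) h2
    have h4 : C * (n / (z ^ 50 / 2)) ≤ c / 2 * n * (1 / (2 * z ^ 9)) ^ 5 := by
      have h5 : c / 2 * n * (1 / (2 * z ^ 9)) ^ 5 = n / z ^ 50 * (c * z ^ 5 / 64) := by
        field_simp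
        ring
      have h6 : C * (n / (z ^ 50 / 2)) = n / z ^ 50 * (2 * C) := by
        field_simp
      rw [h5, h6]
      refine mul_le_mul_of_nonneg_left ?_ (by positivity)
      have h7 : z ≤ z ^ 5 := le_self_pow₀ hz1 (by norm_num)
      have h8 : 128 * C / c ≤ z ^ 5 := by linarith
      rw [div_le_iff₀ hc] at h8
      linarith
    have h5 : c / 2 * n * (1 / (2 * z ^ 9)) ^ 5 ≤ c / 2 * n * y ^ 5 :=
      mul_le_mul_of_nonneg_left (pow_le_pow_left₀ (by positivity) hyz 5) (by positivity)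
    exact (mul_le_mul_of_nonneg_left h3 (by linarith)).trans (h4.trans h5)
  have hmono := cor_mono (μ := disorder n) (X := freeEnergy n β)
    (fun x => Sx.integrable_exp n β x) hy0 hy2
  have h2 : n * pv β + c / 2 * n * y ^ 5 ≤
      1 / x * Real.log (∫ g, Real.exp (x * freeEnergy n β g) ∂(disorder n)) := by
    have : c * n * y ^ 5 = c / 2 * n * y ^ 5 + c / 2 * n * y ^ 5 := by ring
    linarith
  have h3 : c / 64 * n * x ^ 5 ≤ c / 2 * n * y ^ 5 := by
    have h4 : (x / 2) ^ 5 ≤ y ^ 5 := pow_le_pow_left₀ (by positivity) hy1 5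
    have h5 : c / 64 * n * x ^ 5 = c / 2 * n * (x / 2) ^ 5 := by ring
    rw [h5]
    exact mul_le_mul_of_nonneg_left h4 (by positivity)
  have h4 : min (c / 64) 1 * n * x ^ 5 ≤ c / 64 * n * x ^ 5 := by
    gcongr
    exact min_le_left _ _
  have h5 : n * pv β + min (c / 64) 1 * n * x ^ 5 ≤
      1 / x * Real.log (∫ g, Real.exp (x * freeEnergy n β g) ∂(disorder n)) := by linarith
  have h6 := mul_le_mul_of_nonneg_left h5 hx0.le
  have h7 : x * (1 / x * Real.log (∫ g, Real.exp (x * freeEnergy n β g) ∂(disorder n))) =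
      Real.log (∫ g, Real.exp (x * freeEnergy n β g) ∂(disorder n)) := by
    field_simp
  rw [h7] at h6
  refine le_trans (le_of_eq ?_) h6
  ring

/-- **Lower bound of the upper tail.** -/
theorem tail_low {β : ℝ} (hβ : 1 < β) (h : L1S β) : ∃ A s₀ : ℝ, 0 < A ∧ 0 < s₀ ∧ ∃ N : ℕ,
    ∀ n ≥ N, ∀ s : ℝ, (n : ℝ) ^ (-(1 / 40) : ℝ) ≤ s → s ≤ s₀ →
      Real.exp (-(A * n * s ^ (6 / 5 : ℝ))) ≤
        (disorder n).real {g | n * (pv β + s) ≤ freeEnergy n β g} := by
  obtain ⟨c, x₀, hc, hc1, hx₀, hx₀2, N₁, hlow⟩ := mom_low hβ h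
  obtain ⟨C, hC, hup, -, -⟩ := Sx.moment hβ.le
  have ht : Tendsto (fun n : ℕ => (n : ℝ) ^ (97 / 100 : ℝ)) atTop atTop :=
    (tendsto_rpow_atTop (by norm_num)).comp tendsto_natCast_atTop_atTop
  obtain ⟨N₂, hN₂⟩ := eventually_atTop.1
    ((ht.eventually_ge_atTop (2 / c)).and (eventually_ge_atTop 1))
  refine ⟨64 * C * (2 / c) ^ (6 / 5 : ℝ), c / 2 * x₀ ^ 5, by positivity, by positivity,
    max N₁ N₂, fun n hn s hs hss => ?_⟩
  obtain ⟨hn97, hn1⟩ := hN₂ n ((le_max_right _ _).trans hn)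
  have hn0 : (0 : ℝ) < n := by exact_mod_cast (by omega : 0 < n)
  have hs0 : 0 < s := lt_of_lt_of_le (by positivity) hs
  have h2s : 0 < 2 / c * s := by positivity
  obtain ⟨x, hx⟩ : ∃ x : ℝ, x = (2 / c * s) ^ (1 / 5 : ℝ) := ⟨_, rfl⟩
  have hx0 : 0 < x := by rw [hx]; positivity
  have hx5 : x ^ 5 = 2 / c * s := by
    rw [hx, ← Real.rpow_natCast, ← Real.rpow_mul h2s.le]
    norm_num
  have hx6 : x ^ 6 = (2 / c) ^ (6 / 5 : ℝ) * s ^ (6 / 5 : ℝ) := by
    rw [hx, ← Real.rpow_natCast, ← Real.rpow_mul h2s.le, ← Real.mul_rpow (by positivity) hs0.le]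
    norm_num
  have hsx : s = c / 2 * x ^ 5 := by rw [hx5]; field_simp
  have hxx₀ : x ≤ x₀ := by
    have h1 : x ^ 5 ≤ x₀ ^ 5 := by
      rw [hsx] at hss
      exact le_of_mul_le_mul_left hss (by positivity)
    exact le_of_pow_le_pow_left₀ (by norm_num) hx₀.le h1
  have hxn : (n : ℝ) ^ (-(1 / 200) : ℝ) ≤ x := by
    have h1 : (n : ℝ) ^ (-(1 / 40) : ℝ) = ((n : ℝ) ^ (-(1 / 200) : ℝ)) ^ 5 := by
      rw [← Real.rpow_natCast, ← Real.rpow_mul hn0.le]
      norm_num
    have h2 : ((n : ℝ) ^ (-(1 / 200) : ℝ)) ^ 5 ≤ x ^ 5 := by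
      rw [← h1, hx5]
      refine hs.trans ?_
      have h3 : 1 ≤ 2 / c := by rw [le_div_iff₀ hc]; linarith
      nlinarith
    exact le_of_pow_le_pow_left₀ (by norm_num) hx0.le h2
  have h1 := hlow n ((le_max_left _ _).trans hn) x hxn hxx₀
  have h2 := hup n hn1 (2 * x) (by linarith) (by linarith)
  have hpos : ∀ y : ℝ, 0 < ∫ g, Real.exp (y * freeEnergy n β g) ∂(disorder n) := fun y =>
    integral_exp_pos (Sx.integrable_exp n β y)
  -- the centered variable
  have hcen : ∀ y : ℝ, ∫ g, Real.exp (y * (freeEnergy n β g - n * pv β)) ∂(disorder n) =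
      Real.exp (-(y * (n * pv β))) * ∫ g, Real.exp (y * freeEnergy n β g) ∂(disorder n) := by
    intro y
    rw [← integral_const_mul]
    congr 1
    funext g
    rw [← Real.exp_add]
    congr 1
    ring
  have hint : ∀ y : ℝ, Integrable (fun g => Real.exp (y * (freeEnergy n β g - n * pv β)))
      (disorder n) := by
    intro y
    have : (fun g => Real.exp (y * (freeEnergy n β g - n * pv β))) =
        fun g => Real.exp (-(y * (n * pv β))) * Real.exp (y * freeEnergy n β g) := by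
      funext g
      rw [← Real.exp_add]
      congr 1
      ring
    rw [this]
    exact (Sx.integrable_exp n β y).const_mul _
  obtain ⟨u, hu⟩ : ∃ u : ℝ, u = Real.exp (c / 2 * n * x ^ 6) := ⟨_, rfl⟩
  have hnx : 1 ≤ c / 2 * n * x ^ 6 := by
    have h3 : ((n : ℝ) ^ (-(1 / 200) : ℝ)) ^ 6 ≤ x ^ 6 := pow_le_pow_left₀ (by positivity) hxn 6
    have h4 : (n : ℝ) * ((n : ℝ) ^ (-(1 / 200) : ℝ)) ^ 6 = (n : ℝ) ^ (97 / 100 : ℝ) := by
      rw [← Real.rpow_natCast, ← Real.rpow_mul hn0.le]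
      nth_rw 1 [← Real.rpow_one (n : ℝ)]
      rw [← Real.rpow_add hn0]
      norm_num
    have h5 : (n : ℝ) ^ (97 / 100 : ℝ) ≤ n * x ^ 6 := by
      rw [← h4]
      exact mul_le_mul_of_nonneg_left h3 hn0.le
    have h6 : 2 / c ≤ n * x ^ 6 := hn97.trans h5
    rw [div_le_iff₀ hc] at h6
    linarith
  have hu2 : 2 ≤ u := by
    rw [hu]
    have h3 := Real.add_one_le_exp (c / 2 * n * x ^ 6)
    linarith
  have key := cor_tail (μ := disorder n) (X := fun g => freeEnergy n β g - n * pv β)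
    ((Ub.measurable_free β).sub_const _) hint (x := x) (S := n * s) (T := 64 * C * n * x ^ 5)
    (u := u) hx0 hu2 ?_ ?_ ?_
  · have e1 : {g | n * s ≤ freeEnergy n β g - n * pv β} =
        {g | n * (pv β + s) ≤ freeEnergy n β g} := by
      ext g
      simp only [Set.mem_ofPred_eq]
      constructor <;> intro hg <;> linarith
    rw [e1] at key
    refine le_trans (Real.exp_le_exp.2 (le_of_eq ?_)) key
    have e2 : x * (64 * C * n * x ^ 5) = 64 * C * n * x ^ 6 := by ring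
    rw [e2, hx6]
    ring
  · rw [hcen, hu, ← Real.exp_nat_mul]
    have h3 : Real.exp (x * (n * pv β) + c * n * x ^ 6) ≤
        ∫ g, Real.exp (x * freeEnergy n β g) ∂(disorder n) := by
      rwa [← Real.le_log_iff_exp_le (hpos x)]
    refine le_trans (le_of_eq ?_) (mul_le_mul_of_nonneg_left h3 (Real.exp_pos _).le)
    rw [← Real.exp_add]
    congr 1
    push_cast
    ring
  · rw [hcen]
    have h3 : ∫ g, Real.exp (2 * x * freeEnergy n β g) ∂(disorder n) ≤
        Real.exp (2 * x * (n * pv β) + C * n * (2 * x) ^ 6) := by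
      rwa [← Real.log_le_iff_le_exp (hpos _)]
    refine (mul_le_mul_of_nonneg_left h3 (Real.exp_pos _).le).trans (le_of_eq ?_)
    rw [← Real.exp_add]
    congr 1
    ring
  · rw [hu]
    apply Real.exp_le_exp.2
    rw [hsx]
    apply le_of_eq
    ring

end Vale.Agent.P146.Ld
end

section

/-!
# P146: the two-sided bounds of the upper tail, from the value with the first exponent bounded below
-/

open MeasureTheory ProbabilityTheory Filter Topology

namespace Vale.Agent.P146.Ld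

open Vale.Agent.P146.Sx (pv)

/-- The exponential moments and the upper tail of the free energy, with the exact exponents. -/
theorem two_sided {β : ℝ} (hβ : 1 < β) (h : L1S β) : ∃ C a A c x₀ : ℝ, 0 < a ∧ 0 < A ∧ 0 < c ∧
    0 < x₀ ∧ x₀ ≤ 1 ∧
    Tendsto (fun n : ℕ => (∫ g, freeEnergy n β g ∂(disorder n)) / n) atTop (𝓝 (pv β)) ∧
    (∀ n : ℕ, 1 ≤ n →
      (∀ x : ℝ, 0 < x → x ≤ 1 →
        ∫ g, Real.exp (x * (freeEnergy n β g - n * pv β)) ∂(disorder n) ≤
          Real.exp (C * n * x ^ 6)) ∧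
      (∀ t : ℝ, 0 ≤ t →
        (disorder n).real {g | n * pv β + t * (n : ℝ) ^ (1 / 6 : ℝ) ≤ freeEnergy n β g} ≤
          C * Real.exp (-t)) ∧
      (∀ s : ℝ, 0 ≤ s → s ≤ 1 →
        (disorder n).real {g | n * (pv β + s) ≤ freeEnergy n β g} ≤
          Real.exp (-(a * n * s ^ (6 / 5 : ℝ)))) ∧
      n * pv β - C * (n : ℝ) ^ (35 / 36 : ℝ) ≤ ∫ g, freeEnergy n β g ∂(disorder n) ∧
      ∫ g, freeEnergy n β g ∂(disorder n) ≤ n * pv β ∧
      Var[freeEnergy n β; disorder n] ≤ C * (n : ℝ) ^ (44 / 45 : ℝ) * (1 + Real.log n)) ∧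
    ∀ᶠ n : ℕ in atTop,
      (∀ x : ℝ, (n : ℝ) ^ (-(1 / 200) : ℝ) ≤ x → x ≤ x₀ → Real.exp (c * n * x ^ 6) ≤
        ∫ g, Real.exp (x * (freeEnergy n β g - n * pv β)) ∂(disorder n)) ∧
      (∀ s : ℝ, (n : ℝ) ^ (-(1 / 40) : ℝ) ≤ s → s ≤ x₀ →
        Real.exp (-(A * n * s ^ (6 / 5 : ℝ))) ≤
          (disorder n).real {g | n * (pv β + s) ≤ freeEnergy n β g}) := by
  obtain ⟨C₁, hC₁, hmom, hup, hlow⟩ := Sx.moment hβ.le
  obtain ⟨a, ha, hdev⟩ := Sx.tail_dev hC₁
  obtain ⟨C₂, hvar⟩ := Sx.var_upper5 hβ.le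
  obtain ⟨c, x₀, hc, hc1, hx₀, hx₀2, N₁, hl⟩ := mom_low hβ h
  obtain ⟨A, s₀, hA, hs₀, N₂, ht⟩ := tail_low hβ h
  have hexp : (1 : ℝ) ≤ Real.exp C₁ := Real.one_le_exp (by linarith)
  have hC₁e : C₁ ≤ Real.exp C₁ := by
    have := Real.add_one_le_exp C₁
    linarith
  have hcen : ∀ (n : ℕ) (x : ℝ), ∫ g, Real.exp (x * (freeEnergy n β g - n * pv β)) ∂(disorder n) =
      Real.exp (-(x * (n * pv β))) * ∫ g, Real.exp (x * freeEnergy n β g) ∂(disorder n) := by
    intro n x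
    rw [← integral_const_mul]
    congr 1
    funext g
    rw [← Real.exp_add]
    congr 1
    ring
  refine ⟨max (Real.exp C₁) C₂, a, A, c, min x₀ s₀, ha, hA, hc, lt_min hx₀ hs₀,
    (min_le_left _ _).trans (by linarith), Sx.tendsto_of hup hlow, fun n hn => ?_, ?_⟩
  · have hn1 : (1 : ℝ) ≤ n := by exact_mod_cast hn
    have hn0 : (0 : ℝ) < n := by linarith
    refine ⟨fun x hx hx1 => ?_, fun t _ => ?_, fun s hs hs1 => ?_, ?_, hup n hn, ?_⟩
    · have h1 := hmom n hn x hx hx1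
      have hpos : 0 < ∫ g, Real.exp (x * freeEnergy n β g) ∂(disorder n) :=
        mgf_pos (μ := disorder n) (X := freeEnergy n β) (Sx.integrable_exp n β x)
      rw [Real.log_le_iff_le_exp hpos] at h1
      rw [hcen]
      calc _ ≤ Real.exp (-(x * (n * pv β))) *
            Real.exp (x * (n * pv β) + C₁ * n * x ^ 6) :=
            mul_le_mul_of_nonneg_left h1 (Real.exp_pos _).le
        _ = Real.exp (C₁ * n * x ^ 6) := by rw [← Real.exp_add]; congr 1; ring
        _ ≤ _ := Real.exp_le_exp.2 (by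
            gcongr
            exact hC₁e.trans (le_max_left _ _))
    · refine (Sx.tail_one hn (hmom n hn)).trans ?_
      rw [sub_eq_add_neg, Real.exp_add]
      exact mul_le_mul_of_nonneg_right (le_max_left _ _) (Real.exp_pos _).le
    · exact hdev n β _ s hn (hmom n hn) hs hs1
    · have h1 := hlow n hn
      have h2 : C₁ * (n : ℝ) ^ (35 / 36 : ℝ) ≤ max (Real.exp C₁) C₂ * (n : ℝ) ^ (35 / 36 : ℝ) :=
        mul_le_mul_of_nonneg_right (hC₁e.trans (le_max_left _ _)) (by positivity)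
      linarith
    · refine (hvar n hn).trans ?_
      have h1 : 0 ≤ Real.log n := Real.log_nonneg hn1
      have h2 : 0 ≤ (n : ℝ) ^ (44 / 45 : ℝ) := by positivity
      gcongr
      exact le_max_right _ _
  · filter_upwards [eventually_ge_atTop (max N₁ N₂)] with n hn
    refine ⟨fun x hx hxx => ?_, fun s hs hss => ht n ((le_max_right _ _).trans hn) s hs
      (hss.trans (min_le_right _ _))⟩
    have h1 := hl n ((le_max_left _ _).trans hn) x hx (hxx.trans (min_le_left _ _))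
    have hpos : 0 < ∫ g, Real.exp (x * freeEnergy n β g) ∂(disorder n) :=
      mgf_pos (μ := disorder n) (X := freeEnergy n β) (Sx.integrable_exp n β x)
    rw [Real.le_log_iff_exp_le hpos] at h1
    rw [hcen]
    refine le_trans (le_of_eq ?_) (mul_le_mul_of_nonneg_left h1 (Real.exp_pos _).le)
    rw [← Real.exp_add]
    congr 1
    ring

end Vale.Agent.P146.Ld
end

section

/-!
# P367, classical half, full RSB: one real variable (FReal)
-/

open MeasureTheory Filter Topology Set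

namespace Vale.Agent.P367.Cl

/-- a function with a zero and derivative bounded by `C` on `(0, V)` is bounded by `C V` -/
theorem freal_lip {C V : ℝ} {k k1 : ℝ → ℝ} (hk : ContinuousOn k (Icc 0 V))
    (h2 : ∀ t ∈ Ioo 0 V, HasDerivAt k (k1 t) t) (h3 : ∀ t ∈ Ioo 0 V, |k1 t| ≤ C) (hC : 0 ≤ C)
    {c : ℝ} (hc : c ∈ Icc 0 V) (hkc : k c = 0) {t : ℝ} (ht : t ∈ Icc 0 V) : |k t| ≤ C * V := by
  rcases lt_trichotomy t c with h | h | h
  · obtain ⟨x, hx, hxe⟩ := exists_hasDerivAt_eq_slope k k1 h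
      (hk.mono (Icc_subset_Icc ht.1 hc.2)) (fun x hx => h2 x ⟨lt_of_le_of_lt ht.1 hx.1,
        lt_of_lt_of_le hx.2 hc.2⟩)
    have hx' := h3 x ⟨lt_of_le_of_lt ht.1 hx.1, lt_of_lt_of_le hx.2 hc.2⟩
    have hct : 0 < c - t := by linarith
    have e : k t = -(k1 x * (c - t)) := by
      rw [hxe, hkc]; field_simp; ring
    rw [e, abs_neg, abs_mul, abs_of_pos hct]
    have : c - t ≤ V := by linarith [hc.2, ht.1]
    calc |k1 x| * (c - t) ≤ C * (c - t) := mul_le_mul_of_nonneg_right hx' hct.le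
      _ ≤ C * V := mul_le_mul_of_nonneg_left this hC
  · rw [h, hkc, abs_zero]
    exact mul_nonneg hC (le_trans hc.1 hc.2)
  · obtain ⟨x, hx, hxe⟩ := exists_hasDerivAt_eq_slope k k1 h
      (hk.mono (Icc_subset_Icc hc.1 ht.2)) (fun x hx => h2 x ⟨lt_of_le_of_lt hc.1 hx.1,
        lt_of_lt_of_le hx.2 ht.2⟩)
    have hx' := h3 x ⟨lt_of_le_of_lt hc.1 hx.1, lt_of_lt_of_le hx.2 ht.2⟩
    have hct : 0 < t - c := by linarith
    have e : k t = k1 x * (t - c) := by
      rw [hxe, hkc]; field_simp; ring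
    rw [e, abs_mul, abs_of_pos hct]
    have : t - c ≤ V := by linarith [hc.1, ht.2]
    calc |k1 x| * (t - c) ≤ C * (t - c) := mul_le_mul_of_nonneg_right hx' hct.le
      _ ≤ C * V := mul_le_mul_of_nonneg_left this hC

theorem freal_sq {x k' : ℝ} {f : ℝ → ℝ} (h : HasDerivAt f k' x) :
    HasDerivAt (fun s => f s ^ 2) (2 * (f x * k')) x := by
  have h0 := (h.fun_pow 2).congr_deriv (g' := 2 * (f x * k')) (by push_cast; ring)
  exact h0

theorem freal_up {a b M : ℝ} {f k : ℝ → ℝ} (hab : a ≤ b) (hf : ContinuousOn f (Icc a b))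
    (hk : ContinuousOn k (Icc a b)) (h1 : ∀ t ∈ Ioo a b, HasDerivAt f (k t) t)
    (hk0 : ∀ t ∈ Ioo a b, 0 ≤ k t) (hkM : ∀ t ∈ Icc a b, k t ≤ M) (hfa : f a = 0) :
    0 ≤ f b ∧ f b ^ 2 ≤ 2 * M * ∫ s in a..b, f s := by
  have hmono : MonotoneOn f (Icc a b) := by
    refine monotoneOn_of_hasDerivWithinAt_nonneg (convex_Icc a b) hf (f' := k) ?_ ?_
    · intro x hx; rw [interior_Icc] at hx ⊢; exact (h1 x hx).hasDerivWithinAt
    · intro x hx; rw [interior_Icc] at hx; exact hk0 x hx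
  have hfn : ∀ t ∈ Icc a b, 0 ≤ f t := fun t ht => by
    rw [← hfa]; exact hmono (left_mem_Icc.2 hab) ht ht.1
  refine ⟨hfn b (right_mem_Icc.2 hab), ?_⟩
  have hint : IntervalIntegrable (fun s => 2 * (f s * k s)) volume a b :=
    ((hf.mul hk).const_smul (2 : ℝ)).intervalIntegrable_of_Icc hab
  have h := intervalIntegral.integral_eq_sub_of_hasDerivAt_of_le hab (f := fun s => f s ^ 2)
    (f' := fun s => 2 * (f s * k s)) (hf.pow 2)
    (fun x hx => freal_sq (h1 x hx)) hint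
  have h' : f b ^ 2 = ∫ s in a..b, 2 * (f s * k s) := by
    rw [h, hfa]; ring
  rw [h', ← intervalIntegral.integral_const_mul]
  refine intervalIntegral.integral_mono_on hab hint
    ((hf.const_smul (2 * M)).intervalIntegrable_of_Icc hab) ?_
  intro x hx
  have := mul_le_mul_of_nonneg_left (hkM x hx) (hfn x hx)
  nlinarith

theorem freal_down {a b M : ℝ} {f k : ℝ → ℝ} (hab : a ≤ b) (hf : ContinuousOn f (Icc a b))
    (hk : ContinuousOn k (Icc a b)) (h1 : ∀ t ∈ Ioo a b, HasDerivAt f (k t) t)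
    (hk0 : ∀ t ∈ Ioo a b, 0 ≤ k t) (hkM : ∀ t ∈ Icc a b, k t ≤ M) (hfb : f b = 0) :
    f a ≤ 0 ∧ f a ^ 2 ≤ 2 * M * -∫ s in a..b, f s := by
  have hmono : MonotoneOn f (Icc a b) := by
    refine monotoneOn_of_hasDerivWithinAt_nonneg (convex_Icc a b) hf (f' := k) ?_ ?_
    · intro x hx; rw [interior_Icc] at hx ⊢; exact (h1 x hx).hasDerivWithinAt
    · intro x hx; rw [interior_Icc] at hx; exact hk0 x hx
  have hfn : ∀ t ∈ Icc a b, f t ≤ 0 := fun t ht => by
    rw [← hfb]; exact hmono ht (right_mem_Icc.2 hab) ht.2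
  refine ⟨hfn a (left_mem_Icc.2 hab), ?_⟩
  have hint : IntervalIntegrable (fun s => 2 * (f s * k s)) volume a b :=
    ((hf.mul hk).const_smul (2 : ℝ)).intervalIntegrable_of_Icc hab
  have h := intervalIntegral.integral_eq_sub_of_hasDerivAt_of_le hab (f := fun s => f s ^ 2)
    (f' := fun s => 2 * (f s * k s)) (hf.pow 2)
    (fun x hx => freal_sq (h1 x hx)) hint
  have h' : f a ^ 2 = -∫ s in a..b, 2 * (f s * k s) := by
    rw [h, hfb]; ring
  rw [h']
  have h2 : 2 * M * -∫ s in a..b, f s = -∫ s in a..b, 2 * M * f s := by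
    rw [intervalIntegral.integral_const_mul]; ring
  rw [h2, neg_le_neg_iff]
  refine intervalIntegral.integral_mono_on hab
    ((hf.const_smul (2 * M)).intervalIntegrable_of_Icc hab) hint ?_
  intro x hx
  have := mul_le_mul_of_nonpos_left (hkM x hx) (hfn x hx)
  nlinarith

/-- the sublevel set of a convex function with a zero -/
theorem freal_sign {V : ℝ} {k : ℝ → ℝ} (hk : ContinuousOn k (Icc 0 V))
    (hc : ConvexOn ℝ (Icc 0 V) k) {c : ℝ} (hcm : c ∈ Icc 0 V) (hkc : k c = 0) :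
    ∃ α β, 0 ≤ α ∧ α ≤ β ∧ β ≤ V ∧ (∀ t ∈ Ioo 0 α, 0 ≤ k t) ∧ (∀ t ∈ Icc α β, k t ≤ 0) ∧
      (∀ t ∈ Ioo β V, 0 ≤ k t) := by
  set P : Set ℝ := Icc 0 V ∩ k ⁻¹' Iic 0 with hP
  have hPc : IsClosed P := hk.preimage_isClosed_of_isClosed isClosed_Icc isClosed_Iic
  have hPk : IsCompact P := isCompact_Icc.of_isClosed_subset hPc inter_subset_left
  have hne : P.Nonempty := ⟨c, hcm, by simp [hkc]⟩
  have hα := hPk.sInf_mem hne
  have hβ := hPk.sSup_mem hne
  have hle : sInf P ≤ sSup P := Real.sInf_le_sSup P hPk.bddBelow hPk.bddAbove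
  refine ⟨sInf P, sSup P, hα.1.1, hle, hβ.1.2, ?_, ?_, ?_⟩
  · intro t ht
    by_contra hn
    push Not at hn
    have : t ∈ P := ⟨⟨ht.1.le, (ht.2.le.trans hle).trans hβ.1.2⟩, hn.le⟩
    exact absurd (csInf_le hPk.bddBelow this) (not_le.2 ht.2)
  · intro t ht
    have h := hc.le_max_of_mem_Icc hα.1 hβ.1 ht
    exact h.trans (max_le hα.2 hβ.2)
  · intro t ht
    by_contra hn
    push Not at hn
    have : t ∈ P := ⟨⟨(hα.1.1.trans hle).trans ht.1.le, ht.2.le⟩, hn.le⟩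
    exact absurd (le_csSup hPk.bddAbove this) (not_le.2 ht.1)

theorem real_block {C S : ℝ} (hC : 1 ≤ C) (hS : 0 < S) : ∃ C' : ℝ, 1 ≤ C' ∧
    ∀ (V d : ℝ) (f k k1 k2 : ℝ → ℝ), 0 < V → V ≤ S → 0 ≤ d → d ≤ 1 →
      ContinuousOn f (Icc 0 V) → ContinuousOn k (Icc 0 V) →
      (∀ t ∈ Ioo 0 V, HasDerivAt f (k t) t) → (∀ t ∈ Ioo 0 V, HasDerivAt k (k1 t) t) →
      (∀ t ∈ Ioo 0 V, HasDerivAt k1 (k2 t) t) → (∀ t ∈ Ioo 0 V, 0 ≤ k2 t) →
      (∀ t ∈ Ioo 0 V, |k1 t| ≤ C) → f 0 = 0 → f V = 0 →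
      (∀ t ∈ Icc 0 V, ∫ s in (0 : ℝ)..t, f s ≤ C * d * V ^ 2) →
      (∀ t ∈ Icc 0 V, -(C * d * V ^ 2) ≤ ∫ s in t..V, f s) →
      ∫ t in (0 : ℝ)..V, |k t| ≤ C' * √d * V := by
  refine ⟨1 + 4 * (C * √(2 * S)), by nlinarith [Real.sqrt_nonneg (2 * S)], ?_⟩
  intro V d f k k1 k2 hV hVS hd hd1 hf hk hfk hkk1 hk12 hk2 hk1C hf0 hfV hup hdn
  obtain ⟨c, hcm, hkc⟩ := exists_hasDerivAt_eq_zero hV hf (by rw [hf0, hfV]) hfk
  have hcm' : c ∈ Icc 0 V := ⟨hcm.1.le, hcm.2.le⟩
  have hC0 : 0 ≤ C := by linarith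
  have hkb : ∀ t ∈ Icc 0 V, |k t| ≤ C * V := fun t ht => freal_lip hk hkk1 hk1C hC0 hcm' hkc ht
  have hconv : ConvexOn ℝ (Icc 0 V) k := by
    refine convexOn_of_hasDerivWithinAt2_nonneg (convex_Icc 0 V) hk (f' := k1) (f'' := k2) ?_ ?_ ?_
    · intro x hx; rw [interior_Icc] at hx ⊢; exact (hkk1 x hx).hasDerivWithinAt
    · intro x hx; rw [interior_Icc] at hx ⊢; exact (hk12 x hx).hasDerivWithinAt
    · intro x hx; rw [interior_Icc] at hx; exact hk2 x hx
  obtain ⟨α, β, hα0, hαβ, hβV, hs1, hs2, hs3⟩ := freal_sign hk hconv hcm' hkc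
  have hαm : α ∈ Icc 0 V := ⟨hα0, hαβ.trans hβV⟩
  have hβm : β ∈ Icc 0 V := ⟨hα0.trans hαβ, hβV⟩
  have sub1 : Icc 0 α ⊆ Icc 0 V := Icc_subset_Icc le_rfl hαm.2
  have sub2 : Icc α β ⊆ Icc 0 V := Icc_subset_Icc hα0 hβV
  have sub3 : Icc β V ⊆ Icc 0 V := Icc_subset_Icc hβm.1 le_rfl
  obtain ⟨hfα, hfα2⟩ := freal_up (M := C * V) hα0 (hf.mono sub1) (hk.mono sub1)
    (fun t ht => hfk t ⟨ht.1, lt_of_lt_of_le ht.2 hαm.2⟩) hs1
    (fun t ht => (le_abs_self _).trans (hkb t (sub1 ht))) hf0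
  obtain ⟨hfβ, hfβ2⟩ := freal_down (M := C * V) hβV (hf.mono sub3) (hk.mono sub3)
    (fun t ht => hfk t ⟨lt_of_le_of_lt hβm.1 ht.1, ht.2⟩) hs3
    (fun t ht => (le_abs_self _).trans (hkb t (sub3 ht))) hfV
  -- the two bounds
  set E : ℝ := C * √(2 * S) * √d * V with hE
  have hE0 : 0 ≤ E := by positivity
  have hE2 : 2 * (C * V) * (C * d * V ^ 2) ≤ E ^ 2 := by
    have e1 : E ^ 2 = C ^ 2 * (2 * S) * d * V ^ 2 := by
      rw [hE, mul_pow, mul_pow, mul_pow, Real.sq_sqrt (by positivity), Real.sq_sqrt hd]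
    rw [e1]
    have : 2 * (C * V) * (C * d * V ^ 2) = C ^ 2 * (2 * V) * d * V ^ 2 := by ring
    rw [this]
    have : C ^ 2 * (2 * V) ≤ C ^ 2 * (2 * S) := by nlinarith [sq_nonneg C]
    exact mul_le_mul_of_nonneg_right (mul_le_mul_of_nonneg_right this hd) (by positivity)
  have hCV : 0 ≤ 2 * (C * V) := by positivity
  have b1 : f α ≤ E := by
    have : f α ^ 2 ≤ E ^ 2 := hfα2.trans ((mul_le_mul_of_nonneg_left (hup α hαm) hCV).trans hE2)
    exact le_of_sq_le_sq this hE0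
  have b2 : -f β ≤ E := by
    have h1 : -∫ s in β..V, f s ≤ C * d * V ^ 2 := by linarith [hdn β hβm]
    have : (-f β) ^ 2 ≤ E ^ 2 := by
      rw [neg_sq]
      exact hfβ2.trans ((mul_le_mul_of_nonneg_left h1 hCV).trans hE2)
    exact le_of_sq_le_sq this hE0
  -- the integral of |k|
  have ha : ContinuousOn (fun t => |k t|) (Icc 0 V) := hk.abs
  have i1 : ∫ t in (0 : ℝ)..α, |k t| ≤ f α - f 0 := by
    rw [← intervalIntegral.integral_eq_sub_of_hasDerivAt_of_le hα0 (hf.mono sub1)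
      (fun t ht => hfk t ⟨ht.1, lt_of_lt_of_le ht.2 hαm.2⟩)
      ((hk.mono sub1).intervalIntegrable_of_Icc hα0)]
    refine intervalIntegral.integral_mono_on_of_le_Ioo hα0
      ((ha.mono sub1).intervalIntegrable_of_Icc hα0)
      ((hk.mono sub1).intervalIntegrable_of_Icc hα0) ?_
    intro x hx
    exact (abs_of_nonneg (hs1 x hx)).le
  have i2 : ∫ t in α..β, |k t| ≤ f α - f β := by
    have h := intervalIntegral.integral_eq_sub_of_hasDerivAt_of_le hαβ (hf.mono sub2)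
      (fun t ht => hfk t ⟨lt_of_le_of_lt hα0 ht.1, lt_of_lt_of_le ht.2 hβV⟩)
      ((hk.mono sub2).intervalIntegrable_of_Icc hαβ)
    have h' : f α - f β = ∫ t in α..β, -k t := by
      rw [intervalIntegral.integral_neg, h]; ring
    rw [h']
    refine intervalIntegral.integral_mono_on hαβ
      ((ha.mono sub2).intervalIntegrable_of_Icc hαβ)
      ((hk.mono sub2).neg.intervalIntegrable_of_Icc hαβ) ?_
    intro x hx
    exact (abs_of_nonpos (hs2 x hx)).le
  have i3 : ∫ t in β..V, |k t| ≤ f V - f β := by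
    rw [← intervalIntegral.integral_eq_sub_of_hasDerivAt_of_le hβV (hf.mono sub3)
      (fun t ht => hfk t ⟨lt_of_le_of_lt hβm.1 ht.1, ht.2⟩)
      ((hk.mono sub3).intervalIntegrable_of_Icc hβV)]
    refine intervalIntegral.integral_mono_on_of_le_Ioo hβV
      ((ha.mono sub3).intervalIntegrable_of_Icc hβV)
      ((hk.mono sub3).intervalIntegrable_of_Icc hβV) ?_
    intro x hx
    exact (abs_of_nonneg (hs3 x hx)).le
  have s1 : ∫ t in (0 : ℝ)..V, |k t| =
      (∫ t in (0 : ℝ)..α, |k t|) + (∫ t in α..β, |k t|) + ∫ t in β..V, |k t| := by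
    rw [intervalIntegral.integral_add_adjacent_intervals
      ((ha.mono sub1).intervalIntegrable_of_Icc hα0)
      ((ha.mono sub2).intervalIntegrable_of_Icc hαβ),
      intervalIntegral.integral_add_adjacent_intervals
      ((ha.mono (Icc_subset_Icc le_rfl hβV)).intervalIntegrable_of_Icc (hα0.trans hαβ))
      ((ha.mono sub3).intervalIntegrable_of_Icc hβV)]
  rw [s1]
  have hsd : 0 ≤ √d * V := by positivity
  have : (1 + 4 * (C * √(2 * S))) * √d * V = √d * V + 4 * E := by rw [hE]; ring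
  rw [this]
  rw [hf0] at i1
  rw [hfV] at i3
  linarith

/-- for the first block, instead of the first variation -/
theorem real_first {V d : ℝ} {f k k1 : ℝ → ℝ} (hV : 0 < V) (hd : 0 ≤ d)
    (hf : ContinuousOn f (Icc 0 V)) (hk : ContinuousOn k (Icc 0 V))
    (h1 : ∀ t ∈ Ioo 0 V, HasDerivAt f (k t) t) (h2 : ∀ t ∈ Ioo 0 V, HasDerivAt k (k1 t) t)
    (h3 : ∀ t ∈ Ioo 0 V, -(2 * d) ≤ k1 t) (hf0 : f 0 = 0) (hfV : f V = 0) :
    ∀ t ∈ Icc 0 V, ∫ s in (0 : ℝ)..t, f s ≤ 2 * d * V ^ 3 := by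
  have hconv : ConvexOn ℝ (Icc 0 V) (fun t => f t - d * (t * (V - t))) := by
    refine convexOn_of_hasDerivWithinAt2_nonneg (convex_Icc 0 V) (by fun_prop)
      (f' := fun t => k t - d * (V - 2 * t)) (f'' := fun t => k1 t + 2 * d) ?_ ?_ ?_
    · intro x hx; rw [interior_Icc] at hx ⊢
      have e0 : HasDerivAt (fun t : ℝ => t * (V - t)) (1 * (V - x) + x * (-1)) x :=
        (hasDerivAt_id' x).mul ((hasDerivAt_id' x).const_sub V)
      exact (((h1 x hx).sub (e0.const_mul d)).congr_deriv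
        (g' := k x - d * (V - 2 * x)) (by ring)).hasDerivWithinAt
    · intro x hx; rw [interior_Icc] at hx ⊢
      have e0 : HasDerivAt (fun t : ℝ => V - 2 * t) (-(2 * 1)) x :=
        ((hasDerivAt_id' x).const_mul 2).const_sub V
      exact (((h2 x hx).sub (e0.const_mul d)).congr_deriv
        (g' := k1 x + 2 * d) (by ring)).hasDerivWithinAt
    · intro x hx; rw [interior_Icc] at hx
      have := h3 x hx
      show 0 ≤ k1 x + 2 * d
      linarith
  have hfb : ∀ t ∈ Icc 0 V, f t ≤ d * V ^ 2 := by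
    intro t ht
    have h := hconv.le_max_of_mem_Icc (left_mem_Icc.2 hV.le) (right_mem_Icc.2 hV.le) ht
    simp only [hf0, hfV] at h
    norm_num at h
    have e : d * (t * (V - t)) ≤ d * V ^ 2 := by
      refine mul_le_mul_of_nonneg_left ?_ hd
      nlinarith [ht.1, ht.2]
    linarith
  intro t ht
  have sub : Icc 0 t ⊆ Icc 0 V := Icc_subset_Icc le_rfl ht.2
  calc ∫ s in (0 : ℝ)..t, f s ≤ ∫ _s in (0 : ℝ)..t, d * V ^ 2 :=
        intervalIntegral.integral_mono_on ht.1 ((hf.mono sub).intervalIntegrable_of_Icc ht.1)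
          (continuousOn_const.intervalIntegrable_of_Icc ht.1) (fun x hx => hfb x (sub hx))
    _ = t * (d * V ^ 2) := by rw [intervalIntegral.integral_const, sub_zero, smul_eq_mul]
    _ ≤ V * (d * V ^ 2) := mul_le_mul_of_nonneg_right ht.2 (by positivity)
    _ ≤ 2 * d * V ^ 3 := by nlinarith [mul_nonneg hd (pow_pos hV 3).le]

end Vale.Agent.P367.Cl
end

section

/-!
# P367, classical half, section SUM: full replica symmetry breaking
-/

open MeasureTheory ProbabilityTheory Filter Topology Set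

namespace Vale.Agent.P367.Cl

open Vale.Agent.P157.Par
open Vale.Agent.P146.Gap
open Vale.Agent.P146.Pw2

theorem sumHyp {b : ℝ} (hb : 1 < b) : SumHyp b where
  m2 := fun _ _ _ _ _ hm hr h0 hl ht hrt => M2b_nonneg hm hr h0 hl ht hrt
  rd := fun _ _ _ _ _ hm hr hl ht => Rb_deriv hm hr hl ht
  md := fun _ _ _ _ _ hm hr hl ht => Mb_deriv hm hr hl ht
  m1d := fun _ _ _ _ _ hm hr hl ht => M1b_deriv hm hr hl ht
  rc := fun _ _ _ _ hm hr hl => Rb_cont hm hr hl
  mc := fun _ _ _ _ hm hr hl => Mb_cont hm hr hl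
  r0 := fun _ _ _ _ hm hr hl => Rb_zero hm hr hl
  rv := fun _ _ _ _ hm hr hl => Rb_last hm hr hl
  m0 := fun _ _ _ _ hm hr hl => Mb_zero hm hr hl
  mv := fun _ _ _ _ hm hr hl => Mb_last hm hr hl
  low := fun _ _ _ _ _ hm hr hl ht => M1b_low hm hr hl ht
  bd := M1b_bd b
  up := var_up hb
  down := var_down hb
  block := fun hC hS => real_block hC hS
  first := fun hV hd hf hk h1 h2 h3 hf0 hfV => real_first hV hd hf hk h1 h2 h3 hf0 hfV

theorem full_rsb {b : ℝ} (hb : 1 < b) : ∃ C : ℝ, 1 ≤ C ∧ ∀ (n : ℕ) (r : ℕ → ℝ),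
    IsMin b n (gm n) r → ∑ l ∈ Finset.range n, ∫ t in (0 : ℝ)..(r (l + 1) - r l),
      |Mb n (gm n) r l t - 1 / b ^ 2| ≤ C / √((n : ℝ) + 1) :=
  full_rsb_of hb (sumHyp hb)

/-- the last level: `Ml n ≤ 1/b² + small` (`Mb` is Lipschitz and `r n` is bounded below) -/
theorem last_level {b : ℝ} (hb : 1 < b) : ∃ C : ℝ, 1 ≤ C ∧ ∀ (n : ℕ) (r : ℕ → ℝ),
    C ≤ (n : ℝ) → IsMin b n (gm n) r →
      (b ^ 2 - r n) ^ 2 / b ^ 2 ≤ 1 + C / (((n : ℝ) + 1) ^ (1 / 4 : ℝ)) :=
  last_level_of hb (sumHyp hb)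

end Vale.Agent.P367.Cl
end

section

/-!
# P146, L1: minimisers over the paths which vanish below a level: existence and stationarity
-/

open MeasureTheory ProbabilityTheory Filter Topology Set

namespace Vale.Agent.P146.Lb

open Vale.Agent.P157.Par
open Vale.Agent.P146.Gap
open Vale.Agent.P146.Pw2
open Vale.Agent.P367.Cl

/-- existence of a minimiser -/
theorem exists_minD {b : ℝ} (hb : 0 < b) {n d : ℕ} (hd : d ≤ n) : ∃ r, IsMinD b n d r := by
  have hm := gm_exponents n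
  obtain ⟨emono, e0, e1⟩ := minb_exp hm
  set X : Set (Fin (n + 1) → ℝ) := {x | BPath b n (minbFin n x) ∧ ∀ l < d, minbFin n x l = 0}
    with hX
  have hclosed : IsClosed X := by
    have h1 : X = ({x | minbFin n x 0 = 0} ∩ ({x | 0 ≤ minbFin n x 0} ∩
        (⋂ l : ℕ, ⋂ _ : l < n, {x | minbFin n x l ≤ minbFin n x (l + 1)})) ∩
        {x | minbFin n x n ≤ b ^ 2}) ∩ (⋂ l : ℕ, ⋂ _ : l < d, {x | minbFin n x l = 0}) := by
      ext x
      simp only [hX, BPath, Vale.Agent.P157.Par.Path, Set.mem_ofPred_eq, mem_inter_iff, mem_iInter]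
      tauto
    rw [h1]
    refine IsClosed.inter (IsClosed.inter (IsClosed.inter ?_ (IsClosed.inter ?_ ?_)) ?_) ?_
    · exact isClosed_eq (minb_fin_cont n 0) continuous_const
    · exact isClosed_le continuous_const (minb_fin_cont n 0)
    · exact isClosed_iInter fun l => isClosed_iInter fun _ =>
        isClosed_le (minb_fin_cont n l) (minb_fin_cont n (l + 1))
    · exact isClosed_le (minb_fin_cont n n) continuous_const
    · exact isClosed_iInter fun l => isClosed_iInter fun _ =>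
        isClosed_eq (minb_fin_cont n l) continuous_const
  have hsub : X ⊆ Icc (fun _ => 0) (fun _ => b ^ 2) := by
    intro x hx
    obtain ⟨⟨h0, ⟨-, h1⟩, h2⟩, -⟩ := hx
    have key : ∀ i : Fin (n + 1), minbFin n x i = x i := fun i => by
      unfold minbFin; rw [dif_pos i.2]
    constructor
    · intro i
      have := minb_mono h1 (Nat.zero_le i) (by omega)
      rw [h0, key i] at this
      exact this
    · intro i
      have := minb_mono h1 (i := i) (j := n) (by omega) le_rfl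
      rw [key i] at this
      exact this.trans h2
  have hcomp : IsCompact X := (isCompact_Icc).of_isClosed_subset hclosed hsub
  have hne : X.Nonempty := by
    refine ⟨fun _ => 0, ?_⟩
    have : minbFin n (fun _ => 0) = fun _ => 0 := by
      funext l; unfold minbFin; split_ifs <;> rfl
    rw [hX, Set.mem_ofPred_eq, this]
    exact ⟨⟨rfl, ⟨le_rfl, fun _ _ => le_rfl⟩, by positivity⟩, fun _ _ => rfl⟩
  have hlip : LipschitzOnWith (Real.toNNReal n)
      (fun x : Fin (n + 1) → ℝ => cascade (gm n) (minbFin n x) n lc 0) X := by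
    apply LipschitzOnWith.of_dist_le_mul
    intro x hx y hy
    have h1 := minb_cascade_lip (c := n) (fun l h1 h2 => e0 l h1 (by omega))
      (fun l h1 h2 => e1 l (by omega)) hx.1.2.1.2 hy.1.2.1.2 adm_lc adm_lc (e := 0)
      (fun z => by simp) 0
    rw [Real.dist_eq]
    refine h1.trans ?_
    rw [zero_add, Real.coe_toNNReal _ (Nat.cast_nonneg n)]
    have h2 : ∑ l ∈ Finset.range n, |(minbFin n x (l + 1) - minbFin n x l)
        - (minbFin n y (l + 1) - minbFin n y l)| ≤ ∑ l ∈ Finset.range n, 2 * dist x y := by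
      refine Finset.sum_le_sum fun l _ => ?_
      have a1 := minb_fin_dist n (l + 1) x y
      have a2 := minb_fin_dist n l x y
      calc _ = |(minbFin n x (l + 1) - minbFin n y (l + 1))
            - (minbFin n x l - minbFin n y l)| := by congr 1; ring
        _ ≤ _ := abs_sub _ _
        _ ≤ _ := by linarith
    rw [Finset.sum_const, Finset.card_range, nsmul_eq_mul] at h2
    linarith
  have hcont : ContinuousOn (fun x : Fin (n + 1) → ℝ => SKr b n (gm n) (minbFin n x)) X := by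
    have h1 : ContinuousOn (fun x : Fin (n + 1) → ℝ =>
        cascade (gm n) (minbFin n x) n lc 0 - minbFin n x n / 2 + b ^ 2 / 4
          + (∑ l ∈ Finset.range (n + 1), (gm n (l + 1) - gm n l) * minbFin n x l ^ 2) /
            (4 * b ^ 2)) X := by
      refine ContinuousOn.add (ContinuousOn.add (ContinuousOn.sub hlip.continuousOn ?_) ?_) ?_
      · exact ((minb_fin_cont n n).div_const 2).continuousOn
      · exact continuousOn_const
      · refine (Continuous.div_const (continuous_finsetSum _ fun l _ => ?_) _).continuousOn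
        exact continuous_const.mul ((minb_fin_cont n l).pow 2)
    refine h1.congr fun x hx => ?_
    simp only [SKr]
    rw [minb_spin hx.1.1]
  obtain ⟨x, hx, hxm⟩ := hcomp.exists_isMinOn hne hcont
  refine ⟨minbFin n x, hx.1, hx.2, fun r' hr' hr0 => ?_⟩
  have h1 : ∀ l ≤ n, r' l = minbFin n (fun i => r' i) l := fun l hl => by
    unfold minbFin; rw [dif_pos (by omega)]
  have h2 : BPath b n (minbFin n (fun i => r' i)) := by
    obtain ⟨a0, ⟨a1, a2⟩, a3⟩ := hr'
    refine ⟨by rw [← h1 0 (by omega)]; exact a0, ⟨by rw [← h1 0 (by omega)]; exact a1,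
      fun l hl => ?_⟩, by rw [← h1 n le_rfl]; exact a3⟩
    rw [← h1 l (by omega), ← h1 (l + 1) (by omega)]; exact a2 l hl
  have h3 : ∀ l < d, minbFin n (fun i => r' i) l = 0 := fun l hl => by
    rw [← h1 l (by omega)]; exact hr0 l hl
  rw [minb_SKr_congr h1]
  exact hxm (a := fun i => r' i) ⟨h2, h3⟩

/-- the overlap vanishes where the path vanishes -/
theorem spR_zero {n : ℕ} {m r : ℕ → ℝ} (hm : Exponents n m) (hr : Path n r) (h0 : r 0 = 0)
    {l : ℕ} (hl : l ≤ n) (hrl : r l = 0) : spR n m r l = 0 := by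
  have h1 := spR_le hm hr h0 hl
  rw [hrl] at h1
  exact le_antisymm h1 (spR_nonneg hm hr hl)

/-- stationarity: at a minimiser all levels are fixed by the overlap map -/
theorem statD {b : ℝ} (hb : 0 < b) {n d : ℕ} {r : ℕ → ℝ} (h : IsMinD b n d r) :
    ∀ l ≤ n, r l = b ^ 2 * spR n (gm n) r l := by
  obtain ⟨hr, hr0, hmin⟩ := h
  have hm := gm_exponents n
  have h1 := stat_gain hb hm hr
  have hB := stat_bpath hm hr
  -- the competitor, cut above the level `n`
  set r' : ℕ → ℝ := fun l => if l ≤ n then b ^ 2 * spR n (gm n) r l else 0 with hr'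
  have e : ∀ l ≤ n, b ^ 2 * spR n (gm n) r l = r' l := fun l hl => by
    simp only [hr', if_pos hl]
  have hB' : BPath b n r' := by
    obtain ⟨a0, ⟨a1, a2⟩, a3⟩ := hB
    refine ⟨by rw [← e 0 (by omega)]; exact a0, ⟨by rw [← e 0 (by omega)]; exact a1,
      fun l hl => ?_⟩, by rw [← e n le_rfl]; exact a3⟩
    rw [← e l (by omega), ← e (l + 1) (by omega)]; exact a2 l hl
  have h0' : ∀ l < d, r' l = 0 := by
    intro l hl
    by_cases hln : l ≤ n
    · rw [← e l hln, spR_zero hm hr.2.1 hr.1 hln (hr0 l hl), mul_zero]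
    · simp only [hr', if_neg hln]
  have h2 := hmin r' hB' h0'
  rw [← minb_SKr_congr e] at h2
  have hp : ∀ l ∈ Finset.range (n + 1),
      0 ≤ (gm n (l + 1) - gm n l) * (b ^ 2 * spR n (gm n) r l - r l) ^ 2 :=
    fun l hl => mul_nonneg
      (sub_pos.2 (hm.2.2 l (Nat.lt_succ_iff.1 (Finset.mem_range.1 hl)))).le (sq_nonneg _)
  have h3 : (∑ l ∈ Finset.range (n + 1),
      (gm n (l + 1) - gm n l) * (b ^ 2 * spR n (gm n) r l - r l) ^ 2) = 0 := by
    refine le_antisymm ?_ (Finset.sum_nonneg hp)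
    have h4 : (∑ l ∈ Finset.range (n + 1),
        (gm n (l + 1) - gm n l) * (b ^ 2 * spR n (gm n) r l - r l) ^ 2) / (4 * b ^ 2) ≤ 0 := by
      linarith
    by_contra h5
    push Not at h5
    exact absurd (div_pos h5 (show 0 < 4 * b ^ 2 by positivity)) (not_lt.2 h4)
  intro l hl
  have h5 := (Finset.sum_eq_zero_iff_of_nonneg hp).1 h3 l (Finset.mem_range.2 (by omega))
  have h6 : 0 < gm n (l + 1) - gm n l := sub_pos.2 (hm.2.2 l hl)
  rcases mul_eq_zero.1 h5 with h7 | h7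
  · exact absurd h7 h6.ne'
  · have := pow_eq_zero_iff (n := 2) (by norm_num) |>.1 h7
    linarith

end Vale.Agent.P146.Lb
end

section

/-!
# P146, L1, section UNI: uniform bound of `Mb - 1/b²` on the blocks `l ≥ d`
-/

open MeasureTheory ProbabilityTheory Filter Topology Set

namespace Vale.Agent.P146.Lb

open Vale.Agent.P157.Par
open Vale.Agent.P146.Gap
open Vale.Agent.P146.Pw2
open Vale.Agent.P367.Cl

/-- A Lipschitz function with a zero and a small integral of its absolute value is small. -/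
theorem luni_real {C V B : ℝ} {k : ℝ → ℝ} (hC : 0 < C)
    (hk : ContinuousOn k (Icc 0 V))
    (hL : ∀ s ∈ Icc 0 V, ∀ t ∈ Icc 0 V, |k t - k s| ≤ C * |t - s|)
    (hz : ∃ z ∈ Icc 0 V, k z = 0) (hint : ∫ s in (0 : ℝ)..V, |k s| ≤ B) :
    ∀ t ∈ Icc 0 V, k t ^ 2 ≤ 4 * C * B := by
  intro t ht
  obtain ⟨z, hz, hkz⟩ := hz
  obtain ⟨κ, hκ⟩ : ∃ κ, κ = |k t| := ⟨_, rfl⟩
  have hκ0 : 0 ≤ κ := by rw [hκ]; exact abs_nonneg _
  have hκV : κ ≤ C * V := by
    have h1 := hL z hz t ht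
    rw [hkz, sub_zero, ← hκ] at h1
    have h2 : |t - z| ≤ V := by
      rw [abs_le]
      constructor <;> linarith [ht.1, ht.2, hz.1, hz.2]
    exact h1.trans (mul_le_mul_of_nonneg_left h2 hC.le)
  obtain ⟨η, hη⟩ : ∃ η, η = κ / (2 * C) := ⟨_, rfl⟩
  have hη0 : 0 ≤ η := by rw [hη]; positivity
  have hηC : C * η = κ / 2 := by rw [hη]; field_simp
  have hη2 : η ≤ V / 2 := by
    rw [hη, div_le_iff₀ (by positivity)]
    linarith
  have hkey : ∀ a c : ℝ, 0 ≤ a → c ≤ V → c - a = η → (∀ s ∈ Icc a c, |t - s| ≤ η) →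
      η * (κ / 2) ≤ B := by
    intro a c ha hc hac hs
    have hac' : a ≤ c := by linarith
    have hsub : Icc a c ⊆ Icc 0 V := Icc_subset_Icc ha hc
    have hki : ∀ u v : ℝ, 0 ≤ u → v ≤ V → u ≤ v → IntervalIntegrable (fun s => |k s|) volume u v :=
      fun u v hu hv huv =>
        ((hk.mono (Icc_subset_Icc hu hv)).abs).intervalIntegrable_of_Icc huv
    have h1 : ∫ _s in a..c, κ / 2 ≤ ∫ s in a..c, |k s| := by
      refine intervalIntegral.integral_mono_on hac' intervalIntegrable_const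
        (hki a c ha hc hac') fun s hs' => ?_
      have h2 := hL s (hsub hs') t ht
      have h3 := hs s hs'
      have h4 : |k t| ≤ |k t - k s| + |k s| := by
        have := abs_add_le (k t - k s) (k s)
        rwa [sub_add_cancel] at this
      have h5 : C * |t - s| ≤ C * η := mul_le_mul_of_nonneg_left h3 hC.le
      rw [← hκ] at h4
      linarith
    rw [intervalIntegral.integral_const, smul_eq_mul, hac] at h1
    have h2 : ∫ s in a..c, |k s| ≤ ∫ s in (0 : ℝ)..V, |k s| := by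
      rw [← intervalIntegral.integral_add_adjacent_intervals
        (hki 0 a le_rfl (by linarith) ha) (hki a V ha le_rfl (by linarith)),
        ← intervalIntegral.integral_add_adjacent_intervals (hki a c ha hc hac')
        (hki c V (by linarith) le_rfl hc)]
      have h3 : 0 ≤ ∫ s in (0 : ℝ)..a, |k s| :=
        intervalIntegral.integral_nonneg ha fun _ _ => abs_nonneg _
      have h4 : 0 ≤ ∫ s in c..V, |k s| :=
        intervalIntegral.integral_nonneg hc fun _ _ => abs_nonneg _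
      linarith
    linarith
  have hfin : η * (κ / 2) ≤ B := by
    rcases le_or_gt (t + η) V with h | h
    · refine hkey t (t + η) ht.1 h (by ring) fun s hs => ?_
      rw [abs_le]
      constructor <;> linarith [hs.1, hs.2]
    · refine hkey (t - η) t (by linarith) ht.2 (by ring) fun s hs => ?_
      rw [abs_le]
      constructor <;> linarith [hs.1, hs.2]
  have h1 : k t ^ 2 = κ ^ 2 := by rw [hκ, sq_abs]
  rw [h1]
  have h2 : η * (κ / 2) * (4 * C) = κ ^ 2 := by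
    rw [hη]
    field_simp
    norm_num
  rw [← h2]
  have h3 := mul_le_mul_of_nonneg_right hfin (show 0 ≤ 4 * C by positivity)
  linarith

/-- the Lipschitz bound of `Mb` inside a block -/
theorem luni_lip {C : ℝ} {n l : ℕ} {m r : ℕ → ℝ} (hm : Exponents n m)
    (hr : Path n r) (hl : l < n)
    (hC : ∀ t ∈ Icc 0 (r (l + 1) - r l), |M1b n m r l t| ≤ C) {s t : ℝ}
    (hs : s ∈ Icc 0 (r (l + 1) - r l)) (ht : t ∈ Icc 0 (r (l + 1) - r l)) (hst : s ≤ t) :
    |Mb n m r l t - Mb n m r l s| ≤ C * (t - s) := by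
  rcases hst.eq_or_lt with h | h
  · rw [h, sub_self, sub_self, abs_zero, mul_zero]
  obtain ⟨x, hx, hxe⟩ := exists_hasDerivAt_eq_slope (Mb n m r l) (M1b n m r l) h
    ((Mb_cont hm hr hl).mono (Icc_subset_Icc hs.1 ht.2))
    (fun x hx => Mb_deriv hm hr hl ⟨hs.1.trans_lt hx.1, hx.2.trans_le ht.2⟩)
  have h1 := hC x ⟨(hs.1.trans_lt hx.1).le, (hx.2.trans_le ht.2).le⟩
  have h2 : Mb n m r l t - Mb n m r l s = M1b n m r l x * (t - s) := by
    rw [hxe, div_mul_cancel₀ _ (sub_pos.2 h).ne']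
  rw [h2, abs_mul, abs_of_pos (sub_pos.2 h)]
  exact mul_le_mul_of_nonneg_right h1 (sub_pos.2 h).le

/-- uniform bound on the blocks `l ≥ d` of positive length -/
theorem unifD {b : ℝ} (hb : 1 < b) : ∃ C : ℝ, 1 ≤ C ∧ ∀ (n d : ℕ) (r : ℕ → ℝ) (l : ℕ) (e : ℝ),
    IsMinD b n d r → 1 ≤ l → d ≤ l → l < n → r l < r (l + 1) → 0 < e → 1 ≤ e ^ 4 * (n + 1) →
      ∀ t ∈ Icc 0 (r (l + 1) - r l), |Mb n (gm n) r l t - 1 / b ^ 2| ≤ C * e := by
  have hb0 : 0 < b := by linarith
  have hb2 : 0 < b ^ 2 := by positivity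
  obtain ⟨C1, hC1, h1⟩ := M1b_bd b
  obtain ⟨C2, hC2, h2⟩ := var_upD hb
  obtain ⟨C3, hC3, h3⟩ := var_downD hb
  obtain ⟨C, hCd⟩ : ∃ C, C = C1 + C2 + C3 := ⟨_, rfl⟩
  have hC0 : 1 ≤ C := by rw [hCd]; linarith
  obtain ⟨C', hC', hblk⟩ := real_block (C := C) (S := b ^ 2) hC0 hb2
  refine ⟨1 + 4 * C1 * C' * b ^ 2, by
    have : 0 ≤ 4 * C1 * C' * b ^ 2 := by positivity
    linarith, fun n d r l e hr hl1 hdl hl hlt he hen t₀ ht₀ => ?_⟩
  have hm := gm_exponents n
  have hBP := hr.1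
  have hpath := hBP.2.1
  have hr0 := hBP.1
  have hfix := statD hb0 hr
  have hn0 : (0 : ℝ) < (n : ℝ) + 1 := by positivity
  have hrl : 0 ≤ r l := by
    have := gapn_path_le hpath (Nat.zero_le l) hl.le
    rwa [hr0] at this
  have hrl1 : r (l + 1) ≤ b ^ 2 := (gapn_path_le hpath hl le_rfl).trans hBP.2.2
  obtain ⟨V, hV⟩ : ∃ V, V = r (l + 1) - r l := ⟨_, rfl⟩
  have hV0 : 0 < V := by rw [hV]; linarith
  have hVS : V ≤ b ^ 2 := by rw [hV]; linarith
  have hd0 : 0 ≤ 1 / ((n : ℝ) + 1) := by positivity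
  have hd1 : 1 / ((n : ℝ) + 1) ≤ 1 := by
    rw [div_le_one hn0]
    have : (0 : ℝ) ≤ n := Nat.cast_nonneg n
    linarith
  have hRc := Rb_cont hm hpath hl
  have hMc := Mb_cont hm hpath hl
  have hdn := h3 n d r l hr hl (by omega)
  have hup := h2 n d r l hr hl1 hdl hl
  have hrd := fun t ht => Rb_deriv (t := t) hm hpath hl ht
  have hmd := fun t ht => Mb_deriv (t := t) hm hpath hl ht
  have hm1d := fun t ht => M1b_deriv (t := t) hm hpath hl ht
  have hm2 := fun t ht => M2b_nonneg (t := t) hm hpath hr0 hl ht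
  have hbd := h1 n (gm n) r hm hBP l hl
  have hf0' := Rb_zero hm hpath hl
  have hfV' := Rb_last hm hpath hl
  have hlip := fun s t hs ht hst => luni_lip (s := s) (t := t) hm hpath hl hbd hs ht hst
  rw [← hV] at hRc hMc hdn hup hrd hmd hm1d hm2 hbd hfV' hlip ht₀
  have hfc : ContinuousOn (fun t => Rb n (gm n) r l t - (r l + t) / b ^ 2) (Icc 0 V) :=
    hRc.sub (by fun_prop)
  have hkc : ContinuousOn (fun t => Mb n (gm n) r l t - 1 / b ^ 2) (Icc 0 V) :=
    hMc.sub continuousOn_const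
  have hfd : ∀ t ∈ Ioo 0 V, HasDerivAt (fun t => Rb n (gm n) r l t - (r l + t) / b ^ 2)
      (Mb n (gm n) r l t - 1 / b ^ 2) t := by
    intro t ht
    have e1 : HasDerivAt (fun t : ℝ => (r l + t) / b ^ 2) (1 / b ^ 2) t :=
      ((hasDerivAt_id t).const_add (r l)).div_const _
    exact (hrd t ht).sub e1
  have hkd : ∀ t ∈ Ioo 0 V, HasDerivAt (fun t => Mb n (gm n) r l t - 1 / b ^ 2)
      (M1b n (gm n) r l t) t := fun t ht => (hmd t ht).sub_const _
  have hf0 : Rb n (gm n) r l 0 - (r l + 0) / b ^ 2 = 0 := by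
    rw [hf0', add_zero]
    have := hfix l hl.le
    rw [sub_eq_zero, eq_div_iff hb2.ne']
    linarith
  have hfV : Rb n (gm n) r l V - (r l + V) / b ^ 2 = 0 := by
    have e : r l + V = r (l + 1) := by rw [hV]; ring
    rw [hfV', e]
    have := hfix (l + 1) hl
    rw [sub_eq_zero, eq_div_iff hb2.ne']
    linarith
  have hV2 : 0 ≤ V ^ 2 := sq_nonneg V
  have hint := hblk V (1 / ((n : ℝ) + 1)) (fun t => Rb n (gm n) r l t - (r l + t) / b ^ 2)
    (fun t => Mb n (gm n) r l t - 1 / b ^ 2) (M1b n (gm n) r l) (M2b n (gm n) r l) hV0 hVS hd0 hd1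
    hfc hkc hfd hkd hm1d (fun t ht => hm2 t ⟨ht.1.le, ht.2.le⟩ (by linarith [ht.1]))
    (fun t ht => (hbd t ⟨ht.1.le, ht.2.le⟩).trans (by rw [hCd]; linarith)) hf0 hfV ?_ ?_
  · -- a zero of `k`
    obtain ⟨z, hz, hkz⟩ := exists_hasDerivAt_eq_zero hV0 hfc (by rw [hf0, hfV]) hfd
    have hL : ∀ s ∈ Icc 0 V, ∀ t ∈ Icc 0 V,
        |(Mb n (gm n) r l t - 1 / b ^ 2) - (Mb n (gm n) r l s - 1 / b ^ 2)| ≤ C1 * |t - s| := by
      intro s hs t ht
      have e1 : (Mb n (gm n) r l t - 1 / b ^ 2) - (Mb n (gm n) r l s - 1 / b ^ 2) =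
          Mb n (gm n) r l t - Mb n (gm n) r l s := by ring
      rw [e1]
      rcases le_total s t with h | h
      · rw [abs_of_nonneg (sub_nonneg.2 h)]
        exact hlip s t hs ht h
      · rw [abs_sub_comm, abs_sub_comm t s, abs_of_nonneg (sub_nonneg.2 h)]
        exact hlip t s ht hs h
    have hsq := luni_real (k := fun t => Mb n (gm n) r l t - 1 / b ^ 2) (by linarith) hkc hL
      ⟨z, ⟨hz.1.le, hz.2.le⟩, hkz⟩ hint t₀ ht₀
    have hse : √(1 / ((n : ℝ) + 1)) ≤ e ^ 2 := by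
      refine Real.sqrt_le_iff.2 ⟨by positivity, ?_⟩
      rw [div_le_iff₀ hn0, ← pow_mul]
      exact hen
    have h4 : 4 * C1 * (C' * √(1 / ((n : ℝ) + 1)) * V) ≤ 4 * C1 * C' * b ^ 2 * e ^ 2 := by
      have h5 : C' * √(1 / ((n : ℝ) + 1)) * V ≤ C' * e ^ 2 * b ^ 2 := by
        refine mul_le_mul (mul_le_mul_of_nonneg_left hse (by linarith)) hVS hV0.le ?_
        positivity
      have h6 := mul_le_mul_of_nonneg_left h5 (show 0 ≤ 4 * C1 by linarith)
      refine h6.trans (le_of_eq ?_)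
      ring
    have h7 := hsq.trans h4
    obtain ⟨Y, hY⟩ : ∃ Y, Y = 4 * C1 * C' * b ^ 2 := ⟨_, rfl⟩
    rw [← hY] at h7 ⊢
    have hY0 : 0 ≤ Y := by rw [hY]; positivity
    refine abs_le_of_sq_le_sq ?_ (by positivity)
    refine h7.trans ?_
    rw [mul_pow]
    refine mul_le_mul_of_nonneg_right ?_ (by positivity)
    nlinarith
  · intro t ht
    refine (hup t ht).trans ?_
    have e1 : t ^ 2 ≤ V ^ 2 := pow_le_pow_left₀ ht.1 ht.2 2
    have e2 : C2 / ((n : ℝ) + 1) * t ^ 2 ≤ C2 / ((n : ℝ) + 1) * V ^ 2 :=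
      mul_le_mul_of_nonneg_left e1 (by positivity)
    refine e2.trans ?_
    have e3 : C2 / ((n : ℝ) + 1) * V ^ 2 = C2 * (1 / ((n : ℝ) + 1) * V ^ 2) := by ring
    rw [e3, mul_assoc C]
    refine mul_le_mul_of_nonneg_right ?_ (by positivity)
    rw [hCd]
    linarith
  · intro t ht
    refine le_trans ?_ (hdn t ht)
    rw [neg_le_neg_iff]
    have e1 : (V - t) ^ 2 ≤ V ^ 2 := pow_le_pow_left₀ (by linarith [ht.2]) (by linarith [ht.1]) 2
    have e2 : C3 / ((n : ℝ) + 1) * (V - t) ^ 2 ≤ C3 / ((n : ℝ) + 1) * V ^ 2 :=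
      mul_le_mul_of_nonneg_left e1 (by positivity)
    refine e2.trans ?_
    have e3 : C3 / ((n : ℝ) + 1) * V ^ 2 = C3 * (1 / ((n : ℝ) + 1) * V ^ 2) := by ring
    rw [e3, mul_assoc C]
    refine mul_le_mul_of_nonneg_right ?_ (by positivity)
    rw [hCd]
    linarith

end Vale.Agent.P146.Lb
end

section

/-!
# P146, L1, the last level: a lower bound of `r n`

`lst_of` proves `lastD` (the next file) from the statements of `statD` and `unifD`.
-/

open MeasureTheory ProbabilityTheory Filter Topology Set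

namespace Vale.Agent.P146.Lb

open Vale.Agent.P157.Par
open Vale.Agent.P146.Gap
open Vale.Agent.P146.Pw2
open Vale.Agent.P367.Cl

/-- The functional at the path with only the last level raised. -/
lemma lst_SKr {b : ℝ} {n : ℕ} (hn : 1 ≤ n) {m : ℕ → ℝ} (hm : Exponents n m) (t : ℝ) :
    SKr b n m (fun l => if l < n then 0 else t) =
      gstep (m n) t lc 0 - t / 2 + b ^ 2 / 4 + (1 - m n) * t ^ 2 / (4 * b ^ 2) := by
  obtain ⟨-, e0, -⟩ := minb_exp hm
  have hn0 : 0 < n := hn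
  have h1 : ∑ l ∈ Finset.range (n + 1), (m (l + 1) - m l) * (if l < n then (0 : ℝ) else t) ^ 2 =
      (1 - m n) * t ^ 2 := by
    rw [Finset.sum_range_succ, Finset.sum_eq_zero, if_neg (lt_irrefl n), hm.2.1, zero_add]
    intro l hl
    rw [if_pos (Finset.mem_range.1 hl)]
    ring
  unfold SKr
  rw [minb_spin (by simp [hn0]), minb_block hn (fun l h1 h2 => (e0 l h1 (by omega)).ne')
    (fun l hl => by simp [hl, hn0]), h1]
  simp [hn0]

/-- The case `r n = 0`. -/
lemma lst_zero {b : ℝ} (hb : 1 < b) : ∃ K : ℝ, 0 ≤ K ∧ ∀ (n d : ℕ) (r : ℕ → ℝ),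
    1 ≤ d → d ≤ n → IsMinD b n d r → r n = 0 → 1 ≤ 1 / b ^ 2 + K * (1 / (n + 1)) := by
  have hb0 : 0 < b := by linarith
  have hb2 : 0 < b ^ 2 := by positivity
  obtain ⟨K, hK, htilt⟩ := Rf_tilt2 (b ^ 2)
  refine ⟨K, hK, fun n d r hd hdn h hrn => ?_⟩
  obtain ⟨hr, -, hmin⟩ := h
  have hm := gm_exponents n
  obtain ⟨emono, e0, e1⟩ := minb_exp hm
  have hn : 1 ≤ n := hd.trans hdn
  have hg0 : 0 < gm n n := e0 n hn (by omega)
  have hg1 : gm n n < 1 := by
    rw [← hm.2.1]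
    exact hm.2.2 n le_rfl
  have hr0 : ∀ l ≤ n, r l = (fun l => if l < n then (0 : ℝ) else 0) l := by
    intro l hl
    have h1 := gapn_path_le hr.2.1 (Nat.zero_le l) hl
    have h2 := gapn_path_le hr.2.1 hl le_rfl
    rw [hr.1] at h1
    rw [hrn] at h2
    simp only [ite_self]
    linarith
  have hlc0 : lc 0 = 0 := by simp [lc]
  have h1 : ∀ t ∈ Ioc 0 (b ^ 2), gstep 1 (b ^ 2) lc 0 ≤
      gstep (gm n n) t (gstep 1 (b ^ 2 - t) lc) 0 + (1 - gm n n) * t ^ 2 / (4 * b ^ 2) := by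
    intro t ht
    have hP : BPath b n (fun l => if l < n then 0 else t) := by
      refine ⟨by simp [show 0 < n from hn], ⟨?_, fun l hl => ?_⟩, ?_⟩
      · simp [show 0 < n from hn]
      · simp only [if_pos hl]
        split_ifs
        · exact le_rfl
        · exact ht.1.le
      · simp only [lt_irrefl, if_false]
        exact ht.2
    have h2 := hmin _ hP (fun l hl => by simp [show l < n by omega])
    rw [minb_SKr_congr hr0, lst_SKr hn hm, lst_SKr hn hm, gstep_zero hg0.ne', hlc0] at h2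
    rw [minb_lc_step hb2.le, minb_lc_step (sub_nonneg.2 ht.2), minb_gstep_const adm_lc hg0]
    simp only [hlc0]
    have h3 : (1 - gm n n) * (0 : ℝ) ^ 2 / (4 * b ^ 2) = 0 := by ring
    rw [h3] at h2
    linarith
  have h2 := split_A hb0 htilt adm_lc hg0 hg1 le_rfl hb2 le_rfl h1
  have h3 : iteratedDeriv 2 (gstep 1 (b ^ 2) lc) 0 = 1 := by
    rw [minb_lc_step hb2.le]
    have h4 : deriv (fun x => lc x + b ^ 2 / 2) = deriv lc := funext fun y => deriv_add_const _
    have h5 : ∀ f : ℝ → ℝ, iteratedDeriv 2 f = iteratedDeriv 1 (deriv f) := fun f =>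
      iteratedDeriv_succ'
    rw [h5, h4, ← h5, adm_lc_it2]
    simp
  have h4 := gm_sub n n
  rw [hm.2.1] at h4
  rw [h3, h4] at h2
  linarith

/-- The last level from the stationarity and the uniform estimate. -/
theorem lst_of {b : ℝ} (hb : 1 < b)
    (hstat : ∀ {n d : ℕ} {r : ℕ → ℝ}, IsMinD b n d r → ∀ l ≤ n, r l = b ^ 2 * spR n (gm n) r l)
    (hunif : ∃ C : ℝ, 1 ≤ C ∧ ∀ (n d : ℕ) (r : ℕ → ℝ) (l : ℕ) (e : ℝ),
      IsMinD b n d r → 1 ≤ l → d ≤ l → l < n → r l < r (l + 1) → 0 < e → 1 ≤ e ^ 4 * (n + 1) →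
        ∀ t ∈ Icc 0 (r (l + 1) - r l), |Mb n (gm n) r l t - 1 / b ^ 2| ≤ C * e) :
    ∃ c : ℝ, 0 < c ∧ ∀ (n d : ℕ) (r : ℕ → ℝ),
      1 ≤ d → d ≤ n → IsMinD b n d r → 1 ≤ c * (n + 1) → c ≤ r n := by
  classical
  have hb0 : 0 < b := by linarith
  have hb2 : 0 < b ^ 2 := by positivity
  have hb21 : 1 < b ^ 2 := by nlinarith
  obtain ⟨C1, hC1, h1⟩ := hunif
  obtain ⟨C2, hC2, h2⟩ := M1b_bd b
  obtain ⟨K, hK, h3⟩ := lst_zero hb
  have H := sumHyp hb
  obtain ⟨a, ha⟩ : ∃ a : ℝ, a = 1 - 1 / b ^ 2 := ⟨_, rfl⟩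
  have hq0 : 0 < 1 / b ^ 2 := by positivity
  have hq1 : 1 / b ^ 2 < 1 := by
    rw [div_lt_one hb2]
    exact hb21
  have ha0 : 0 < a := by rw [ha]; linarith
  obtain ⟨e, he⟩ : ∃ e : ℝ, e = a / (2 * C1) := ⟨_, rfl⟩
  have he0 : 0 < e := by rw [he]; exact div_pos ha0 (by linarith)
  have hCe : C1 * e = a / 2 := by
    rw [he]
    field_simp
  obtain ⟨c, hc⟩ : ∃ c : ℝ, c = min (min (b ^ 2 * a / 4) (a / (C2 + 2 * (1 / b ^ 2))))
    (min (e ^ 4) (a / (2 * (K + 1)))) := ⟨_, rfl⟩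
  have c1 : c ≤ b ^ 2 * a / 4 := by
    rw [hc]
    exact (min_le_left _ _).trans (min_le_left _ _)
  have c2 : c ≤ a / (C2 + 2 * (1 / b ^ 2)) := by
    rw [hc]
    exact (min_le_left _ _).trans (min_le_right _ _)
  have c3 : c ≤ e ^ 4 := by
    rw [hc]
    exact (min_le_right _ _).trans (min_le_left _ _)
  have c4 : c ≤ a / (2 * (K + 1)) := by
    rw [hc]
    exact (min_le_right _ _).trans (min_le_right _ _)
  have hc0 : 0 < c := by
    rw [hc]
    refine lt_min (lt_min ?_ ?_) (lt_min ?_ ?_)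
    · positivity
    · exact div_pos ha0 (by linarith)
    · positivity
    · exact div_pos ha0 (by linarith)
  refine ⟨c, hc0, fun n d r hd hdn hr hn => ?_⟩
  have hm := gm_exponents n
  have hBP := hr.1
  have hpath := hBP.2.1
  have hr0 := hBP.1
  have hn0 : (0 : ℝ) < (n : ℝ) + 1 := by positivity
  have hbd := h2 n (gm n) r hm hBP
  have hfix := hstat hr
  have hfn := hfix n le_rfl
  have hlast := Ml_last (n := n) (m := gm n) (r := r) hm hpath
  have hspn : spR n (gm n) r n = r n * (1 / b ^ 2) := by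
    rw [hfn]
    field_simp
  have hrn0 : 0 ≤ r n := by
    have := gapn_path_le hpath (Nat.zero_le n) le_rfl
    rwa [hr0] at this
  rcases hrn0.eq_or_lt with hz | hpos
  · -- the case `r n = 0`
    exfalso
    have h4 := h3 n d r hd hdn hr hz.symm
    have h5 : 1 / ((n : ℝ) + 1) ≤ c := by
      rw [div_le_iff₀ hn0]
      exact hn
    have h6 : K * (1 / ((n : ℝ) + 1)) ≤ (K + 1) * c :=
      mul_le_mul (by linarith) h5 (by positivity) (by linarith)
    have h7 : (K + 1) * c ≤ a / 2 := by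
      have h8 := mul_le_mul_of_nonneg_left c4 (show 0 ≤ K + 1 by linarith)
      have h9 : (K + 1) * (a / (2 * (K + 1))) = a / 2 := by
        have : K + 1 ≠ 0 := by linarith
        field_simp
      linarith
    linarith
  -- the first level with the value `r n`
  have hex : ∃ l, r l = r n := ⟨n, rfl⟩
  obtain ⟨p, hp⟩ : ∃ p, p = Nat.find hex := ⟨_, rfl⟩
  have hrp : r p = r n := by rw [hp]; exact Nat.find_spec hex
  have hpn : p ≤ n := by rw [hp]; exact Nat.find_min' hex rfl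
  have hlow : ∀ l < p, r l ≠ r n := fun l hl => Nat.find_min hex (by rw [← hp]; exact hl)
  have hdp : d ≤ p := by
    by_contra hcon
    have := hr.2.1 p (by omega)
    rw [hrp] at this
    linarith
  obtain ⟨l, hl⟩ : ∃ l, p = l + 1 := ⟨p - 1, by omega⟩
  have hln : l < n := by omega
  have hstep := sum_steps (M := Ml n (gm n) r) (fun i hi => sum_step H hm hpath hi (hbd i hi)) hpn
  rw [hrp, sub_self, mul_zero] at hstep
  have hrl : r l < r (l + 1) := by
    refine lt_of_le_of_ne (hpath.2 l hln) ?_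
    rw [← hl, hrp]
    exact hlow l (by omega)
  have hV : 0 < r (l + 1) - r l := by linarith
  have hMV : Mb n (gm n) r l (r (l + 1) - r l) = Ml n (gm n) r p := by
    rw [hl]
    exact Mb_last hm hpath hln
  rcases hdp.eq_or_lt with hd1 | hd1
  · -- `r` is constant above `d`
    have hrl0 : r l = 0 := hr.2.1 l (by omega)
    have e1 : Rb n (gm n) r l 0 = 0 := by
      rw [Rb_zero hm hpath hln]
      have h4 := hfix l hln.le
      rw [hrl0] at h4
      rcases mul_eq_zero.1 h4.symm with h5 | h5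
      · exact absurd h5 hb2.ne'
      · exact h5
    have e2 : Rb n (gm n) r l (r (l + 1) - r l) = (r (l + 1) - r l) * (1 / b ^ 2) := by
      rw [Rb_last hm hpath hln]
      have h4 := hfix (l + 1) hln
      rw [hrl0, sub_zero, mul_one_div, eq_div_iff hb2.ne']
      linarith
    obtain ⟨ξ, hξ, hξe⟩ := exists_hasDerivAt_eq_slope (Rb n (gm n) r l) (Mb n (gm n) r l) hV
      (Rb_cont hm hpath hln) (fun x hx => Rb_deriv hm hpath hln hx)
    rw [e1, e2, sub_zero, sub_zero, mul_div_right_comm, div_self hV.ne', one_mul] at hξe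
    have h4 := sum_lip H hm hpath hln (hbd l hln) ⟨hξ.1.le, hξ.2.le⟩ (right_mem_Icc.2 hV.le)
      hξ.2.le
    rw [hMV, hξe] at h4
    have h5 := (abs_le.1 h4).2
    have h6 : r (l + 1) - r l = r n := by rw [hrl0, sub_zero, ← hl, hrp]
    rw [h6] at h5
    have h7 : C2 * (r n - ξ) ≤ C2 * r n := mul_le_mul_of_nonneg_left (by linarith [hξ.1])
      (by linarith)
    rw [hspn] at hlast
    refine c2.trans ?_
    rw [div_le_iff₀ (by linarith)]
    have h8 : r n * (C2 + 2 * (1 / b ^ 2)) = C2 * r n + 2 * (r n * (1 / b ^ 2)) := by ring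
    rw [h8, ha]
    linarith
  · -- a block above `d`
    have h4 := h1 n d r l e hr (by omega) (by omega) hln hrl he0 (hn.trans
      (mul_le_mul_of_nonneg_right c3 hn0.le)) _ (right_mem_Icc.2 hV.le)
    rw [hMV, hCe] at h4
    have h5 := (abs_le.1 h4).2
    have h6 : a / 4 ≤ spR n (gm n) r n := by
      rw [ha] at h5 ⊢
      linarith
    rw [hfn]
    refine c1.trans ?_
    have h7 := mul_le_mul_of_nonneg_left h6 hb2.le
    linarith

end Vale.Agent.P146.Lb
end

section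

/-!
# P146, L1, section LST: the last level is bounded below
-/

open MeasureTheory ProbabilityTheory Filter Topology Set

namespace Vale.Agent.P146.Lb

open Vale.Agent.P157.Par
open Vale.Agent.P146.Gap
open Vale.Agent.P146.Pw2
open Vale.Agent.P367.Cl

/-- The last level of the minimiser over the paths which vanish below `d` is bounded below. -/
theorem lastD {b : ℝ} (hb : 1 < b) : ∃ c : ℝ, 0 < c ∧ ∀ (n d : ℕ) (r : ℕ → ℝ),
    1 ≤ d → d ≤ n → IsMinD b n d r → 1 ≤ c * (n + 1) → c ≤ r n :=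
  lst_of hb (fun h => statD (by linarith) h) (unifD hb)

end Vale.Agent.P146.Lb
end

section

/-!
# P146, L1, section DEC: `M' ≤ K (r l + t) - c m` near the level `0`

`M' = E G'''² - 2 m E G''³`. The first term is at most `K² E G'² = K² R ≤ K² (r l + t)`; for the
second `y³ ≥ 3/2 a y² - a³/2` (`y = G'' ≥ 0`) and `M = E G''² ≥ 1/K² - 2 (r l + t)`.
-/

open MeasureTheory ProbabilityTheory Filter Topology Set

namespace Vale.Agent.P146.Lb

open Vale.Agent.P157.Par
open Vale.Agent.P146.Gap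
open Vale.Agent.P146.Pw2
open Vale.Agent.P367.Cl

variable {n l : ℕ} {m r : ℕ → ℝ} {t : ℝ}

/-- `R ≤ r l + t` -/
theorem dec_Rb_le (hm : Exponents n m) (hr : Path n r) (h0 : r 0 = 0) (hl : l < n)
    (ht : t ∈ Icc 0 (r (l + 1) - r l)) : Rb n m r l t ≤ r l + t := by
  have hs := spR_le hm hr h0 hl.le
  rcases ht.1.eq_or_lt with h | h
  · rw [← h, Rb_zero hm hr hl, add_zero]
    exact hs
  obtain ⟨x, hx, hxe⟩ := exists_hasDerivAt_eq_slope (Rb n m r l) (Mb n m r l) h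
    ((Rb_cont hm hr hl).mono (Icc_subset_Icc le_rfl ht.2))
    (fun x hx => Rb_deriv hm hr hl ⟨hx.1, hx.2.trans_le ht.2⟩)
  have h1 := (Mb_mem hm hr hl ⟨hx.1.le, (hx.2.trans_le ht.2).le⟩).2
  rw [hxe, sub_zero, div_le_one h, Rb_zero hm hr hl] at h1
  linarith

/-- `M ≥ exp (-2 r l) M_0` at the level `l` -/
theorem dec_Ml_low {b : ℝ} (hm : Exponents n m) (hr : BPath b n r) (hl : l ≤ n) :
    Real.exp (-2 * r l) * Ml n m r 0 ≤ Ml n m r l := by
  induction l with
  | zero => rw [hr.1, mul_zero, Real.exp_zero, one_mul]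
  | succ l ih =>
    have h1 := ih (by omega)
    have h2 := Ml_low hm hr (show l < n by omega)
    calc Real.exp (-2 * r (l + 1)) * Ml n m r 0
        = Real.exp (-2 * (r (l + 1) - r l)) * (Real.exp (-2 * r l) * Ml n m r 0) := by
          rw [← mul_assoc, ← Real.exp_add]
          congr 2
          ring
      _ ≤ Real.exp (-2 * (r (l + 1) - r l)) * Ml n m r l :=
          mul_le_mul_of_nonneg_left h1 (Real.exp_pos _).le
      _ ≤ _ := h2

/-- inside of a block `M` decreases at most at the speed `2` -/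
theorem dec_Mb_low (hm : Exponents n m) (hr : Path n r) (hl : l < n)
    (ht : t ∈ Icc 0 (r (l + 1) - r l)) : Ml n m r l - 2 * t ≤ Mb n m r l t := by
  obtain ⟨g0, g1⟩ := sp7_exp_of hm l hl
  rcases ht.1.eq_or_lt with h | h
  · rw [← h, Mb_zero hm hr hl]
    linarith
  obtain ⟨x, hx, hxe⟩ := exists_hasDerivAt_eq_slope (Mb n m r l) (M1b n m r l) h
    ((Mb_cont hm hr hl).mono (Icc_subset_Icc le_rfl ht.2))
    (fun x hx => Mb_deriv hm hr hl ⟨hx.1, hx.2.trans_le ht.2⟩)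
  have h1 := M1b_low hm hr hl ⟨hx.1.le, (hx.2.trans_le ht.2).le⟩
  have h2 : (-2 : ℝ) ≤ M1b n m r l x := by linarith
  rw [hxe, sub_zero, le_div_iff₀ h, Mb_zero hm hr hl] at h2
  linarith

theorem dec_Bt_add (hm : Exponents n m) (hr : Path n r) (hl : l < n)
    (ht : t ∈ Icc 0 (r (l + 1) - r l)) {ψ φ : ℝ → ℝ} (hψ : Sp7Cb ψ) (hφ : Sp7Cb φ) :
    Bt n m r l t (fun x => ψ x + φ x) = Bt n m r l t ψ + Bt n m r l t φ := by
  obtain ⟨C, hG⟩ := blk2_adm hm hr hl ht
  have e : tlt (m (l + 1)) t (Gb n m r l t) (fun x => ψ x + φ x) = fun x =>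
      tlt (m (l + 1)) t (Gb n m r l t) ψ x + tlt (m (l + 1)) t (Gb n m r l t) φ x := by
    funext x
    obtain ⟨hc, K, hK⟩ := hψ
    obtain ⟨hc', K', hK'⟩ := hφ
    exact (adm_ec hG).sm.tlt_add hc hK hc' hK' _ _ x
  rw [Bt, e, ee_add hm hr hl.le (sp7_cb_tlt (adm_ec hG) hψ _ _) (sp7_cb_tlt (adm_ec hG) hφ _ _)]
  rfl

theorem dec_Bt_smul (c : ℝ) (ψ : ℝ → ℝ) :
    Bt n m r l t (fun x => c * ψ x) = c * Bt n m r l t ψ := by
  have e : tlt (m (l + 1)) t (Gb n m r l t) (fun x => c * ψ x) = fun x =>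
      c * tlt (m (l + 1)) t (Gb n m r l t) ψ x := by
    funext x
    exact tlt_const_mul _ _ _ _ _ x
  rw [Bt, e, ee_smul]
  rfl

theorem decD (b : ℝ) : ∃ c K : ℝ, 0 < c ∧ 1 ≤ K ∧ ∀ (n : ℕ) (r : ℕ → ℝ), BPath b n r →
    ∀ l < n, ∀ t ∈ Icc 0 (r (l + 1) - r l), r l + t ≤ c →
      M1b n (gm n) r l t ≤ K * (r l + t) - c * gm n (l + 1) := by
  obtain ⟨K, hK1, hK⟩ := fl_bk b
  have hK0 : 0 < K := by linarith
  refine ⟨1 / (4 * K ^ 3), K ^ 2, by positivity, by nlinarith, fun n r hr l hl t ht hc => ?_⟩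
  have hm := gm_exponents n
  have hp := hr.2.1
  obtain ⟨hA, hB⟩ := hK n (gm n) r hm hr
  obtain ⟨g0, g1⟩ := sp7_exp_of hm l hl
  have hG : AK K (Gb n (gm n) r l t) := hB l hl (r (l + 1) - r l - t) ⟨by linarith [ht.2],
    by linarith [ht.1]⟩
  have hrl : 0 ≤ r l := by
    have := gapn_path_le hp (Nat.zero_le l) hl.le
    rwa [hr.1] at this
  -- the lower bound of `M`
  have hK3 : 1 / (4 * K ^ 3) ≤ 1 / (4 * K ^ 2) := by
    refine one_div_le_one_div_of_le (by positivity) ?_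
    have : K ^ 2 * 1 ≤ K ^ 2 * K := mul_le_mul_of_nonneg_left hK1 (by positivity)
    linarith [show K ^ 3 = K ^ 2 * K by ring]
  have hM0 : 1 / K ^ 2 ≤ Ml n (gm n) r 0 := by
    rw [Ml_zero hr.1, ← fl_zero]
    have h1 := (hA 0 (Nat.zero_le n)).low0
    have h2 : 1 / K ≤ iteratedDeriv 2 (Fl n (gm n) r 0) 0 := by
      rw [div_le_iff₀ hK0]
      linarith
    have h3 := pow_le_pow_left₀ (by positivity) h2 2
    rwa [one_div_pow] at h3
  have hM : 1 / (2 * K ^ 2) ≤ Mb n (gm n) r l t := by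
    have h1 := dec_Mb_low hm hp hl ht
    have h2 := dec_Ml_low hm hr hl.le
    have h3 : 1 - 2 * r l ≤ Real.exp (-2 * r l) := by
      have := Real.add_one_le_exp (-2 * r l)
      linarith
    have hK2 : 1 / K ^ 2 ≤ 1 := by
      rw [div_le_one (by positivity)]
      nlinarith
    have hKp : 0 < 1 / K ^ 2 := by positivity
    have hrc : r l ≤ 1 / (4 * K ^ 2) := by linarith [ht.1]
    have e4 : 1 / (4 * K ^ 2) = 1 / 4 * (1 / K ^ 2) := by
      field_simp
    have e2 : 1 / (2 * K ^ 2) = 1 / 2 * (1 / K ^ 2) := by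
      field_simp
    rw [e2]
    rw [e4] at hrc hK3
    have h4 : (1 - 2 * r l) * (1 / K ^ 2) ≤ Real.exp (-2 * r l) * Ml n (gm n) r 0 :=
      mul_le_mul h3 hM0 hKp.le (Real.exp_pos _).le
    have h5 : 2 * r l * (1 / K ^ 2) ≤ 2 * r l * 1 := mul_le_mul_of_nonneg_left hK2 (by linarith)
    have h6 : r l + t ≤ 1 / 4 * (1 / K ^ 2) := hc.trans hK3
    linarith
  have hR := dec_Rb_le hm hp hr.1 hl ht
  -- the integrand
  obtain ⟨g, hg⟩ : ∃ g, g = gm n (l + 1) := ⟨_, rfl⟩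
  obtain ⟨a, ha⟩ : ∃ a, a = 1 / (2 * K) := ⟨_, rfl⟩
  have ha0 : 0 < a := by rw [ha]; positivity
  have hc1 : Sp7Cb (fun x => iteratedDeriv 1 (Gb n (gm n) r l t) x ^ 2) :=
    sp7_cb_sq (blk2_cb ⟨K, hG.adm⟩ 0)
  have hc2 : Sp7Cb (fun x => iteratedDeriv 2 (Gb n (gm n) r l t) x ^ 2) :=
    sp7_cb_sq (blk2_cb ⟨K, hG.adm⟩ 1)
  have hd1 := nest_cb_smul (K ^ 2) hc1
  have hd2 := nest_cb_smul (-(3 * g * a)) hc2
  have h1 := blk2_mono hm hp hl ht (blk2_cb3 ⟨K, hG.adm⟩ (gm n (l + 1)))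
    (sp7_cb_add (sp7_cb_add hd1 hd2) (sp7_cb_const (g * a ^ 3))) (fun x => by
      have h2 := vari_d2_01 hG.adm x
      have h3 : iteratedDeriv 3 (Gb n (gm n) r l t) x ^ 2 ≤
          K ^ 2 * iteratedDeriv 1 (Gb n (gm n) r l t) x ^ 2 := by
        have := pow_le_pow_left₀ (abs_nonneg _) (hG.k3 x) 2
        rwa [mul_pow, sq_abs, sq_abs] at this
      rw [← hg] at g0 ⊢
      obtain ⟨y, hy⟩ : ∃ y, y = iteratedDeriv 2 (Gb n (gm n) r l t) x := ⟨_, rfl⟩
      rw [← hy] at h2 ⊢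
      have h4 : 0 ≤ g * ((y - a) ^ 2 * (2 * y + a)) :=
        mul_nonneg g0.le (mul_nonneg (sq_nonneg _) (by linarith [h2.1]))
      have h5 : g * ((y - a) ^ 2 * (2 * y + a)) =
          2 * g * y ^ 3 - 3 * g * a * y ^ 2 + g * a ^ 3 := by ring
      linarith)
  rw [dec_Bt_add hm hp hl ht (sp7_cb_add hd1 hd2) (sp7_cb_const _),
    dec_Bt_add hm hp hl ht hd1 hd2, dec_Bt_smul, dec_Bt_smul, blk2_const hm hp hl ht] at h1
  have h2 : M1b n (gm n) r l t ≤ K ^ 2 * Rb n (gm n) r l t +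
      -(3 * g * a) * Mb n (gm n) r l t + g * a ^ 3 := h1
  have h3 : K ^ 2 * Rb n (gm n) r l t ≤ K ^ 2 * (r l + t) :=
    mul_le_mul_of_nonneg_left hR (by positivity)
  have e1 : 1 / (2 * K ^ 2) = 2 * a ^ 2 := by
    rw [ha]
    field_simp
  have e2 : 1 / (4 * K ^ 3) = 2 * a ^ 3 := by
    rw [ha]
    field_simp
    norm_num
  rw [e1] at hM
  rw [e2, ← hg]
  rw [← hg] at g0
  have h4 : 3 * g * a * (2 * a ^ 2) ≤ 3 * g * a * Mb n (gm n) r l t :=
    mul_le_mul_of_nonneg_left hM (by positivity)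
  have h5 : 0 ≤ g * a ^ 3 := by positivity
  have e3 : 3 * g * a * (2 * a ^ 2) = 6 * (g * a ^ 3) := by ring
  have e4 : 2 * a ^ 3 * g = 2 * (g * a ^ 3) := by ring
  rw [e3] at h4
  rw [e4]
  linarith

end Vale.Agent.P146.Lb
end

section

/-!
# P146, L1: the first block of the constrained minimiser is long, and its first variation is large
-/

open MeasureTheory ProbabilityTheory Filter Topology Set

namespace Vale.Agent.P146.Lb

open Vale.Agent.P157.Par
open Vale.Agent.P146.Gap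
open Vale.Agent.P146.Pw2
open Vale.Agent.P367.Cl

theorem len_gm_mono {n i j : ℕ} (h : i ≤ j) : gm n i ≤ gm n j := grid_gm_mono h

theorem len_mono {b : ℝ} {n : ℕ} {r : ℕ → ℝ} (hr : BPath b n r) {i j : ℕ} (hij : i ≤ j)
    (hj : j ≤ n) : r i ≤ r j := minb_mono hr.2.1.2 hij hj

theorem len_nonneg {b : ℝ} {n : ℕ} {r : ℕ → ℝ} (hr : BPath b n r) {i : ℕ} (hi : i ≤ n) :
    0 ≤ r i := by
  have := len_mono hr (Nat.zero_le i) hi
  rwa [hr.1] at this

/-- a small quantity `e` with `e⁴ (n + 1) = 1`, below `√(x)`-powers -/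
theorem len_e {A x : ℝ} {n : ℕ} (hA : 0 < A) (h : A ^ 4 ≤ x ^ 8 * (n + 1)) :
    ∃ e : ℝ, 0 < e ∧ 1 ≤ e ^ 4 * (n + 1) ∧ A * e ≤ x ^ 2 := by
  have hn : (0 : ℝ) < n + 1 := by positivity
  refine ⟨√(√(1 / (n + 1))), by positivity, ?_, ?_⟩
  · have e1 : √(√(1 / ((n : ℝ) + 1))) ^ 4 = 1 / (n + 1) := by
      rw [show (4 : ℕ) = 2 * 2 by rfl, pow_mul, Real.sq_sqrt (Real.sqrt_nonneg _),
        Real.sq_sqrt (by positivity)]
    rw [e1]
    field_simp
    exact le_rfl
  · have e1 : √(√(1 / ((n : ℝ) + 1))) ^ 4 = 1 / (n + 1) := by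
      rw [show (4 : ℕ) = 2 * 2 by rfl, pow_mul, Real.sq_sqrt (Real.sqrt_nonneg _),
        Real.sq_sqrt (by positivity)]
    refine (pow_le_pow_iff_left₀ (by positivity) (by positivity) (four_ne_zero)).1 ?_
    rw [mul_pow, e1, ← pow_mul, mul_one_div, div_le_iff₀ hn]
    exact h

/-- `M` decreases on the blocks `l ≥ d - 1` below the time `κ x`. -/
theorem len_dec {b c K : ℝ} {n d : ℕ} {r : ℕ → ℝ} (hc : 0 < c) (hK : 1 ≤ K)
    (hdec : ∀ (n : ℕ) (r : ℕ → ℝ), BPath b n r →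
    ∀ l < n, ∀ t ∈ Icc 0 (r (l + 1) - r l), r l + t ≤ c →
      M1b n (gm n) r l t ≤ K * (r l + t) - c * gm n (l + 1)) (hr : BPath b n r)
    (hx1 : gm n d ≤ 1) {l : ℕ} (hl : l < n) (hdl : d ≤ l + 1) {T : ℝ}
    (hT : T ∈ Icc 0 (r (l + 1) - r l)) (hW : r l + T ≤ c / (2 * K) * gm n d) :
    Mb n (gm n) r l T ≤ Mb n (gm n) r l 0 - c / 2 * gm n d * T := by
  have hm := gm_exponents n
  have hx0 : 0 ≤ gm n d := grid_gm_nonneg n d
  have h1 := lreal_le (f := Mb n (gm n) r l) (f' := M1b n (gm n) r l) (a := -(c / 2 * gm n d))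
    hT.1 ((Mb_cont hm hr.2.1 hl).mono (Icc_subset_Icc_right hT.2))
    (fun s hs => Mb_deriv hm hr.2.1 hl ⟨hs.1, hs.2.trans_le hT.2⟩)
    (fun s hs => by
      have h2 : c / (2 * K) * gm n d ≤ c := by
        have e1 : c / (2 * K) ≤ c := by
          rw [div_le_iff₀ (by positivity)]
          nlinarith
        calc c / (2 * K) * gm n d ≤ c * 1 := mul_le_mul e1 hx1 hx0 hc.le
          _ = c := mul_one c
      have h3 := hdec n r hr l hl s ⟨hs.1.le, (hs.2.trans_le hT.2).le⟩ (by linarith [hs.2])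
      have h4 : K * (r l + s) ≤ K * (c / (2 * K) * gm n d) :=
        mul_le_mul_of_nonneg_left (by linarith [hs.2]) (by linarith)
      have h5 : K * (c / (2 * K) * gm n d) = c / 2 * gm n d := by
        field_simp
      have h6 : gm n d ≤ gm n (l + 1) := len_gm_mono hdl
      have h7 : c * gm n d ≤ c * gm n (l + 1) := mul_le_mul_of_nonneg_left h6 hc.le
      linarith)
  linarith

theorem lenD {b : ℝ} (hb : 1 < b) : ∃ c C : ℝ, 0 < c ∧ 1 ≤ C ∧ ∀ (n d : ℕ) (r : ℕ → ℝ),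
    1 ≤ d → d ≤ n → IsMinD b n d r → gm n d ≤ c → C ≤ gm n d ^ 8 * (n + 1) →
      c * gm n d ≤ r d := by
  obtain ⟨Cu, hCu, hun⟩ := unifD hb
  obtain ⟨cl, hcl, hlast⟩ := lastD hb
  obtain ⟨cd, K, hcd, hK, hdec⟩ := decD b
  set κ := cd / (2 * K) with hκ
  have hκ0 : 0 < κ := by positivity
  set A := 16 * Cu / (cd * κ) with hA
  have hA0 : 0 < A := by positivity
  refine ⟨min (min (κ / 2) (cl / (2 * κ))) 1, max (max (A ^ 4) (1 / cl)) 1, by positivity,
    le_max_right _ _, fun n d r hd1 hdn hmin hx hC => ?_⟩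
  set x := gm n d with hxdef
  have hx0 : 0 < x := grid_gm_pos hd1
  have hx1 : x ≤ 1 := hx.trans (min_le_right _ _)
  have hxl : x ≤ cl / (2 * κ) := hx.trans ((min_le_left _ _).trans (min_le_right _ _))
  have hr := hmin.1
  have hm := gm_exponents n
  have hn1 : (0 : ℝ) < n + 1 := by positivity
  obtain ⟨e, he, hen, hAe⟩ := len_e (n := n) hA0
    ((le_max_left _ _).trans ((le_max_left _ _).trans hC))
  -- r n is not small
  have hrn : cl ≤ r n := by
    refine hlast n d r hd1 hdn hmin ?_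
    have h1 : 1 / cl ≤ x ^ 8 * (n + 1) := (le_max_right _ _).trans ((le_max_left _ _).trans hC)
    have h2 : x ^ 8 * ((n : ℝ) + 1) ≤ 1 * (n + 1) :=
      mul_le_mul_of_nonneg_right (pow_le_one₀ hx0.le hx1) hn1.le
    rw [div_le_iff₀ hcl] at h1
    nlinarith
  by_contra hcon
  push Not at hcon
  have hrd : r d < κ / 2 * x := by
    refine hcon.trans_le (mul_le_mul_of_nonneg_right ?_ hx0.le)
    exact (min_le_left _ _).trans (min_le_left _ _)
  have hκx : 0 < κ * x := by positivity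
  have hWn : κ * x < r n := by
    have h1 : κ * x ≤ κ * (cl / (2 * κ)) := mul_le_mul_of_nonneg_left hxl hκ0.le
    have h2 : κ * (cl / (2 * κ)) = cl / 2 := by field_simp
    linarith
  -- the first level after which the path leaves r d
  have hex : ∃ l, d ≤ l ∧ r d < r (l + 1) := by
    refine ⟨n - 1, ?_, ?_⟩
    · rcases Nat.lt_or_ge d n with h | h
      · omega
      · have : d = n := by omega
        rw [this] at hrd
        linarith
    · have e : n - 1 + 1 = n := by omega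
      rw [e]
      linarith
  classical
  set l1 := Nat.find hex with hl1
  obtain ⟨hdl1, hl1r⟩ := Nat.find_spec hex
  have hl1n : l1 < n := by
    have h1 : l1 ≤ n - 1 := by
      refine Nat.find_min' hex ⟨?_, ?_⟩
      · rcases Nat.lt_or_ge d n with h | h
        · omega
        · have : d = n := by omega
          rw [this] at hrd
          linarith
      · have e : n - 1 + 1 = n := by omega
        rw [e]
        linarith
    omega
  have hr1 : r l1 = r d := by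
    refine le_antisymm ?_ (len_mono hr hdl1 hl1n.le)
    by_contra h
    push Not at h
    have hne : l1 ≠ d := fun h' => by rw [h'] at h; exact lt_irrefl _ h
    have h1 := Nat.find_min hex (m := l1 - 1) (by omega)
    apply h1
    refine ⟨by omega, ?_⟩
    have e : l1 - 1 + 1 = l1 := by omega
    rw [e]
    exact h
  -- the last level below the time κ x
  set l2 := Nat.findGreatest (fun l => r l ≤ κ * x) n with hl2
  have hl2W : r l2 ≤ κ * x := by
    have := Nat.findGreatest_spec (P := fun l => r l ≤ κ * x) (m := l1) (n := n) hl1n.le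
      (by rw [hr1]; linarith)
    exact this
  have hl12 : l1 ≤ l2 := Nat.le_findGreatest hl1n.le (by rw [hr1]; linarith)
  have hl2n : l2 < n := by
    rcases (Nat.findGreatest_le (P := fun l => r l ≤ κ * x) n).lt_or_eq with h | h
    · exact h
    · rw [← hl2] at h
      rw [h] at hl2W
      linarith
  have hl2r : κ * x < r (l2 + 1) := by
    by_contra h
    push Not at h
    have := Nat.le_findGreatest (P := fun l => r l ≤ κ * x) (m := l2 + 1) (n := n) hl2n h
    omega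
  -- induction
  have hind : ∀ i, l1 + i ≤ l2 → Ml n (gm n) r (l1 + i) ≤
      Ml n (gm n) r l1 - cd / 2 * x * (r (l1 + i) - r l1) := by
    intro i
    induction i with
    | zero => intro _; simp
    | succ i ih =>
      intro hi
      have h1 := ih (by omega)
      have hli : l1 + i < n := by omega
      have h2 : r (l1 + i) ≤ r (l1 + i + 1) := len_mono hr (Nat.le_succ _) (by omega)
      have h3 : r (l1 + i + 1) ≤ r l2 := len_mono hr hi hl2n.le
      have h4 := len_dec hcd hK hdec hr hx1 hli (by omega)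
        (T := r (l1 + i + 1) - r (l1 + i)) ⟨by linarith, le_rfl⟩ (by
          rw [← hκ]
          linarith)
      rw [Mb_last hm hr.2.1 hli, Mb_zero hm hr.2.1 hli] at h4
      have e : l1 + (i + 1) = l1 + i + 1 := rfl
      rw [e]
      linarith
  have h5 := hind (l2 - l1) (by omega)
  rw [Nat.add_sub_cancel' hl12] at h5
  -- inside the block l2
  have hT : κ * x - r l2 ∈ Icc 0 (r (l2 + 1) - r l2) := ⟨by linarith, by linarith⟩
  have h6 := len_dec hcd hK hdec hr hx1 hl2n (by omega) hT (by rw [← hκ]; linarith)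
  rw [Mb_zero hm hr.2.1 hl2n] at h6
  have h7 := hun n d r l2 e hmin (by omega) (by omega) hl2n (by linarith) he hen _ hT
  have h8 := hun n d r l1 e hmin (by omega) (by omega) hl1n (by rw [hr1]; exact hl1r) he hen 0
    ⟨le_rfl, by rw [hr1]; linarith⟩
  rw [Mb_zero hm hr.2.1 hl1n] at h8
  have h9 := (abs_le.1 h7).1
  have h10 := (abs_le.1 h8).2
  rw [hr1] at h5
  have h11 : cd / 2 * x * (κ * x - r d) ≤ 2 * (Cu * e) := by nlinarith
  have h12 : cd / 2 * x * (κ / 2 * x) ≤ cd / 2 * x * (κ * x - r d) :=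
    mul_le_mul_of_nonneg_left (by linarith) (by positivity)
  have h13 : A * e * (cd * κ) = 16 * (Cu * e) := by
    rw [hA]
    field_simp
  have h14 : A * e * (cd * κ) ≤ x ^ 2 * (cd * κ) := mul_le_mul_of_nonneg_right hAe (by positivity)
  have h15 : cd / 2 * x * (κ / 2 * x) = x ^ 2 * (cd * κ) / 4 := by ring
  have h16 : 0 < Cu * e := by positivity
  nlinarith

theorem gainD {b : ℝ} (hb : 1 < b) : ∃ a c C : ℝ, 0 < a ∧ 0 < c ∧ 1 ≤ C ∧
    ∀ (n d : ℕ) (r : ℕ → ℝ), IsMinD b n (d + 1) r → d < n → gm n (d + 1) ≤ c →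
      C ≤ gm n (d + 1) ^ 8 * (n + 1) → a * gm n (d + 1) ≤ r (d + 1) ∧
      c * gm n (d + 1) ^ 4 ≤
        ∫ s in (0 : ℝ)..(a * gm n (d + 1)), (Rb n (gm n) r d s - s / b ^ 2) := by
  obtain ⟨c₁, C₁, hc₁, hC₁, hlen⟩ := lenD hb
  obtain ⟨Cv, hCv, hvar⟩ := var_downD hb
  obtain ⟨cd, K, hcd, hK, hdec⟩ := decD b
  have hb2 : 0 < b ^ 2 := by positivity
  set κ := min c₁ (cd / (2 * K)) with hκ
  have hκ0 : 0 < κ := by positivity
  set c₂ := cd / 2 with hc₂
  have hc₂0 : 0 < c₂ := by positivity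
  set α := c₂ * κ / 8 with hα
  have hα0 : 0 < α := by positivity
  set a := min (α / 2) κ with ha
  have ha0 : 0 < a := by positivity
  set D := 64 * Cv * b ^ 4 / (c₂ * κ ^ 3) with hD
  have hD0 : 0 < D := by positivity
  refine ⟨a, min (min c₁ (α * a ^ 2 / 3)) 1, max C₁ D, ha0, by positivity,
    le_max_of_le_left hC₁, fun n d r hmin hdn hx hC => ?_⟩
  set x := gm n (d + 1) with hxdef
  have hx0 : 0 < x := grid_gm_pos (by omega)
  have hx1 : x ≤ 1 := hx.trans (min_le_right _ _)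
  have hr := hmin.1
  have hm := gm_exponents n
  have hn1 : (0 : ℝ) < n + 1 := by positivity
  have hV := hlen n (d + 1) r (by omega) hdn hmin (hx.trans ((min_le_left _ _).trans
    (min_le_left _ _))) ((le_max_left _ _).trans hC)
  have hrd : r d = 0 := hmin.2.1 d (Nat.lt_succ_self d)
  set V := r (d + 1) with hVdef
  have hκV : κ * x ≤ V := (mul_le_mul_of_nonneg_right (min_le_left _ _) hx0.le).trans hV
  have haV : a * x ≤ V := (mul_le_mul_of_nonneg_right (min_le_right _ _) hx0.le).trans hκV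
  have hVb : V ≤ b ^ 2 := (len_mono hr hdn le_rfl).trans hr.2.2
  have hV0 : 0 < V := (by positivity : 0 < κ * x).trans_le hκV
  have eV : r (d + 1) - r d = V := by rw [hrd, sub_zero]
  refine ⟨haV, ?_⟩
  -- data
  have hfc : ContinuousOn (fun s => Rb n (gm n) r d s - s / b ^ 2) (Icc 0 V) := by
    have := Rb_cont hm hr.2.1 hdn
    rw [eV] at this
    exact this.sub (by fun_prop)
  have hkc : ContinuousOn (fun s => Mb n (gm n) r d s - 1 / b ^ 2) (Icc 0 V) := by
    have := Mb_cont hm hr.2.1 hdn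
    rw [eV] at this
    exact this.sub (by fun_prop)
  have h1 : ∀ t ∈ Ioo 0 V, HasDerivAt (fun s => Rb n (gm n) r d s - s / b ^ 2)
      (Mb n (gm n) r d t - 1 / b ^ 2) t := fun t ht =>
    (Rb_deriv hm hr.2.1 hdn (by rw [eV]; exact ht)).sub ((hasDerivAt_id t).div_const _)
  have h2 : ∀ t ∈ Ioo 0 V, HasDerivAt (fun s => Mb n (gm n) r d s - 1 / b ^ 2)
      (M1b n (gm n) r d t) t := fun t ht =>
    (Mb_deriv hm hr.2.1 hdn (by rw [eV]; exact ht)).sub_const _
  have h3 : ∀ t ∈ Ioo 0 V, HasDerivAt (M1b n (gm n) r d) (M2b n (gm n) r d t) t := fun t ht =>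
    M1b_deriv hm hr.2.1 hdn (by rw [eV]; exact ht)
  have h4 : ∀ t ∈ Ioo 0 V, 0 ≤ M2b n (gm n) r d t := fun t ht =>
    M2b_nonneg hm hr.2.1 hr.1 hdn (by rw [eV]; exact ⟨ht.1.le, ht.2.le⟩)
      (by rw [hrd]; linarith [ht.1])
  have h5 : ∀ t ∈ Ioo 0 V, t ≤ κ * x → M1b n (gm n) r d t ≤ -(c₂ * x) := fun t ht htx => by
    have e1 : κ * x ≤ cd / (2 * K) * x := mul_le_mul_of_nonneg_right (min_le_right _ _) hx0.le
    have e2 : cd / (2 * K) * x ≤ cd := by
      have e3 : cd / (2 * K) ≤ cd := by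
        rw [div_le_iff₀ (by positivity)]
        nlinarith
      calc cd / (2 * K) * x ≤ cd * 1 := mul_le_mul e3 hx1 hx0.le hcd.le
        _ = cd := mul_one cd
    have e4 := hdec n r hr d hdn t (by rw [eV]; exact ⟨ht.1.le, ht.2.le⟩)
      (by rw [hrd]; linarith)
    rw [hrd, zero_add, ← hxdef] at e4
    have e5 : K * t ≤ K * (cd / (2 * K) * x) :=
      mul_le_mul_of_nonneg_left (by linarith) (by linarith)
    have e6 : K * (cd / (2 * K) * x) = cd / 2 * x := by field_simp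
    rw [hc₂]
    linarith
  have hf0 : Rb n (gm n) r d 0 - 0 / b ^ 2 = 0 := by
    rw [Rb_zero hm hr.2.1 hdn, spR_zero hm hr.2.1 hr.1 hdn.le hrd]
    simp
  have hst := statD (by linarith) hmin (d + 1) hdn
  have hfV : Rb n (gm n) r d V - V / b ^ 2 = 0 := by
    have e1 := Rb_last hm hr.2.1 hdn
    rw [eV] at e1
    rw [e1, hVdef, hst]
    field_simp
    simp
  have h6 : ∀ t ∈ Icc 0 V, -(Cv / (n + 1) * (V - t) ^ 2) ≤
      ∫ s in t..V, (Rb n (gm n) r d s - s / b ^ 2) := fun t ht => by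
    have := hvar n (d + 1) r d hmin hdn le_rfl t (by rw [eV]; exact ht)
    rw [eV] at this
    simpa only [hrd, zero_add] using this
  have h5' : ∀ t ∈ Ioo 0 V, -(2 * x) ≤ M1b n (gm n) r d t := fun t ht =>
    M1b_low hm hr.2.1 hdn (by rw [eV]; exact ⟨ht.1.le, ht.2.le⟩)
  have h7 : Cv / (n + 1) * V ^ 2 < c₂ * κ ^ 3 * x ^ 4 / 32 := by
    have e1 : D ≤ x ^ 8 * (n + 1) := (le_max_right _ _).trans hC
    have e2 : x ^ 8 * ((n : ℝ) + 1) ≤ x ^ 4 * (n + 1) := by
      refine mul_le_mul_of_nonneg_right ?_ hn1.le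
      exact pow_le_pow_of_le_one hx0.le hx1 (by norm_num)
    have e3 : D ≤ x ^ 4 * (n + 1) := e1.trans e2
    rw [hD, div_le_iff₀ (by positivity)] at e3
    have e4 : V ^ 2 ≤ b ^ 4 := by
      calc V ^ 2 ≤ (b ^ 2) ^ 2 := pow_le_pow_left₀ hV0.le hVb 2
        _ = b ^ 4 := by ring
    have e5 : Cv / (n + 1) * V ^ 2 ≤ Cv / (n + 1) * b ^ 4 :=
      mul_le_mul_of_nonneg_left e4 (by positivity)
    refine e5.trans_lt ?_
    rw [div_mul_eq_mul_div, div_lt_iff₀ hn1]
    have e6 : 0 < Cv * b ^ 4 := by positivity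
    nlinarith
  have hk0 := lreal_first hx0 hc₂0 hκ0 hκV hfc hkc h1 h2 h3 h4 h5 hf0 hfV h6 (by positivity) h7
  have hg := lreal_gain (A := α) hx0 ha0 (by
      have : a ≤ α / 2 := min_le_left _ _
      linarith) haV hfc hk0 hkc h1 h2 h5' hf0
  refine le_trans (mul_le_mul_of_nonneg_right ?_ (by positivity)) hg
  exact (min_le_left _ _).trans (min_le_right _ _)

end Vale.Agent.P146.Lb
end

section

/-!
# P146, L1: the cost of exponents at least `x` is at least `c x⁵`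
-/

open MeasureTheory ProbabilityTheory Filter Topology Set

namespace Vale.Agent.P146.Lb

open Vale.Agent.P157.Par
open Vale.Agent.P146.Gap
open Vale.Agent.P146.Pw2
open Vale.Agent.P367.Cl

/-- The competitor. -/
noncomputable def one_r (d2 d : ℕ) (τ : ℝ) (r : ℕ → ℝ) (l : ℕ) : ℝ :=
  if l < d2 then 0 else if l < d then τ else r l

theorem one_path {b τ : ℝ} {n d2 d : ℕ} {r : ℕ → ℝ} (hr : BPath b n r) (hd2 : 1 ≤ d2)
    (hd : d2 ≤ d) (hdn : d ≤ n) (hτ : 0 ≤ τ) (hτr : τ ≤ r d) : BPath b n (one_r d2 d τ r) := by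
  have h0 : one_r d2 d τ r 0 = 0 := by simp [one_r, show 0 < d2 by omega]
  refine ⟨h0, ⟨h0.ge, fun l hl => ?_⟩, ?_⟩
  · unfold one_r
    have h1 : 0 ≤ r (l + 1) := len_nonneg hr (by omega)
    split_ifs with h2 h3 h4 h5 h6 h7 <;> first | omega | exact le_rfl | exact hτ | exact h1 | skip
    · have : l + 1 = d := by omega
      rw [this]; exact hτr
    · exact hr.2.1.2 l hl
  · unfold one_r
    rw [if_neg (by omega), if_neg (by omega)]
    exact hr.2.2

theorem one_fl {n d2 d : ℕ} {m r : ℕ → ℝ} {τ : ℝ} (hd : d2 ≤ d) :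
    Fl n m (one_r d2 d τ r) d = Fl n m r d := by
  unfold Fl
  refine minb_congr (fun _ _ _ => rfl) (fun l _ => ?_) lc
  show one_r d2 d τ r (d + l) = r (d + l)
  unfold one_r
  rw [if_neg (by omega), if_neg (by omega)]

theorem one_spin {k : ℕ} {m r : ℕ → ℝ} (h0 : r 0 = 0) :
    spinPart k m r = cascade m r k lc 0 - r k / 2 := by
  unfold spinPart
  rw [h0]
  simp
  rfl

theorem one_sum {n d2 d : ℕ} {r : ℕ → ℝ} {τ : ℝ} (hd : d2 ≤ d) (hdn : d ≤ n)
    (hr : ∀ l < d, r l = 0) :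
    ∑ l ∈ Finset.range (n + 1), (gm n (l + 1) - gm n l) * one_r d2 d τ r l ^ 2 =
      (∑ l ∈ Finset.range (n + 1), (gm n (l + 1) - gm n l) * r l ^ 2) +
        (gm n d - gm n d2) * τ ^ 2 := by
  have hstep : ∀ l : ℕ, gm n (l + 1) - gm n l = 1 / (n + 1) := fun l => by
    unfold gm
    push_cast
    ring
  have h1 : ∀ l ∈ Finset.range (n + 1), (gm n (l + 1) - gm n l) * one_r d2 d τ r l ^ 2 =
      (gm n (l + 1) - gm n l) * r l ^ 2 +
        if l ∈ Finset.Ico d2 d then 1 / ((n : ℝ) + 1) * τ ^ 2 else 0 := fun l _ => by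
    rw [hstep]
    unfold one_r
    simp only [Finset.mem_Ico]
    by_cases h2 : l < d2
    · rw [if_pos h2, if_neg (by omega), hr l (by omega)]
      ring
    · rw [if_neg h2]
      by_cases h3 : l < d
      · rw [if_pos h3, if_pos (by omega), hr l h3]
        ring
      · rw [if_neg h3, if_neg (by omega)]
        ring
  rw [Finset.sum_congr rfl h1, Finset.sum_add_distrib]
  congr 1
  rw [Finset.sum_ite_mem, Finset.inter_eq_right.2 (fun l hl => by
    rw [Finset.mem_Ico] at hl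
    rw [Finset.mem_range]
    omega), Finset.sum_const, Nat.card_Ico, nsmul_eq_mul, Nat.cast_sub hd]
  unfold gm
  ring

theorem l1 {b : ℝ} (hb : 1 < b) : ∃ c C : ℝ, 0 < c ∧ 1 ≤ C ∧ ∀ n d : ℕ, 1 ≤ d → d ≤ n →
    gm n d ≤ c → C ≤ gm n d ^ 8 * (n + 1) → ∃ r', BPath b n r' ∧ ∀ q : ℕ → ℝ,
      Vale.Agent.P157.Par.Path n q → q n ≤ 1 →
      (∀ l < d, q l = 0) → SKr b n (gm n) r' + c * gm n d ^ 5 ≤ SKpar b n (gm n) q := by
  obtain ⟨a, c, C, ha, hc, hC, hgain⟩ := gainD hb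
  obtain ⟨K, hK, htilt⟩ := Rf_tilt4 (b ^ 2)
  have hb0 : 0 < b := by linarith
  have hb2 : 0 < b ^ 2 := by positivity
  set θ := min (1 / 2) (c / (K * a ^ 3 + 1)) with hθ
  have hθ0 : 0 < θ := by positivity
  have hθ1 : θ ≤ 1 / 2 := min_le_left _ _
  have hθ2 : K * θ * a ^ 3 ≤ c := by
    have h1 : θ * (K * a ^ 3 + 1) ≤ c := by
      have := min_le_right (1 / 2) (c / (K * a ^ 3 + 1))
      rw [← hθ, le_div_iff₀ (by positivity)] at this
      exact this
    nlinarith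
  refine ⟨min c (min 1 (θ * c / 8)), max C (1 / θ), by positivity, le_max_of_le_left hC,
    fun n d hd1 hdn hx hCx => ?_⟩
  obtain ⟨d0, rfl⟩ : ∃ d0, d = d0 + 1 := ⟨d - 1, by omega⟩
  set x := gm n (d0 + 1) with hxdef
  have hx0 : 0 < x := grid_gm_pos hd1
  have hx1 : x ≤ 1 := hx.trans ((min_le_right _ _).trans (min_le_left _ _))
  have hn1 : (0 : ℝ) < n + 1 := by positivity
  have hm := gm_exponents n
  obtain ⟨r, hmin⟩ := exists_minD (n := n) hb0 hdn
  obtain ⟨haV, hint⟩ := hgain n d0 r hmin (by omega) (hx.trans (min_le_left _ _))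
    ((le_max_left _ _).trans hCx)
  have hr := hmin.1
  set τ := a * x with hτ
  have hτ0 : 0 < τ := by positivity
  set V := r (d0 + 1) with hV
  have hVb : V ≤ b ^ 2 := (len_mono hr hdn le_rfl).trans hr.2.2
  have hrd : r d0 = 0 := hmin.2.1 d0 (Nat.lt_succ_self _)
  -- the shift of the exponent
  have hdR : ((d0 + 1 : ℕ) : ℝ) = x * (n + 1) := by
    rw [hxdef]
    unfold gm
    field_simp
  have hθd : 1 ≤ θ * ((d0 + 1 : ℕ) : ℝ) := by
    have h1 : 1 / θ ≤ x ^ 8 * (n + 1) := (le_max_right _ _).trans hCx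
    have h2 : x ^ 8 * ((n : ℝ) + 1) ≤ x * (n + 1) := by
      refine mul_le_mul_of_nonneg_right ?_ hn1.le
      calc x ^ 8 ≤ x ^ 1 := pow_le_pow_of_le_one hx0.le hx1 (by norm_num)
        _ = x := pow_one x
    rw [hdR]
    have h3 : 1 / θ ≤ x * (n + 1) := h1.trans h2
    rw [div_le_iff₀ hθ0] at h3
    linarith
  set j := ⌊θ * ((d0 + 1 : ℕ) : ℝ)⌋₊ with hj
  have hj1 : 1 ≤ j := by
    rw [hj, Nat.one_le_floor_iff]
    exact hθd
  have hjle : (j : ℝ) ≤ θ * ((d0 + 1 : ℕ) : ℝ) := Nat.floor_le (by positivity)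
  have hjge : θ * ((d0 + 1 : ℕ) : ℝ) / 2 ≤ j := by
    have h1 := Nat.lt_floor_add_one (θ * ((d0 + 1 : ℕ) : ℝ))
    rw [← hj] at h1
    have h2 : (1 : ℝ) ≤ j := by exact_mod_cast hj1
    linarith
  have hjd : 2 * j ≤ d0 + 1 := by
    have h1 : (2 * j : ℝ) ≤ ((d0 + 1 : ℕ) : ℝ) := by nlinarith
    exact_mod_cast h1
  obtain ⟨d2, hd2⟩ : ∃ d2, d0 + 1 = d2 + j := ⟨d0 + 1 - j, by omega⟩
  have hd21 : 1 ≤ d2 := by omega
  set x' := gm n d2 with hx'
  have hx'0 : 0 < x' := grid_gm_pos hd21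
  have hxx : x - x' = j / (n + 1) := by
    have h1 : ((d0 + 1 : ℕ) : ℝ) = d2 + j := by exact_mod_cast hd2
    rw [hxdef, hx']
    unfold gm
    rw [h1]
    ring
  have hxx1 : x - x' ≤ θ * x := by
    rw [hxx, div_le_iff₀ hn1]
    calc (j : ℝ) ≤ θ * ((d0 + 1 : ℕ) : ℝ) := hjle
      _ = θ * x * (n + 1) := by rw [hdR]; ring
  have hxx2 : θ * x / 2 ≤ x - x' := by
    rw [hxx, le_div_iff₀ hn1]
    calc θ * x / 2 * (n + 1) = θ * ((d0 + 1 : ℕ) : ℝ) / 2 := by rw [hdR]; ring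
      _ ≤ j := hjge
  have hxx0 : 0 < x - x' := (by positivity : 0 < θ * x / 2).trans_le hxx2
  -- the competitor
  have hd2d : d2 ≤ d0 + 1 := by omega
  have hpath := one_path (τ := τ) hr hd21 hd2d hdn hτ0.le haV
  refine ⟨one_r d2 (d0 + 1) τ r, hpath, fun q hq hq1 hq0 => ?_⟩
  -- the value of the minimiser
  have hmq : SKr b n (gm n) r ≤ SKpar b n (gm n) q := by
    have h1 := hmin.2.2 (fun l => b ^ 2 * q l) ⟨by simp [hq0 0 (by omega)],
      ⟨mul_nonneg hb2.le hq.1, fun l hl => mul_le_mul_of_nonneg_left (hq.2 l hl) hb2.le⟩, by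
        show b ^ 2 * q n ≤ b ^ 2
        nlinarith⟩ (fun l hl => by simp [hq0 l hl])
    have h2 : SKpar b n (gm n) q = SKr b n (gm n) (fun l => b ^ 2 * q l) := by
      unfold SKpar SKr
      have h3 : ∀ l, (gm n (l + 1) - gm n l) * (b ^ 2 * q l) ^ 2 =
          b ^ 4 * ((gm n (l + 1) - gm n l) * q l ^ 2) := fun l => by ring
      simp only [h3]
      rw [← Finset.mul_sum]
      field_simp
      ring
    rw [h2]
    exact h1
  -- the cascades
  obtain ⟨CG, hG⟩ : ∃ CG, Good (gm n (d0 + 1)) CG (Fl n (gm n) r (d0 + 1)) := by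
    obtain ⟨C0, h0⟩ := fl_good hm hr.2.1 hdn
    exact ⟨C0, h0.lower hx0 (grid_gm_mono (Nat.le_succ _))⟩
  set G := Fl n (gm n) r (d0 + 1) with hGdef
  have hGa := hG.adm
  have hpos : ∀ l, 1 ≤ l → l ≤ d0 + 1 → gm n l ≠ 0 := fun l h1 _ => (grid_gm_pos h1).ne'
  have c1 : cascade (gm n) r n lc 0 = gstep x V G 0 := by
    rw [fl_split hdn, minb_block (by omega) hpos (fun l hl => by
      rw [hmin.2.1 l hl, hmin.2.1 0 (by omega)]), hr.1, sub_zero]
  set H := gstep x (V - τ) G with hH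
  have c2 : cascade (gm n) (one_r d2 (d0 + 1) τ r) n lc 0 = gstep x' τ H 0 := by
    rw [fl_split hdn, one_fl hd2d, ← hGdef, cascade_succ_def]
    have e1 : one_r d2 (d0 + 1) τ r (d0 + 1) = V := by
      unfold one_r
      rw [if_neg (by omega), if_neg (by omega)]
    have e2 : one_r d2 (d0 + 1) τ r d0 = τ := by
      unfold one_r
      rw [if_neg (by omega), if_pos (by omega)]
    rw [e1, e2, ← hxdef, ← hH]
    have e3 : d2 + (j - 1) = d0 := by omega
    have e4 : cascade (gm n) (one_r d2 (d0 + 1) τ r) d0 H =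
        cascade (gm n) (one_r d2 (d0 + 1) τ r) d2 H := by
      have := grid_const (m := gm n) (r := one_r d2 (d0 + 1) τ r) (L := d2) (j - 1) H
        (fun l h1 _ => grid_gm_pos h1) (fun l h1 h2 => by
          unfold one_r
          rw [if_neg (by omega), if_pos (by omega), if_neg (by omega), if_pos (by omega)])
      rwa [e3] at this
    rw [e4, minb_block hd21 (fun l h1 _ => (grid_gm_pos h1).ne') (fun l hl => by
      unfold one_r
      rw [if_pos hl, if_pos (by omega)])]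
    have e5 : one_r d2 (d0 + 1) τ r d2 = τ := by
      unfold one_r
      rw [if_neg (by omega), if_pos (by omega)]
    have e6 : one_r d2 (d0 + 1) τ r 0 = 0 := hpath.1
    rw [e5, e6, sub_zero]
  have hHa : ∃ CH, Adm CH H := by
    have := hG.step hx0 le_rfl hx1 (s := V - τ) (by linarith)
    exact ⟨_, this.adm⟩
  obtain ⟨CH, hHa⟩ := hHa
  have c3 : gstep x V G 0 = gstep x τ H 0 := by
    rw [hH, gstep_add hGa hx0 hτ0.le (by linarith)]
    congr 2
    ring
  have hx'1 : x' ≤ 1 := by linarith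
  have c4 := gstep_diff hHa hx0 hx1 hx'0 hx'1 hτ0.le 0
  -- the integrand
  have c5 : ∀ s ∈ Icc 0 τ, Rb n (gm n) r d0 s - K * (x - x') * s ^ 2 ≤ Rf x' x τ H s := by
    intro s hs
    have h1 := htilt CH x x' x τ H hHa hx0 hx1 hx'0 (by linarith) hx1 (haV.trans hVb) s hs
    have h2 : Rb n (gm n) r d0 s = Rf x x τ H s := by
      have e1 : Gb n (gm n) r d0 s = gstep x (τ - s) H := by
        unfold Gb
        rw [hH, gstep_add hGa hx0 (by linarith [hs.2]) (by linarith), hrd]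
        have e2 : V - 0 - s = τ - s + (V - τ) := by ring
        rw [← hxdef, ← hGdef, ← hV, e2]
      unfold Rb Bt
      have hcb : ∃ C', Adm C' (Gb n (gm n) r d0 s) := by
        rw [e1]
        have := hG.step hx0 le_rfl hx1 (s := V - s) (by linarith [hs.2])
        rw [hH, gstep_add hGa hx0 (by linarith [hs.2]) (by linarith)]
        have e2 : τ - s + (V - τ) = V - s := by ring
        rw [e2]
        exact ⟨_, this.adm⟩
      obtain ⟨C', hC'⟩ := hcb
      rw [rep_zero hm hr.2.1 hr.1 (by omega) hrd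
        (sp7_cb_tlt (adm_ec hC') (nest_cb_pow (nest_cb1 hC') 2) _ _), e1]
      rfl
    rw [h2]
    linarith
  have hRbc : ContinuousOn (Rb n (gm n) r d0) (Icc 0 τ) := by
    refine (Rb_cont hm hr.2.1 (by omega)).mono (Icc_subset_Icc_right ?_)
    rw [hrd, sub_zero]
    exact haV
  have i1 : IntervalIntegrable (Rb n (gm n) r d0) volume 0 τ :=
    ContinuousOn.intervalIntegrable (by rw [uIcc_of_le hτ0.le]; exact hRbc)
  have i2 : IntervalIntegrable (fun s => K * (x - x') * s ^ 2) volume 0 τ :=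
    Continuous.intervalIntegrable (by fun_prop) _ _
  have i3 : IntervalIntegrable (Rf x' x τ H) volume 0 τ :=
    ContinuousOn.intervalIntegrable (by
      rw [uIcc_of_le hτ0.le]
      exact Rf_cont hHa hx0 hx1 hx'0 hx'1)
  have c6 := intervalIntegral.integral_mono_on hτ0.le (i1.sub i2) i3 c5
  have c7 : ∫ s in (0 : ℝ)..τ, (Rb n (gm n) r d0 s - K * (x - x') * s ^ 2) =
      (∫ s in (0 : ℝ)..τ, Rb n (gm n) r d0 s) - K * (x - x') * (τ ^ 3 / 3) := by
    rw [intervalIntegral.integral_sub i1 i2, intervalIntegral.integral_const_mul, integral_pow]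
    norm_num
  have c8 : ∫ s in (0 : ℝ)..τ, (Rb n (gm n) r d0 s - s / b ^ 2) =
      (∫ s in (0 : ℝ)..τ, Rb n (gm n) r d0 s) - τ ^ 2 / 2 / b ^ 2 := by
    rw [intervalIntegral.integral_sub i1 (Continuous.intervalIntegrable (by fun_prop) _ _),
      intervalIntegral.integral_div, integral_id]
    norm_num
  rw [c7] at c6
  rw [c8] at hint
  -- the difference of the values
  have hdiff : SKr b n (gm n) (one_r d2 (d0 + 1) τ r) - SKr b n (gm n) r =
      (gstep x' τ H 0 - gstep x τ H 0) + (x - x') * τ ^ 2 / (4 * b ^ 2) := by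
    unfold SKr
    rw [one_spin hpath.1, one_spin hr.1, c1, c2, c3, one_sum hd2d hdn hmin.2.1]
    have e1 : one_r d2 (d0 + 1) τ r n = r n := by
      unfold one_r
      rw [if_neg (by omega), if_neg (by omega)]
    rw [e1, ← hxdef, ← hx']
    ring
  have c9 : gstep x' τ H 0 - gstep x τ H 0 = 1 / 2 * (x' - x) * ∫ s in (0 : ℝ)..τ,
      Rf x' x τ H s := c4
  rw [c9] at hdiff
  set I := ∫ s in (0 : ℝ)..τ, Rf x' x τ H s with hI
  set J := ∫ s in (0 : ℝ)..τ, Rb n (gm n) r d0 s with hJ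
  have k1 : K * (x - x') * (τ ^ 3 / 3) ≤ c * x ^ 4 / 3 := by
    have h1 : K * (x - x') ≤ K * (θ * x) := mul_le_mul_of_nonneg_left hxx1 hK
    have h2 : K * (x - x') * (τ ^ 3 / 3) ≤ K * (θ * x) * (τ ^ 3 / 3) :=
      mul_le_mul_of_nonneg_right h1 (by positivity)
    have h3 : K * (θ * x) * (τ ^ 3 / 3) = K * θ * a ^ 3 * (x ^ 4 / 3) := by rw [hτ]; ring
    have h4 : K * θ * a ^ 3 * (x ^ 4 / 3) ≤ c * (x ^ 4 / 3) :=
      mul_le_mul_of_nonneg_right hθ2 (by positivity)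
    linarith
  have k2 : c * x ^ 4 / 2 ≤ I - τ ^ 2 / 2 / b ^ 2 := by
    have : 0 < c * x ^ 4 := by positivity
    linarith
  have k3 : 1 / 2 * (x' - x) * I + (x - x') * τ ^ 2 / (4 * b ^ 2) =
      -(1 / 2 * (x - x') * (I - τ ^ 2 / 2 / b ^ 2)) := by
    field_simp
    ring
  have k4 : 1 / 2 * (θ * x / 2) * (c * x ^ 4 / 2) ≤
      1 / 2 * (x - x') * (I - τ ^ 2 / 2 / b ^ 2) :=
    mul_le_mul (by linarith) k2 (by positivity) (by linarith)
  have k5 : 1 / 2 * (θ * x / 2) * (c * x ^ 4 / 2) = θ * c / 8 * x ^ 5 := by ring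
  have k6 : min c (min 1 (θ * c / 8)) * x ^ 5 ≤ θ * c / 8 * x ^ 5 :=
    mul_le_mul_of_nonneg_right ((min_le_right _ _).trans (min_le_right _ _)) (by positivity)
  linarith

end Vale.Agent.P146.Lb
end

section

/-!
# P146, Lt: the lower tail of the free energy at `β ≥ 1`
-/

open MeasureTheory ProbabilityTheory Filter Topology

namespace Vale.Agent.P146.Lt

open Vale.Agent.P146.Sx (pv)

/-- `P(F_n ≤ E F_n - t) ≤ exp (-a t² / n^(99/100))` -/
theorem low_dev {β : ℝ} (hβ : 1 ≤ β) : ∃ a : ℝ, 0 < a ∧ ∀ n : ℕ, 1 ≤ n → ∀ t : ℝ, 0 ≤ t →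
    (disorder n).real {g | freeEnergy n β g ≤ ∫ g, freeEnergy n β g ∂(disorder n) - t} ≤
      Real.exp (-(a * t ^ 2 / (n : ℝ) ^ (99 / 100 : ℝ))) := by
  obtain ⟨C, hC⟩ := Sx.var_upper5 hβ
  have hβ0 : 0 < β := by linarith
  set D : ℝ := √(max C 1 * β ^ 2 * 451 / 2) with hD
  have hC1 : (1 : ℝ) ≤ max C 1 := le_max_right _ _
  have hDpos : 0 < D := Real.sqrt_pos.2 (by positivity)
  refine ⟨1 / (8 * D), by positivity, fun n hn t ht => ?_⟩
  have hn1 : (1 : ℝ) ≤ n := by exact_mod_cast hn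
  have hn0 : (0 : ℝ) < n := by linarith
  have hlog0 : 0 ≤ Real.log n := Real.log_nonneg hn1
  have hlog : 1 + Real.log n ≤ 451 * (n : ℝ) ^ (1 / 450 : ℝ) := by
    have h1 := Real.log_le_rpow_div hn0.le (show (0 : ℝ) < 1 / 450 by norm_num)
    have h2 : (1 : ℝ) ≤ (n : ℝ) ^ (1 / 450 : ℝ) := Real.one_le_rpow hn1 (by norm_num)
    have h3 : (n : ℝ) ^ (1 / 450 : ℝ) / (1 / 450) = 450 * (n : ℝ) ^ (1 / 450 : ℝ) := by ring
    linarith
  have hV : Var[freeEnergy n β; disorder n] ≤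
      max C 1 * (n : ℝ) ^ (44 / 45 : ℝ) * (1 + Real.log n) := by
    refine (hC n hn).trans ?_
    gcongr
    exact le_max_left _ _
  have hVpos : 0 < max C 1 * (n : ℝ) ^ (44 / 45 : ℝ) * (1 + Real.log n) := by positivity
  have h := sk_low hβ0 hn hVpos hV ht
  refine h.trans (Real.exp_le_exp.2 (neg_le_neg ?_))
  have hsq : √(max C 1 * (n : ℝ) ^ (44 / 45 : ℝ) * (1 + Real.log n) * (β ^ 2 * n / 2)) ≤
      D * (n : ℝ) ^ (99 / 100 : ℝ) := by
    have e1 : (n : ℝ) ^ (44 / 45 : ℝ) * (n : ℝ) ^ (1 / 450 : ℝ) * n =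
        ((n : ℝ) ^ (99 / 100 : ℝ)) ^ 2 := by
      rw [← Real.rpow_natCast, ← Real.rpow_mul hn0.le, ← Real.rpow_add hn0,
        ← Real.rpow_add_one hn0.ne']
      norm_num
    have e2 : max C 1 * (n : ℝ) ^ (44 / 45 : ℝ) * (1 + Real.log n) * (β ^ 2 * n / 2) ≤
        (D * (n : ℝ) ^ (99 / 100 : ℝ)) ^ 2 := by
      have e3 : D ^ 2 = max C 1 * β ^ 2 * 451 / 2 := Real.sq_sqrt (by positivity)
      rw [mul_pow, e3, ← e1]
      calc _ ≤ max C 1 * (n : ℝ) ^ (44 / 45 : ℝ) * (451 * (n : ℝ) ^ (1 / 450 : ℝ)) *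
            (β ^ 2 * n / 2) := by gcongr
        _ = _ := by ring
    calc _ ≤ √((D * (n : ℝ) ^ (99 / 100 : ℝ)) ^ 2) := Real.sqrt_le_sqrt e2
      _ = _ := Real.sqrt_sq (by positivity)
  have hspos : 0 < √(max C 1 * (n : ℝ) ^ (44 / 45 : ℝ) * (1 + Real.log n) * (β ^ 2 * n / 2)) :=
    Real.sqrt_pos.2 (by positivity)
  calc 1 / (8 * D) * t ^ 2 / (n : ℝ) ^ (99 / 100 : ℝ)
      = t ^ 2 / (8 * (D * (n : ℝ) ^ (99 / 100 : ℝ))) := by field_simp
    _ ≤ _ := by gcongr

/-- `P(F_n ≤ n (p - s)) ≤ exp (-a s² n^(101/100))` for `s ≥ n^(-1/40)` -/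
theorem low_dev_large {β : ℝ} (hβ : 1 ≤ β) : ∃ a : ℝ, 0 < a ∧
    (∀ n : ℕ, 1 ≤ n → ∀ t : ℝ, 0 ≤ t →
      (disorder n).real {g | freeEnergy n β g ≤ ∫ g, freeEnergy n β g ∂(disorder n) - t} ≤
        Real.exp (-(a * t ^ 2 / (n : ℝ) ^ (99 / 100 : ℝ)))) ∧
    ∀ᶠ n : ℕ in atTop, ∀ s : ℝ, (n : ℝ) ^ (-(1 / 40) : ℝ) ≤ s →
      (disorder n).real {g | freeEnergy n β g ≤ n * (pv β - s)} ≤
        Real.exp (-(a * s ^ 2 * (n : ℝ) ^ (101 / 100 : ℝ))) := by
  obtain ⟨a, ha, h⟩ := low_dev hβ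
  obtain ⟨C, hC1, -, -, hlow⟩ := Sx.moment hβ
  refine ⟨a / 4, by positivity, fun n hn t ht => (h n hn t ht).trans ?_, ?_⟩
  · refine Real.exp_le_exp.2 (neg_le_neg ?_)
    have hn0 : (0 : ℝ) ≤ n := n.cast_nonneg
    gcongr
    linarith
  · have hev : ∀ᶠ n : ℕ in atTop, 2 * C ≤ (n : ℝ) ^ (1 / 360 : ℝ) :=
      ((tendsto_rpow_atTop (by norm_num : (0 : ℝ) < 1 / 360)).comp
        tendsto_natCast_atTop_atTop).eventually_ge_atTop _
    filter_upwards [hev, eventually_ge_atTop 1] with n hn hn1 s hs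
    have hn1' : (1 : ℝ) ≤ n := by exact_mod_cast hn1
    have hn0 : (0 : ℝ) < n := by linarith
    have hs0 : 0 < s := lt_of_lt_of_le (by positivity) hs
    have hkey : C * (n : ℝ) ^ (35 / 36 : ℝ) ≤ n * s / 2 := by
      have e1 : (n : ℝ) * (n : ℝ) ^ (-(1 / 40) : ℝ) =
          (n : ℝ) ^ (1 / 360 : ℝ) * (n : ℝ) ^ (35 / 36 : ℝ) := by
        rw [← Real.rpow_add hn0, ← Real.rpow_one_add' hn0.le (by norm_num)]
        norm_num
      have e2 : 2 * C * (n : ℝ) ^ (35 / 36 : ℝ) ≤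
          (n : ℝ) ^ (1 / 360 : ℝ) * (n : ℝ) ^ (35 / 36 : ℝ) :=
        mul_le_mul_of_nonneg_right hn (by positivity)
      have e3 : (n : ℝ) * (n : ℝ) ^ (-(1 / 40) : ℝ) ≤ n * s :=
        mul_le_mul_of_nonneg_left hs hn0.le
      linarith
    have hsub : (disorder n).real {g | freeEnergy n β g ≤ n * (pv β - s)} ≤
        (disorder n).real {g | freeEnergy n β g ≤
          ∫ g, freeEnergy n β g ∂(disorder n) - n * s / 2} := by
      refine measureReal_mono (fun g hg => ?_)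
      have h1 : freeEnergy n β g ≤ n * (pv β - s) := hg
      have h2 := hlow n hn1
      show freeEnergy n β g ≤ ∫ g, freeEnergy n β g ∂(disorder n) - n * s / 2
      linarith
    refine hsub.trans ((h n hn1 (n * s / 2) (by positivity)).trans ?_)
    refine Real.exp_le_exp.2 (neg_le_neg (le_of_eq ?_))
    have e4 : (n : ℝ) ^ (101 / 100 : ℝ) * (n : ℝ) ^ (99 / 100 : ℝ) = (n : ℝ) ^ 2 := by
      rw [← Real.rpow_add hn0, ← Real.rpow_natCast]
      norm_num
    have hp : (0 : ℝ) < (n : ℝ) ^ (99 / 100 : ℝ) := by positivity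
    rw [eq_div_iff hp.ne']
    calc a / 4 * s ^ 2 * (n : ℝ) ^ (101 / 100 : ℝ) * (n : ℝ) ^ (99 / 100 : ℝ)
        = a / 4 * s ^ 2 * ((n : ℝ) ^ (101 / 100 : ℝ) * (n : ℝ) ^ (99 / 100 : ℝ)) := by ring
      _ = _ := by rw [e4]; ring

end Vale.Agent.P146.Lt
end
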